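import Vale.Agent.P352L.TPD.EDefs
import Vale.Agent.P352L.R.TWO

/-!
# P352L, block TPD: row CVX with logarithms (helper97)
-/

set_option linter.all false

open MeasureTheory Set Filter Topology
open scoped SchwartzMap NNReal ENNReal

namespace Vale.Agent.P352L

open Vale.Agent.P352 Vale.Agent.P352.GF Vale.Agent.P352.BW Vale.Agent.P352.H496
open Vale.Agent.P352.H755 Vale.Agent.P352X
open UniformSpace (Completion)

noncomputable section

variable {D : Type*} [NormedAddCommGroup D] [InnerProductSpace ℂ D]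

namespace Two

open Vale.Agent.P352X.Two

/-- square integrability with a logarithmic weight -/
theorem l2_log (J : ℕ) : ∃ (m : ℕ) (C : ℝ), ∀ f : Sch,
    ∫⁻ p in Fc, ENNReal.ofReal ((1 + |0 + lm p|) ^ J * ‖ft (ev f) p‖ ^ 2) ≤
      ENNReal.ofReal ((C * sn m f) ^ 2) := by
  obtain ⟨K, K0, h⟩ := Wt.thinI
  obtain ⟨F0, h1, h3, h2⟩ := h 1 one_pos
  obtain ⟨C', C0, hC⟩ := log_le_rpow J (1 / 2) 0 (show (0 : ℝ) < 1 / 4 by norm_num)
  obtain ⟨B, m, B0, hB⟩ : ∃ (B : ℝ) (m : ℕ), 0 ≤ B ∧ ∀ f : Sch,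
      ST.sn V ℂ 7 (ftS f) ≤ B * ST.sn V ℂ m f := by
    have : ∀ (L : Sch →L[ℂ] Sch) N, ∃ (B : ℝ) (m : ℕ), 0 ≤ B ∧ ∀ f : Sch,
      ST.sn V ℂ N (L f) ≤ B * ST.sn V ℂ m f := fun L N => ST.clm_sn' (L.restrictScalars ℝ) N
    simpa only [ContinuousLinearEquiv.coe_coe] using this ftS 7
  refine ⟨m, √(C' * 32 * K) * (2 ^ 7 * B), fun f => ?_⟩
  have hS : ∀ p, (1 + ‖p‖) ^ 7 * ‖ft (ev f) p‖ ≤ 2 ^ 7 * B * sn m f := fun p => by
    have := Lie.dec le_rfl (Nat.zero_le 7) (ftS f) p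
    rw [norm_iteratedFDeriv_zero, ftS_apply, Api4.sn_eq] at this
    rw [Api4.sn_eq, mul_assoc]
    exact this.trans (mul_le_mul_of_nonneg_left (hB f) (pow_pos two_pos 7).le)
  rw [mul_assoc √_]
  generalize 2 ^ 7 * B * sn m f = S at hS
  have S0 : 0 ≤ S := le_trans (mul_nonneg (by positivity) (norm_nonneg _)) (hS 0)
  have pt : ∀ p ∈ Fc, 0 ≤ F0 p ∧
      (1 + |0 + lm p|) ^ J * ‖ft (ev f) p‖ ^ 2 ≤ C' * 32 * S ^ 2 * F0 p := fun p hp => by
    have a1 := Wt.Lm_pos ((mem_Fc p).1 hp).2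
    have a2 := ((mem_Fc' p).1 hp).1
    have a3 := h2 p hp
    have a4 := hS p
    have n := norm_nonneg p
    have a5 : ‖pm p‖ ≤ 2 * ‖p‖ := max_le (abs_be_le p) ((norm_tx_le p).trans (by linarith))
    have a6 : al p ≤ ‖p‖ := (le_abs_self _).trans (abs_al_le p)
    have a7 := hC (mu p) ((mem_Fc p).1 hp).2
    rw [show 1 / 2 * Real.log (mu p) = lm p by rw [lm]; ring] at a7
    have a8 : ‖ft (ev f) p‖ ≤ S := le_trans (le_mul_of_one_le_left (norm_nonneg _)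
      (one_le_pow₀ (by linarith))) a4
    simp only [one_mul] at a3
    refine ⟨le_trans (by positivity) a3, ?_⟩
    have a9 : ‖ft (ev f) p‖ ≤ S * 32 * (((1 + ‖pm p‖) ^ 5)⁻¹ * ((1 + al p) ^ 2)⁻¹) := by
      rw [← mul_inv, ← div_eq_mul_inv, le_div_iff₀ (by positivity)]
      calc _ ≤ ‖ft (ev f) p‖ * ((2 * (1 + ‖p‖)) ^ 5 * (1 + ‖p‖) ^ 2) := by gcongr; linarith
        _ = (1 + ‖p‖) ^ 7 * ‖ft (ev f) p‖ * 32 := by ring
        _ ≤ _ := by gcongr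
    calc _ ≤ C' * Wt.Lm (mu p) * (S * (S * 32 * (((1 + ‖pm p‖) ^ 5)⁻¹ * ((1 + al p) ^ 2)⁻¹))) := by
          rw [sq ‖_‖]
          gcongr
          exact a7
      _ = C' * 32 * S ^ 2 * (Wt.Lm (mu p) * ((1 + ‖pm p‖) ^ 5)⁻¹ * ((1 + al p) ^ 2)⁻¹) := by ring
      _ ≤ _ := by gcongr
  refine (lintegral_mono_ae ((ae_fc _).mono fun p hp =>
    ENNReal.ofReal_le_ofReal (pt p hp).2)).trans_eq ?_
  rw [← ofReal_integral_eq_lintegral_ofReal (h1.const_mul _) ((ae_fc _).mono fun p hp =>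
    mul_nonneg (by positivity) (pt p hp).1), integral_const_mul, h3, mul_pow,
    Real.sq_sqrt (by positivity)]
  congr 1
  ring

variable {c : Bs D} {J : ℕ} {Λ : ℝ → Sch →L[ℂ] Completion D}

theorem vl_of {x y : ℝ} (pol : IsPol J fun τ => Λ τ gS)
    (rel : ∀ τ f, c.bt.Phi (ft g0) (Λ τ f) = c.bt.Phi (ft (ev f)) (Λ τ gS))
    (rot : ∀ τ w, ∃ g : Sch, (ev g = fun z => g0 (gap w z)) ∧ Ga c.Q w (Λ τ g) = Λ τ gS)
    (sca : ∀ τ r s, 0 < r → 0 < s → ∃ g : Sch, (ev g = fun z => g0 (scp r s z)) ∧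
      Usc c.Q r s (Λ τ g) = ((r ^ x * s ^ y : ℝ) : ℂ) • Λ (τ + Real.log √(r * s)) gS) :
    Vl c J (ft g0) (fun τ => Λ τ gS) (x + 2) (y + 2) where
  pol := pol
  ga τ w := by
    obtain ⟨g, h1, h2⟩ := rot τ w
    have e := congrArg (Ga c.Q w) (rel τ g)
    rw [Ga_Phi w wt_g0.bd, h2, Ga_Phi w (bd_ft ⟨g, rfl⟩), h1] at e
    simpa [ft_gap, gap_gap] using e.symm
  sc τ r s hr hs := by
    obtain ⟨g, h1, h2⟩ := sca τ r s hr hs
    have b := wt_g0.bd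
    have e := congrArg (Usc c.Q r s) (rel τ g)
    rw [Usc_Phi hr hs b, h2, Usc_Phi hr hs (bd_ft ⟨g, rfl⟩), map_smul, h1] at e
    simp only [ft_scp hr hs, scp_scp _ (inv_pos.2 hs).le (inv_pos.2 hr).le, inv_mul_cancel₀ hr.ne',
      inv_mul_cancel₀ hs.ne', scp_one] at e
    rw [c.bt.smul _ b, ContinuousLinearMap.smul_apply] at e
    rw [show ((r ^ (x + 2) * s ^ (y + 2) : ℝ) : ℂ) = ((r * s) ^ 2 : ℝ) * (r ^ x * s ^ y : ℝ) by
      rw [Real.rpow_add hr, Real.rpow_add hs, Real.rpow_two, Real.rpow_two]; push_cast; ring,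
      mul_smul, e, smul_smul, ← Complex.ofReal_mul, mul_inv_cancel₀ (by positivity),
      Complex.ofReal_one, one_smul]

theorem mu_of (h : Vl c J (ft g0) (fun τ => Λ τ gS) (1 + 2) (0 + 2))
    (rel : ∀ f, c.bt.Phi (ft g0) (Λ 0 f) = c.bt.Phi (ft (ev f)) (Λ 0 gS))
    (perp : ∀ τ, inner ℂ c.Om (Λ τ gS) = 0) : ∃ (m : ℕ) (C : ℝ), ∀ f : Sch,
    ∫⁻ p, ENNReal.ofReal (‖(((mu p * be p)⁻¹ : ℝ) : ℂ)‖ ^ 2) ∂c.nu (Λ 0 f) ≤
      ENNReal.ofReal ((C * sn m f) ^ 2) := by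
  obtain ⟨κ, e⟩ := h.bound (wt_g0.mono (subset_univ _))
  obtain ⟨m, C, hC⟩ := l2_log (2 * J)
  refine ⟨m, √κ * C, fun f => ?_⟩
  have b := bd_ft (f := ev f) ⟨f, rfl⟩
  have m1 : Measurable (sq2 fun p => (ft g0 p)⁻¹ * ft (ev f) p) :=
    meas_sq2 (cont_k.measurable.mul b.1)
  have m2 : Measurable fun p => ENNReal.ofReal (‖(((mu p * be p)⁻¹ : ℝ) : ℂ)‖ ^ 2) := by fun_prop
  have md := meas_dn wt_g0.bd.1 (2 * (1 + 2) - 2 * (0 + 2)) (2 * (0 + 2) - 2)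
  replace e := e 0
  rw [Measure.restrict_eq_self_of_ae_mem (h.high wt_g0 (by norm_num) perp 0)] at e
  rw [nu_eq b (rel f), rho, wd_sq2 _ cont_k.measurable b.1,
    lintegral_withDensity_eq_lintegral_mul _ m1 m2]
  refine (lintegral_mono' e le_rfl).trans ?_
  rw [lintegral_smul_measure, lintegral_withDensity_eq_lintegral_mul _ (by fun_prop) (m1.mul m2),
    mul_assoc √_, mul_pow, Real.sq_sqrt κ.coe_nonneg, ENNReal.ofReal_mul κ.coe_nonneg,
    ENNReal.ofReal_coe_nnreal]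
  refine mul_le_mul_right ((lintegral_congr_ae ((ae_fc _).mono fun p hp => ?_)).trans_le (hC f)) _
  obtain ⟨h1, h2⟩ := (mem_Fc p).1 hp
  have d0 := dn_nonneg (ft g0) (2 * (1 + 2) - 2 * (0 + 2)) (2 * (0 + 2) - 2) hp
  have n0 := norm_pos_iff.2 (g0_ne p)
  simp only [Pi.mul_apply, sq2]
  rw [← ENNReal.ofReal_mul (by positivity), ← ENNReal.ofReal_mul (by positivity), dn,
    show (2 * (1 + 2) - 2 * (0 + 2) : ℝ) = 2 by norm_num,
    show (2 * (0 + 2) - 2 : ℝ) = 2 by norm_num, Real.rpow_two, Real.rpow_two, norm_mul, norm_inv,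
    Complex.norm_real, Real.norm_of_nonneg (by positivity)]
  congr 1
  field_simp

end Two

namespace TPD.TE

variable {E : Type*} [AddCommGroup E] [Module ℝ E]

/-- **row CVX** -/
theorem cvx_row (c : Cx D E) (b : B0 c) : CVX c := fun x hx hg hs e => by
  have rel := fun τ f => b.b.ba.tc_rel _ f Two.gS (hx (c.u.A τ e))
  have := Two.mu_of (c := c.bs) (Λ := fun τ => x (c.u.A τ e)) (J := c.u.n) (Two.vl_of
    (((c.u.pol e).map x).map ⟨⟨fun y : TT D => y Two.gS, fun _ _ => rfl⟩, fun _ _ => rfl⟩)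
    rel (fun τ w => ⟨pS 1 (Lg w) Two.gS, funext fun z => ?_, ?_⟩)
    fun τ r s hr hs' => ⟨pS √(r * s) (Lsc r s) Two.gS, funext fun z => ?_, ?_⟩) (rel 0)
    fun τ => (hx _).perp _
  · simp only [c.u.zero] at this
    exact this
  · exact (pS_apply one_pos (b.ten.lg w).1 _ z).trans (congrArg _ ((b.ten.lg w).2.1 z))
  · exact (congrArg (· Two.gS) (act_one c (Lg w) x _)).symm.trans
      (congrArg (fun y : ET D E => y _ Two.gS) (hg w))
  · exact (pS_apply (Real.sqrt_pos.2 (mul_pos hr hs')) (b.ten.lsc r s hr hs').1 _ z).trans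
      (congrArg _ ((b.ten.lsc r s hr hs').2.1 z))
  · refine (congrArg (· Two.gS) (act_A c _ (Lsc r s) x _)).symm.trans ?_
    rw [hs r s hr hs', add_comm τ, c.u.add, Real.rpow_one, Real.rpow_zero, mul_one,
      Complex.coe_smul]
    rfl

end TPD.TE

end

end Vale.Agent.P352L
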