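import Vale.Agent.P352L.TPD.Spec
import Vale.Agent.P352L.Api1C

/-!
# P352L, block TPD: row BA1 (helper76)
-/

set_option linter.all false

open MeasureTheory Filter Topology
open scoped SchwartzMap ComplexConjugate ENNReal ContDiff

namespace Vale.Agent.P352L.TPD

open Vale.Agent.P352X

open Vale.Agent.P352 Vale.Agent.P352.GF Vale.Agent.P352.BW Vale.Agent.P352.H246
open Vale.Agent.P352.H496 Vale.Agent.P352.H755 Vale.Agent.P352.H15
open UniformSpace (Completion)
open Complex (I)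

noncomputable section

namespace Ba1r

/-! ## matrices -/

lemma jr_eq (z : V) (m : Ix) : jr z m = sj m * z m := by
  fin_cases m <;> simp [jr, pt, al, be, tx, sj, GF.mdot, va, vb, eta, o, Fin.sum_univ_four] <;>
    ring

lemma sj_sq (m : Ix) : sj m * sj m = 1 := by fin_cases m <;> simp [sj]

lemma jr_jr (z : V) : jr (-jr z) = -z := funext fun m => by
  rw [jr_eq, Pi.neg_apply, jr_eq, mul_neg, ← mul_assoc, sj_sq, one_mul, Pi.neg_apply]

lemma jr_jr' (z : V) : -jr (jr z) = -z := funext fun m => by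
  rw [Pi.neg_apply, jr_eq, jr_eq, ← mul_assoc, sj_sq, one_mul, Pi.neg_apply]

lemma jr0 : jr 0 = 0 := funext fun m => by rw [jr_eq, Pi.zero_apply, mul_zero]

lemma jL_r1 : jL r1 = r1 := by
  funext m n
  by_cases h : n = m
  · rw [jL, h, sj_sq, one_mul]
  · simp [jL, r1, bas, h]

lemma jL_cm (L : Ix → V) : jL (T.cm L r1) = T.cm r1 L := by
  funext m n
  simp only [jL, T.cm_apply, r1, bas, ite_mul, mul_ite, zero_mul, mul_zero, Finset.sum_ite_eq,
    Finset.sum_ite_eq', Finset.mem_univ, if_true]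
  linear_combination (-(sj m * L m n)) * sj_sq n

lemma r1_r1 : T.cm r1 r1 = GF.one := by
  funext m n
  simp only [T.cm_apply, r1, GF.one, bas, ite_mul, zero_mul, Finset.sum_ite_eq',
    Finset.mem_univ, if_true]
  split_ifs
  · linear_combination sj_sq m
  · simp

/-- matrices as continuous linear maps -/
def sc : (Ix → V) →ₗ[ℝ] V →L[ℝ] V where
  toFun L := LinearMap.toContinuousLinearMap
    { toFun := sim 1 L 0, map_add' := simL_add L, map_smul' := simL_smul L }
  map_add' L L' := by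
    ext x n
    simp [sim, mul_add, Finset.sum_add_distrib]
  map_smul' a L := by
    ext x n
    simp [sim, Finset.mul_sum, mul_left_comm]

lemma sc_apply (L : Ix → V) (x : V) : sc L x = sim 1 L 0 x := rfl

lemma sc_cont : Continuous sc := sc.continuous_of_finiteDimensional

/-- Lorentz matrices as equivalences -/
def se {L : Ix → V} (hL : IsLor L) : V ≃L[ℝ] V :=
  (H755.simE 1 L one_pos hL).toContinuousLinearEquiv

lemma se_coe {L : Ix → V} (hL : IsLor L) : (se hL : V →L[ℝ] V) = sc L :=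
  ContinuousLinearMap.ext fun x => H755.simE_apply one_pos hL x

lemma pS_one (f : Sch) : pS 1 GF.one f = f := by
  ext z
  rw [pS_apply one_pos H496.isLor_one, H26.sim_one0]

lemma pS_mul (e : TEN) {s s' : ℝ} {L L' : Ix → V} (hs : 0 < s) (hs' : 0 < s') (hL : IsLor L)
    (hL' : IsLor L') (f : Sch) : pS s' L' (pS s L f) = pS (s * s') (T.cm L' L) f := by
  ext z
  rw [pS_apply hs' hL', pS_apply hs hL, pS_apply (mul_pos hs hs') (e.lcm L L' hL hL').1,
    (e.lcm L L' hL hL').2]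

lemma dS_pS {s : ℝ} {L : Ix → V} (hs : 0 < s) (hL : IsLor L) (v : V) (f : Sch) :
    KDa.dS v (pS s L f) = s • pS s L (KDa.dS (sim 1 L 0 v) f) := by
  ext z
  have e : (pS s L f : V → ℂ) = f ∘ (s • sc L) := funext fun z => by
    rw [pS_apply hs hL, sim_s]
    rfl
  rw [SchwartzMap.smul_apply, pS_apply hs hL]
  show fderiv ℝ (pS s L f) z v = s • fderiv ℝ f (sim s L 0 z) (sim 1 L 0 v)
  rw [e, ((f.differentiableAt.hasFDerivAt).comp z (s • sc L).hasFDerivAt).fderiv, sim_s s,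
    ← (fderiv ℝ f _).map_smul]
  rfl

lemma pS_cont (h : LIE) {ι : Type} {l : Filter ι} {L : ι → Ix → V} {L0 : Ix → V}
    (hL : ∀ i, IsLor (L i)) (h0 : IsLor L0) (hl : Tendsto L l (𝓝 L0)) (f : Sch) :
    Tendsto (fun i => pS 1 (L i) f) l (𝓝 (pS 1 L0 f)) := by
  refine h.cont V ι l (fun i => sc (L i)) (fun _ => 0) (se h0) 0 f _ _ ?_ tendsto_const_nhds
    (.of_forall fun i x => ?_) fun x => ?_
  · rw [se_coe]
    exact (sc_cont.tendsto L0).comp hl
  · rw [pS_apply one_pos (hL i), add_zero, sc_apply]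
  · rw [pS_apply one_pos h0, add_zero, ← sc_apply, ← se_coe h0]
    rfl

lemma sn_nn (m : ℕ) (f : Sch) : 0 ≤ sn m f := apply_nonneg _ _

lemma pS_bd (h : LIE) (e : TEN) (m : ℕ) :
    ∃ K : ℝ, 1 ≤ K ∧ ∀ t, |t| ≤ 1 → ∀ f, sn m (pS 1 (Lb t) f) ≤ K * sn m f := by
  obtain ⟨R, hR⟩ := (isCompact_Icc (a := (-1 : ℝ)) (b := 1)).exists_bound_of_continuousOn
    (sc_cont.comp e.lb0.2.1).continuousOn
  obtain ⟨C, hC⟩ := h.bd V m R
  refine ⟨max C 1, le_max_right _ _, fun t ht f => ?_⟩
  have h1 : ((se (e.lb t).1).symm : V →L[ℝ] V) = sc (Lb (-t)) :=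
    ContinuousLinearMap.ext fun x => (se (e.lb t).1).symm_apply_eq.2 (by
      have := (e.lcm _ _ (e.lb t).1 (e.lb (-t)).1).2 1 1 x
      rw [(e.lb t).2.2.1, add_neg_cancel, e.lb0.1, one_mul, H26.sim_one0] at this
      refine this.trans ?_
      rw [← sc_apply, ← se_coe (e.lb t).1]
      rfl)
  have h2 := hC (se (e.lb t).1) 0 f (pS 1 (Lb t) f) (by
    rw [se_coe]
    exact hR t (abs_le.1 ht)) (by
    rw [h1]
    exact hR (-t) (abs_le.1 (by rwa [abs_neg]))) fun x => by
    rw [pS_apply one_pos (e.lb t).1, add_zero, ← sc_apply, ← se_coe (e.lb t).1]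
    rfl
  rw [norm_zero, add_zero, one_pow, mul_one] at h2
  exact h2.trans (mul_le_mul_of_nonneg_right (le_max_left _ _) (sn_nn m f))

lemma pS_gro (h : LIE) (e : TEN) (m : ℕ) :
    ∃ N : ℕ, ∀ t f, sn m (pS 1 (Lb t) f) ≤ Real.exp N * Real.exp (N * |t|) * sn m f := by
  obtain ⟨K, K1, hK⟩ := pS_bd h e m
  have it : ∀ n : ℕ, ∀ t, |t| ≤ 1 → ∀ f, sn m (pS 1 (Lb (n * t)) f) ≤ K ^ n * sn m f := by
    intro n t ht
    induction n with
    | zero => exact fun f => by rw [Nat.cast_zero, zero_mul, e.lb0.1, pS_one, pow_zero, one_mul]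
    | succ n ih =>
      intro f
      have h1 := pS_mul e one_pos one_pos (e.lb (n * t)).1 (e.lb t).1 f
      rw [(e.lb _).2.2.1, one_mul] at h1
      rw [Nat.cast_succ, add_mul, one_mul, ← h1, pow_succ', mul_assoc]
      exact (hK t ht _).trans (mul_le_mul_of_nonneg_left (ih f) (by linarith))
  obtain ⟨N, hN⟩ := exists_nat_ge K
  refine ⟨N, fun t f => ?_⟩
  have h1 : (0 : ℝ) < (⌊|t|⌋₊ + 1 : ℕ) := by positivity
  have h2 : |t| ≤ (⌊|t|⌋₊ + 1 : ℕ) := by
    push_cast
    exact (Nat.lt_floor_add_one _).le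
  have h3 := it (⌊|t|⌋₊ + 1) (t / (⌊|t|⌋₊ + 1 : ℕ))
    (by rwa [abs_div, abs_of_pos h1, div_le_one h1]) f
  rw [mul_div_cancel₀ _ h1.ne'] at h3
  refine h3.trans (mul_le_mul_of_nonneg_right ?_ (sn_nn m f))
  have h4 : K ≤ Real.exp N := by linarith [Real.add_one_le_exp (N : ℝ)]
  refine (pow_le_pow_left₀ (by linarith) h4 _).trans ?_
  rw [← Real.exp_nat_mul, ← Real.exp_add, Real.exp_le_exp]
  push_cast
  nlinarith [Nat.floor_le (abs_nonneg t), (Nat.cast_nonneg N : (0 : ℝ) ≤ N)]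

/-! ## the Hilbert space -/

variable {D : Type*} [NormedAddCommGroup D] [InnerProductSpace ℂ D] {c : Ctx D}

lemma ug_ug (g : GRP c) {s s' : ℝ} {L L' : Ix → V} (a a' : V) (hs : 0 < s) (hs' : 0 < s')
    (hL : IsLor L) (hL' : IsLor L') (z : Completion D) : Ug c.Q s L a (Ug c.Q s' L' a' z) =
      Ug c.Q (s * s') (T.cm L' L) (sim s L a a') z :=
  congrArg (fun A : Completion D →L[ℂ] Completion D => A z) (g.mul s L a s' L' a' hs hs' hL hL')

lemma th_eq (j : JC c) (e : TEN) (z : Completion D) : Th c z = Ug c.Q 1 r1 0 (c.J z) := by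
  rw [Th_apply, j.ug 1 r1 0 z one_pos e.r1.1, jL_r1, jr0]

lemma th_ug (g : GRP c) (j : JC c) (e : TEN) {s : ℝ} {L : Ix → V} (a : V) (z : Completion D)
    (hs : 0 < s) (hL : IsLor L) : Th c (Ug c.Q s L a z) = Ug c.Q s L (-a) (Th c z) := by
  rw [Th_apply, th_eq j e, ug_ug g _ _ one_pos hs e.r1.1 hL, ug_ug g _ _ hs one_pos hL e.r1.1,
    j.ug _ _ _ _ (mul_pos one_pos hs) (e.lcm _ _ e.r1.1 hL).1, jL_cm, e.r1.2, jr_jr, Grp.sim_zero,
    mul_comm]

lemma th_om (g : GRP c) : Th c c.Om = c.Om := by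
  rw [Th_apply, g.vac]
  exact c.E.J_xi

lemma th_inner (g : GRP c) (v w : Completion D) :
    inner ℂ (Th c v) (Th c w) = inner ℂ w v := by
  rw [Th_apply, Th_apply, P132.g5_inner_J, inner_unitary (g.uni _ _ _)]

lemma om_om : inner ℂ c.Om c.Om = 1 := by
  rw [inner_self_eq_norm_sq_to_K, c.E.norm_xi]
  simp

lemma pp_apply (z : Completion D) : Pp c z = z - inner ℂ c.Om z • c.Om := rfl

end Ba1r

open Ba1r

variable {D : Type*} [NormedAddCommGroup D] [InnerProductSpace ℂ D] (c : Ctx D)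

/-- **row BA1** -/
theorem ba1_row : T1 c → TEN → BA1 c := fun t e => by
  have g := t.grp
  have j := t.jc
  have mul : ∀ s s' L L' x, 0 < s → 0 < s' → IsLor L → IsLor L' →
      act c s L (act c s' L' x) = act c (s * s') (T.cm L' L) x := fun s s' L L' x hs hs' hL hL' => by
    ext f
    rw [act_apply, act_apply, act_apply, ug_ug g _ _ hs hs' hL hL', Grp.sim_zero,
      pS_mul e hs hs' hL hL']
  have one : ∀ x, act c 1 GF.one x = x := fun x => by
    ext f
    rw [act_apply, Grp.ug_one, pS_one, ContinuousLinearMap.one_apply]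
  have nrm : ∀ s L x f, ‖act c s L x f‖ = ‖x (pS s L f)‖ := fun s L x f =>
    ContinuousLinearMap.norm_map_of_mem_unitary (g.uni s L 0) _
  refine ⟨fun s L a z => th_ug g j e a z, th_om g, fun z => ?_, fun z => c.E.J_J _, th_inner g,
    fun F z hF => ?_, fun z => ⟨?_, ?_, ⟨inner ℂ c.Om z, ?_⟩, fun h => ?_,
    fun s L a => ?_⟩, fun O ψ ψ' h Z hZ => ?_, mul, one, fun s s' L L' x hs hs' hL hL' => ?_,
    fun x => ?_, nrm, fun s L x v hs hL => ?_, fun ι l L L0 x f hL h0 hl => ?_, fun x => ?_⟩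
  · rw [Th_apply, th_eq j e, ug_ug g _ _ one_pos one_pos e.r1.1 e.r1.1, r1_r1, Grp.sim_zero,
      one_mul, Grp.ug_one]
    exact c.E.J_J z
  · exact c.bt.cov_anti c.bt SN.isPair_mdot measurable_id (A := fun y => -y)
      (fun p y => by simp [GF.mdot]) (Th c)
      (fun y => th_ug g j e y z one_pos H496.isLor_one) hF
  · rw [pp_apply, inner_sub_right, inner_smul_right, om_om, mul_one, sub_self]
  · rw [pp_apply, pp_apply, map_sub, ContinuousLinearMap.map_smulₛₗ, th_om g, inner_conj_symm,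
      ← th_inner g c.Om z, th_om g]
  · rw [pp_apply, sub_add_cancel]
  · rw [pp_apply, h, zero_smul, sub_zero]
  · rw [pp_apply, pp_apply, map_sub, map_smul, g.vac, ← inner_unitary (g.uni s L a) c.Om z, g.vac]
  · have h1 := h 1 (one_mem _)
    rw [star_one, ContinuousLinearMap.one_apply] at h1
    rw [pp_apply, pp_apply, inner_sub_right, inner_sub_left, inner_smul_right, inner_smul_left,
      h Z hZ, inner_conj_symm, h1, ContinuousLinearMap.star_eq_adjoint,
      ContinuousLinearMap.adjoint_inner_left]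
  · funext η
    rw [ga_apply, ga_apply, ga_apply, mul _ _ _ _ _ hs hs' hL hL',
      (e.pull η s s' L L' hs hs' hL hL').1]
  · funext η
    rw [ga_apply, one,
      (e.pull η 1 1 _ _ one_pos one_pos H496.isLor_one H496.isLor_one).2.1]
  · ext f
    simp only [act_apply, ContinuousLinearMap.comp_apply, ContinuousLinearMap.smul_apply,
      dS_pS hs hL, ContinuousLinearMap.map_smul_of_tower]
  · refine tendsto_apply (C := 1) (.of_forall fun i => ?_)
      ((x.continuous.tendsto _).comp (pS_cont t.lie hL h0 hl f))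
      (g.cont ι l (fun _ => 1) L (fun _ => 0) 1 L0 0 _ (fun i => ⟨one_pos, hL i⟩) one_pos h0
        tendsto_const_nhds hl tendsto_const_nhds)
    exact ContinuousLinearMap.opNorm_le_bound _ zero_le_one fun z => by
      rw [ContinuousLinearMap.norm_map_of_mem_unitary (g.uni _ _ _), one_mul]
  · obtain ⟨m, C, hC, h⟩ := t.lie.clm V ((normSeminorm ℂ (Completion D)).comp x.toLinearMap)
      (continuous_norm.comp x.continuous)
    obtain ⟨N, hN⟩ := pS_gro t.lie e m
    refine ⟨N, fun f => ⟨C * Real.exp N * sn m f, fun r => ?_⟩⟩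
    rw [nrm]
    refine (h _).trans ((mul_le_mul_of_nonneg_left (hN r f) hC).trans_eq (by ring))

end

end Vale.Agent.P352L.TPD
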