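import Vale.Agent.P352L.TPD.DIV
import Vale.Agent.P352L.R.Br
import Vale.Agent.P352X.Api3d

/-!
# P352L, block TPD: row CRL (helper39)
-/

set_option linter.all false

open MeasureTheory Filter Topology
open scoped SchwartzMap ComplexConjugate ENNReal ContDiff

namespace Vale.Agent.P352L.TPD

open Vale.Agent.P352X

open Vale.Agent.P352 Vale.Agent.P352.GF Vale.Agent.P352.BW Vale.Agent.P352.H246
open Vale.Agent.P352.H496 Vale.Agent.P352.H755 Vale.Agent.P352.H15
open UniformSpace (Completion)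
open Complex (I)

noncomputable section

namespace Crl

/-- the derivative is linear in the direction -/
def dL : V →ₗ[ℝ] Sch →L[ℂ] Sch where
  toFun := KDa.dS
  map_add' v w := by
    ext f x
    exact map_add (fderiv ℝ f x) v w
  map_smul' a v := by
    ext f x
    exact map_smul (fderiv ℝ f x) a v

lemma ft_dS (v : V) (f : Sch) (p : V) : ftS (KDa.dS v f) p = -(I * mdot p v) * ftS f p := by
  rw [ftS_apply, KDa.ev_dS, ft_dv ⟨f, rfl⟩, ftS_apply]

lemma dS_comm (v w : V) : KDa.dS v ∘L KDa.dS w = KDa.dS w ∘L KDa.dS v := by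
  refine ContinuousLinearMap.ext fun f => ftS.injective ?_
  ext p
  simp only [ContinuousLinearMap.comp_apply, ft_dS]
  ring

lemma bas_sum (v : V) : v = ∑ m, v m • bas m 1 := by
  funext n
  simp [bas, Finset.sum_apply]

lemma sim_bas (L : Ix → V) (m : Ix) : sim 1 L 0 (bas m 1) = L m := by
  funext n
  simp [sim, bas]

/-- the metric is invariant -/
lemma eta_inv (t : TEN) {M : Type*} [AddCommGroup M] [Module ℝ M] (G : V →ₗ[ℝ] V →ₗ[ℝ] M)
    {L : Ix → V} (hL : IsLor L) : ∑ m, eta m • G (sim 1 L 0 (bas m 1)) (sim 1 L 0 (bas m 1)) =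
      ∑ m, eta m • G (bas m 1) (bas m 1) := by
  have e : ∀ m, eta m • G (L m) (L m) =
      ∑ k, ∑ l, (eta m * L m k * L m l) • G (bas k 1) (bas l 1) := fun m => by
    conv_lhs => rw [bas_sum (L m)]
    simp only [map_sum, map_smul, LinearMap.sum_apply, LinearMap.smul_apply, Finset.smul_sum,
      smul_smul]
    rw [Finset.sum_comm]
    exact Finset.sum_congr rfl fun _ _ => Finset.sum_congr rfl fun _ _ => by congr 1; ring
  simp only [sim_bas, e]
  rw [Finset.sum_comm]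
  refine Finset.sum_congr rfl fun k _ => ?_
  rw [Finset.sum_comm]
  simp only [← Finset.sum_smul]
  have h : ∀ l, ∑ m, eta m * L m k * L m l = bas k (eta k) l := fun l => (t.tra L hL).1 k l
  simp [h, bas]

lemma l2 : ∃ (m : ℕ) (C : ℝ), ∀ f : Sch,
    ∫⁻ p, ENNReal.ofReal (‖ft (ev f) p‖ ^ 2) ≤ ENNReal.ofReal ((C * sn m f) ^ 2) := by
  obtain ⟨C, m, hC, h⟩ := ST.clm_sn_c
    (SchwartzMap.toLpCLM ℂ ℂ 2 (volume : Measure V) ∘L (ftS : Sch →L[ℂ] Sch))
  refine ⟨m, C, fun f => ?_⟩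
  have h1 := (ftS f).memLp 2 volume
  have h2 := h f
  rw [← Api4.sn_eq] at h2
  simp only [← ftS_apply]
  rw [← ofReal_integral_eq_lintegral_ofReal (SN.memLp_sq h1) (.of_forall fun p => by positivity)]
  refine ENNReal.ofReal_le_ofReal (le_trans (le_of_eq ?_) (pow_le_pow_left₀ (norm_nonneg _) h2 2))
  change _ = ‖(ftS f).toLp 2 volume‖ ^ 2
  rw [← @inner_self_eq_norm_sq ℂ, L2.inner_def, ← integral_re (L2.integrable_inner _ _)]
  refine integral_congr_ae ?_
  filter_upwards [(ftS f).coeFn_toLp 2 volume] with p hp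
  rw [hp, inner_self_eq_norm_sq]

variable {D : Type*} [NormedAddCommGroup D] [InnerProductSpace ℂ D] {c : Ctx D}

/-- composition with a derivative -/
def cD (x : V →ₗ[ℝ] TT D) : V →ₗ[ℝ] V →ₗ[ℝ] TT D :=
  LinearMap.mk₂ ℝ (fun v w => x v ∘L dL w) (fun _ _ _ => by rw [map_add]; rfl)
    (fun _ _ _ => by rw [map_smul]; rfl)
    (fun _ _ _ => by rw [map_add, ContinuousLinearMap.comp_add])
    (fun _ _ _ => by rw [map_smul, ContinuousLinearMap.comp_smul])

/-- the curl as a bilinear map -/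
def cB (n : V →ₗ[ℝ] TT D) : V →ₗ[ℝ] V →ₗ[ℝ] TT D := cD n - (cD n).flip

lemma cB_apply (n : V →ₗ[ℝ] TT D) (v w : V) : cB n v w = crl n v w := rfl

lemma dcr_eq (n : V →ₗ[ℝ] TT D) (v : V) :
    dcr n v = ∑ m, eta m • cD (cB n v) (bas m 1) (bas m 1) := by
  change _ = ∑ m, eta m • (crl n v (bas m 1) ∘L KDa.dS (bas m 1))
  simp only [dcr, bx, dvg, crl, ContinuousLinearMap.sub_comp, ContinuousLinearMap.comp_finsetSum,
    ContinuousLinearMap.finsetSum_comp, smul_sub, Finset.sum_sub_distrib,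
    ContinuousLinearMap.comp_smul, ContinuousLinearMap.smul_comp,
    ContinuousLinearMap.comp_assoc, dS_comm v]

lemma dcr_smul (n : V →ₗ[ℝ] TT D) (a : ℝ) (v : V) : dcr n (a • v) = a • dcr n v := by
  simp only [dcr_eq, map_smul, Finset.smul_sum]
  refine Finset.sum_congr rfl fun m _ => ?_
  rw [smul_comm a]
  congr 1

lemma tc_crl (b : B0 c) {n : V →ₗ[ℝ] TT D} (h : ∀ v, TC c (n v)) (v w : V) :
    TC c (crl n v w) := by
  rw [crl, sub_eq_add_neg, ← neg_one_smul ℝ]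
  exact b.ba.tc_add _ _ (b.ba.tc_der _ _ (h v)) (b.ba.tc_smul _ _ (b.ba.tc_der _ _ (h w)))

lemma tc_dcr (b : B0 c) {n : V →ₗ[ℝ] TT D} (h : ∀ v, TC c (n v)) (v : V) : TC c (dcr n v) := by
  rw [dcr_eq]
  exact Finset.sum_induction _ _ (b.ba.tc_add) b.ba.tc0 fun m _ =>
    b.ba.tc_smul _ _ (b.ba.tc_der _ _ (tc_crl b h _ _))

/-- Lorentz covariance of the curl -/
def Cv1 (c : Ctx D) (n : V →ₗ[ℝ] TT D) : Prop := ∀ L v v', IsLor L →
  act c 1 L (crl n v v') = crl n (sim 1 L 0 v) (sim 1 L 0 v')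

lemma act_dcr2 (b : B0 c) {n n' : V →ₗ[ℝ] TT D} {s : ℝ} {L : Ix → V} (hs : 0 < s) (hL : IsLor L)
    (h : ∀ v v', act c s L (crl n v v') = crl n' (sim 1 L 0 v) (sim 1 L 0 v')) (v : V) :
    act c s L (dcr n v) = dcr n' (sim s L 0 v) := by
  rw [sim_smul, dcr_smul, dcr_eq n v, dcr_eq n' (sim 1 L 0 v),
    ← eta_inv b.ten (cD (cB n' (sim 1 L 0 v))) hL, map_sum, Finset.smul_sum]
  refine Finset.sum_congr rfl fun m _ => ?_
  rw [map_smul, smul_comm]
  congr 1
  change act c s L (crl n v (bas m 1) ∘L KDa.dS (bas m 1)) = _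
  rw [b.ba.der s L _ _ hs hL, h]
  rfl

lemma mu_act {F : V → ℂ} (hF : Measurable F) {x : TT D} (h : Mu c F x) {L : Ix → V}
    (hL : IsLor L) : Mu c (fun p => F (Kin.du 1 L p)) (act c 1 L x) := by
  obtain ⟨m, C, h⟩ := h
  obtain ⟨C', m', hC', h'⟩ := ST.clm_sn' ((pS 1 L).restrictScalars ℝ) m
  refine ⟨m', |C| * C', fun f => ?_⟩
  have e := Kin.nu_U c.bR c.ct one_pos hL 0 (x (pS 1 L f))
  have h1 := h (pS 1 L f)
  rw [show c.nu (x (pS 1 L f)) = _ from e.symm,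
    lintegral_map (by fun_prop) (Kin.du_meas 1 L)] at h1
  rw [act_apply, Ug_apply _ one_pos hL]
  refine h1.trans (ENNReal.ofReal_le_ofReal ?_)
  rw [← sq_abs, abs_mul, abs_of_nonneg (Lie.sn_nonneg _ _), mul_assoc]
  refine pow_le_pow_left₀ (mul_nonneg (abs_nonneg _) (Lie.sn_nonneg _ _))
    (mul_le_mul_of_nonneg_left ?_ (abs_nonneg _)) 2
  rw [Api4.sn_eq, Api4.sn_eq]
  exact h' f

lemma sw_a (t : TEN) : sim 1 sw 0 va = vb := by
  rw [← pt_eta va, t.sw.2]
  refine null_ext (by simp) (by simp) ?_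
  rw [tx_pt, tx_va, tx_vb]
  ext i
  fin_cases i <;> simp

lemma gap_a (w : R2) : gap w va = va := null_ext (by simp) (by simp) (by simp)

lemma scp_a (r s : ℝ) : scp r s va = r • va := null_ext (by simp) (by simp) (by simp)

lemma meas0 : MeasurableSet {p : V | mu p = 0} := measurableSet_eq_fun meas_mu measurable_const

/-- the massless part of the curl -/
def Z (c : Ctx D) (n : V →ₗ[ℝ] TT D) : V →ₗ[ℝ] V →ₗ[ℝ] TT D :=
  (cB n).compr₂ ⟨⟨fun x => c.bt.P {p | mu p = 0} ∘L x, ContinuousLinearMap.comp_add _⟩,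
    fun a x => ContinuousLinearMap.comp_smul _ a x⟩

lemma Z_apply (n : V →ₗ[ℝ] TT D) (v w : V) (f : Sch) :
    Z c n v w f = c.bt.P {p | mu p = 0} (crl n v w f) := rfl

lemma Z_swap (n : V →ₗ[ℝ] TT D) (v w : V) : Z c n v w = -Z c n w v := by
  ext f
  simp [Z_apply, crl]

lemma Z_lor1 {n : V →ₗ[ℝ] TT D} (hc : Cv1 c n) {L : Ix → V} (hL : IsLor L) {v w : V}
    (h : Z c n v w = 0) : Z c n (sim 1 L 0 v) (sim 1 L 0 w) = 0 := by
  ext f
  have e := Kin.U_P c.bR c.ct one_pos hL 0 meas0 (crl n v w (pS 1 L f))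
  rw [show Kin.du 1 L ⁻¹' {p | mu p = 0} = {p | mu p = 0} from Set.ext fun p => by
    simp only [Set.mem_preimage, Set.mem_setOf_eq, mu, Kin.du_sq _ hL, one_pow, one_mul]] at e
  rw [Z_apply, ← hc L v w hL, act_apply, Ug_apply _ one_pos hL]
  refine e.symm.trans ?_
  rw [← Ug_apply _ one_pos hL]
  exact (congrArg (Ug c.Q 1 L 0) (DFunLike.congr_fun h (pS 1 L f))).trans (map_zero _)

lemma tc_phi (b : B0 c) {F : V → ℂ} (hF : SN.Bd F) {x : TT D} (h : TC c x) :
    TC c (c.bt.Phi F ∘L x) := by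
  refine ⟨fun a f => ?_, fun f => ?_⟩
  · rw [ContinuousLinearMap.comp_apply, ContinuousLinearMap.comp_apply, ← h.tra, ← c.bt.Phi_ch,
      ← c.bt.Phi_ch, c.bt.comm hF (SN.isPair_mdot.bd a)]
  · have h2 := c.bt.cov c.bt SN.isPair_mdot measurable_id (A := id) (fun _ _ => rfl) (Pp c)
      (fun y => ((b.ba.pp (x f)).2.2.2.2 1 GF.one y).symm) hF
    rw [(b.ba.pp (x f)).2.2.2.1 (h.perp f)] at h2
    exact (congrArg (inner ℂ c.Om) h2.symm).trans (b.ba.pp _).1

/-- the massless part -/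
def PZ (c : Ctx D) : TT D →ₗ[ℝ] TT D :=
  ⟨⟨fun x => c.bt.P {p | mu p = 0} ∘L x, ContinuousLinearMap.comp_add _⟩,
    fun a x => ContinuousLinearMap.comp_smul _ a x⟩

lemma PZ_act (b : B0 c) {s : ℝ} {L : Ix → V} (hs : 0 < s) (hL : IsLor L) (x : TT D) :
    act c s L (PZ c x) = PZ c (act c s L x) := ContinuousLinearMap.ext fun f =>
  (Dvr.P_ug b hs hL (measurableSet_singleton 0) (by simp [hs.ne']) _).symm

/-- a covariant highest weight component has no massless part -/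
lemma PZ_zero (b : B0 c) (cv : CVX c) {x : TT D} {α β : ℝ} (h : TC c x)
    (h1 : ∀ w, act c 1 (Lg w) x = x) (h2 : ∀ r s, 0 < r → 0 < s →
      act c (Real.sqrt (r * s)) (Lsc r s) (PZ c x) = (r ^ α * s ^ β) • PZ c x) (hβ : -3 / 2 < β) :
    PZ c x = 0 := by
  obtain ⟨κ, hκ, e⟩ := cv (PZ c x) α β (tc_phi b (SN.Bd.ind meas0) h)
    (fun w => by rw [PZ_act b one_pos (b.ten.lg w).1, h1]) h2 hβ
  ext f
  have h3 : c.bt.P {p | mu p = 0} (PZ c x f) = PZ c x f :=
    (SN.Calc.P_eq_self meas0).2 (by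
      rw [show c.bt.nu (PZ c x f) = _ from SN.Calc.nu_P meas0 _]
      exact ae_restrict_mem meas0)
  rw [← h3]
  refine (c.bt.nu_eq_zero meas0 _).1 ?_
  refine (e f ▸ withDensity_absolutelyContinuous _ _ : c.nu (PZ c x f) ≪ volume.restrict Fc) ?_
  rw [Measure.restrict_apply meas0, show {p : V | mu p = 0} ∩ Fc = ∅ from
    Set.eq_empty_of_forall_notMem fun p hp => ((mem_Fc p).1 hp.2).2.ne' hp.1, measure_empty]

theorem Z_zero1 (b : B0 c) {n : V →ₗ[ℝ] TT D} (hc : Cv1 c n) (a : ∀ i, Z c n va (ex i) = 0) :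
    Z c n = 0 := by
  have sx : ∀ i, sim 1 sw 0 (ex i) = (![-1, 1] i : ℝ) • ex i := fun i => by
    rw [ex, tv, b.ten.sw.2]
    exact null_ext (by simp) (by simp) (by ext j; fin_cases i <;> fin_cases j <;> simp [e2, tv, pt])
  have a' : ∀ i, Z c n vb (ex i) = 0 := fun i => by
    have := Z_lor1 hc b.ten.sw.1 (a i)
    rw [sw_a b.ten, sx, map_smul] at this
    exact (smul_eq_zero.1 this).resolve_left (by fin_cases i <;> simp)
  have k : ∀ (α β : ℝ) i, Z c n (α • va + β • vb) (ex i) = 0 := fun α β i => by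
    simp only [map_add, map_smul, LinearMap.add_apply, LinearMap.smul_apply, a, a', smul_zero,
      add_zero]
  have e0 : (2⁻¹ : ℝ) • va + (1 : ℝ) • vb = bas 0 1 := by
    ext m; fin_cases m <;> norm_num [va, vb, bas]
  have e1 : (2⁻¹ : ℝ) • va + (-1 : ℝ) • vb = bas 1 1 := by
    ext m; fin_cases m <;> norm_num [va, vb, bas]
  have h02 := ex_0 ▸ e0 ▸ k _ _ 0
  have h03 := ex_1 ▸ e0 ▸ k _ _ 1
  have h12 := ex_0 ▸ e1 ▸ k _ _ 0
  have h13 := ex_1 ▸ e1 ▸ k _ _ 1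
  have h01 : Z c n (bas 0 1) (bas 1 1) = 0 := Z_lor1 hc b.ten.cyc.1 h03 ▸ by
    simp only [sim_bas]; rfl
  have h23 : Z c n (bas 2 1) (bas 3 1) = 0 := Z_lor1 hc b.ten.cyc.1 h12 ▸ by
    simp only [sim_bas]; rfl
  have hd : ∀ v, Z c n v v = 0 := fun v => by
    ext f
    simp [Z_apply, crl]
  have hs : ∀ {v w}, Z c n v w = 0 → Z c n w v = 0 := fun e => by rw [Z_swap, e, neg_zero]
  have all : ∀ m l, Z c n (bas m 1) (bas l 1) = 0 := fun m l => by
    fin_cases m <;> fin_cases l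
    exacts [hd _, h01, h02, h03, hs h01, hd _, h12, h13, hs h02, hs h12, hd _, h23, hs h03, hs h13,
      hs h23, hd _]
  refine LinearMap.ext₂ fun v w => ?_
  rw [bas_sum v, bas_sum w]
  simp only [map_sum, map_smul, LinearMap.sum_apply, LinearMap.smul_apply, all, smul_zero,
    Finset.sum_const_zero, LinearMap.zero_apply]

end Crl

end

end Vale.Agent.P352L.TPD
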