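import Vale.Agent.P352L.TPD.EDefs

/-!
# P352L, block TPD: the tools for parametrised distributions (helper14)
-/

set_option linter.all false

open MeasureTheory Filter Topology
open scoped SchwartzMap ComplexConjugate ENNReal ContDiff LineDeriv

namespace Vale.Agent.P352L.TPD.TE

open Vale.Agent.P352 Vale.Agent.P352.GF Vale.Agent.P352.BW Vale.Agent.P352.H246
open Vale.Agent.P352.H496 Vale.Agent.P352.H755 Vale.Agent.P352.H15
open Vale.Agent.P352X Vale.Agent.P352X.TPD Vale.Agent.P352X.TPD.Bp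
open UniformSpace (Completion)
open Complex (I)

noncomputable section

variable {D : Type*} [NormedAddCommGroup D] [InnerProductSpace ℂ D] {E : Type*} [AddCommGroup E]
  [Module ℝ E] {c : Cx D E} {w : EW D E}

theorem ba_of (t : TEN) (B : TPD.BA c.toCtx) : BA c := by
  have mul : ∀ s s' L L' x, 0 < s → 0 < s' → IsLor L → IsLor L' →
      act c s L (act c s' L' x) = act c (s * s') (T.cm L' L) x := fun s s' L L' x hs hs' hL hL' =>
    LinearMap.ext fun e => by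
      rw [act_e, act_e, act_e, B.mul _ _ _ _ _ hs hs' hL hL', ← c.u.add,
        Real.log_mul hs.ne' hs'.ne', neg_add_rev]
  have one : ∀ x, act c 1 GF.one x = x := fun x => LinearMap.ext fun e => by
    rw [act_one, B.one]
  have tca : ∀ s L x, 0 < s → IsLor L → TC c x → TC c (act c s L x) :=
    fun s L x hs hL h e => B.tc_act _ _ _ hs hL (h _)
  have loa : ∀ σ K s L x, 0 < s → IsLor L → Loc c σ K x →
      Loc c σ (sim s L 0 '' K) (act c s L x) :=
    fun σ K s L x hs hL h e => B.loc_act _ _ _ _ _ hs hL (h _)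
  have l1 : IsLor GF.one := H496.isLor_one
  refine ⟨mul, one, fun s s' L L' x hs hs' hL hL' => funext fun η => ?_, fun x => funext fun η => ?_,
    fun s L x v hs hL => LinearMap.ext fun e => B.der s L _ v hs hL,
    fun ι l L L0 x e f hL h0 hl => by simpa only [act_one] using B.cont ι l L L0 (x e) f hL h0 hl,
    fun e => B.tc0, fun x y h h' e => B.tc_add _ _ (h e) (h' e),
    fun a x h e => B.tc_smul a _ (h e), tca, fun v x h e => B.tc_der v _ (h e),
    fun σ K e => B.loc0 σ K, fun σ K x y h h' e => B.loc_add _ _ _ _ (h e) (h' e),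
    fun σ K a x h e => B.loc_smul _ _ a _ (h e), fun σ K K' x k h e => B.loc_mono _ _ _ _ k (h e),
    loa, fun σ K v x h e => B.loc_der _ _ v _ (h e),
    fun σ K x h e => B.loc_small _ _ _ fun ε hε => h ε hε e,
    fun σ K x y l h e => B.loc_lim σ K (fun n => x n e) _ (l e) fun ε hε =>
      (h ε hε).mono fun n hn => hn e,
    fun σ k => ⟨fun e => B.tc0, fun e => B.loc0 _ _, fun _ _ => by rw [map_zero, smul_zero]⟩,
    fun σ k x y h h' => ⟨fun e => B.tc_add _ _ (h.tc e) (h'.tc e),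
      fun e => B.loc_add _ _ _ _ (h.loc e) (h'.loc e), fun s hs => by
        rw [map_add, smul_add, h.hom s hs, h'.hom s hs]⟩,
    fun σ k a x h => ⟨fun e => B.tc_smul a _ (h.tc e), fun e => B.loc_smul _ _ a _ (h.loc e),
      fun s hs => by rw [map_smul, smul_comm, h.hom s hs]⟩,
    fun σ k L x hL h => ⟨tca _ _ _ one_pos hL h.tc,
      by simpa using loa _ _ _ _ _ one_pos hL h.loc, fun s hs => ?_⟩⟩
  · rw [ga_apply, ga_apply, ga_apply, mul _ _ _ _ _ hs hs' hL hL',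
      (t.pull η s s' L L' hs hs' hL hL').1]
  · rw [ga_apply, one, (t.pull η 1 1 _ _ one_pos one_pos l1 l1).2.1]
  · conv_rhs => rw [← h.hom s hs]
    rw [map_smul, mul _ _ _ _ _ hs one_pos l1 hL, mul _ _ _ _ _ one_pos hs hL l1, mul_comm]
    congr 3
    ext m n
    simp [T.cm_apply, GF.one, bas]

attribute [local irreducible] P352X.TPD.psi

theorem bp1_of (T : TEN) (S : Src c w) : BP1 c w := by
  have cov : ∀ {s L} a e φ f g, 0 < s → IsLor L → Ok φ → (∀ x, g x = f (sim s L a x)) →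
      Ug c.Q s L a (TPD.psi (w e) (pf s L φ) g) = TPD.psi (w (c.u.A (Real.log s) e)) φ f :=
    fun {s L} a e φ f g hs hL h hg =>
      Sr1.cov T a hs hL (fun I J F G => S.cov s L a e I J F G hs hL) h f g hg
  refine ⟨fun φ φ' h h' => LinearMap.ext fun e => Bp.add h h',
    fun a φ h => LinearMap.ext fun e => Bp.smul a h, fun φ h e => ⟨fun a f => ?_, fun f => ?_⟩,
    fun σ φ _ h hσ e => (S.sr e).ploc h hσ,
    fun s L φ hs hL h => LinearMap.ext fun e => ContinuousLinearMap.ext fun f => ?_,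
    fun φ φ' h h' k => LinearMap.ext fun e => (S.sr e).psy h h' k,
    fun χ X h h0 hX => LinearMap.ext fun e => (S.sr e).pc1 h h0 hX,
    fun χ Y h h0 hY => LinearMap.ext fun e => ?_⟩
  · have h1 : pf 1 GF.one φ = φ := funext fun u => by rw [TPD.pf, T.one, sim_ut, add_zero]
    have := cov a e φ (ST.tsl a f) f one_pos H496.isLor_one h fun x => by
      simp [ST.tsl_apply, sim_ut]
    rwa [h1, Real.log_one, c.u.zero] at this
  · simp [psi_e, psi_apply, inner_sum, (S.sr e).perp]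
  · have := cov 0 (c.u.A (-Real.log s) e) φ f _ hs hL h (pS_apply hs hL f)
    rwa [c.u.neg] at this
  · rw [LinearMap.sum_apply]
    exact (S.sr e).pc3 h h0 hY

namespace Bp

lemma psi_zero : psi w 0 = 0 := LinearMap.ext fun e => P352X.TPD.Bp.psi_zero

variable (T : TEN) (B : BA c) (P : BP1 c w)
include T B P

lemma dact {σ s : ℝ} {L : Ix → V} {S : V → Tn (Fin 4)} {x : EF D E} (hs : 0 < s) (hL : IsLor L)
    (hS : ContDiff ℝ ∞ S) (h : Dat c w σ (pf s L S) x) : Dat c w σ S (ga c s L x) := by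
  refine ⟨fun η => B.tc_act _ _ _ hs hL (h.tc _), fun η => ?_, fun η η' => ?_⟩
  · rw [← (T.pull η s s L L hs hs hL hL).2.2]
    exact B.loc_act _ _ _ _ _ hs hL (h.loc _)
  · rw [ga_apply, ga_apply, ← map_sub, h.coc, ← P.cov s L _ hs hL (okc T η η' hS)]
    congr 2
    funext u
    simp [cs, TPD.pf, EC.pull_apply _ hs hL]

omit P in
lemma dhom {σ : ℝ} {k : ℕ} {x : EF D E} (h : Dat c w σ 0 x)
    (hh : ∀ s : ℝ, 0 < s → s ^ k • ga c s GF.one x = x) : ∃ y, Hom c σ k y ∧ ∀ η, x η = y := by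
  obtain ⟨η0, -⟩ := T.small 1 one_pos
  have h1 : ∀ η, x η = x η0 := fun η => sub_eq_zero.1 (by rw [h.coc, Bp.cs_zero, psi_zero])
  refine ⟨x η0, ⟨h.tc _, B.loc_small _ _ _ fun ε hε => ?_, fun s hs => ?_⟩, h1⟩
  · obtain ⟨η, hη⟩ := T.small ε hε
    exact B.loc_mono _ _ _ _ (hη.trans Set.subset_union_right) (h1 η ▸ h.loc η)
  · have := congrFun (hh s hs) η0
    rwa [Pi.smul_apply, ga_apply, h1] at this

omit T P in
lemma dcont (B1 : TPD.BA c.toCtx) (H : LIE) {σ : ℝ} {S : V → Tn (Fin 4)} {x : EF D E} {ι : Type}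
    {l : Filter ι} {L : ι → Ix → V} {L0 : Ix → V} (η : EC) (e : E) (f : Sch) (hS : ContDiff ℝ ∞ S)
    (h : Dat c w σ S x) (hL : ∀ i, IsLor (L i)) (h0 : IsLor L0) (ht : Tendsto L l (𝓝 L0)) :
    Tendsto (fun i => ga c 1 (L i) x η e f) l (𝓝 (ga c 1 L0 x η e f)) := by
  have h1 : ∀ i, ga c 1 (L i) x η e f = act c 1 (L i) (x (η.pull 1 L0)) e f + TPD.act c.toCtx 1 (L i)
      (TPD.psi (w e) (cs ((η.pull 1 (L i)).1 - (η.pull 1 L0).1) S)) f := fun i => by
    rw [← psi_e, ← act_one, ← h.coc, map_sub, ga_apply, LinearMap.sub_apply,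
      ContinuousLinearMap.sub_apply, add_sub_cancel]
  have h2 : Tendsto (fun i => TPD.psi (w e) (cs ((η.pull 1 (L i)).1 - (η.pull 1 L0).1) S)
      (pS 1 (L i) f)) l (𝓝 0) :=
    psi_tend (fun ν => ((e_tend η.2.1.1 (contDiff_pi.1 hS ν) h0).comp ht).congr
      fun i => by rw [pull_eq η one_pos (hL i), pull_eq η one_pos h0]; rfl) (pS_tend H hL h0 ht f)
  have h3 := (B.cont ι l L L0 (x (η.pull 1 L0)) e f hL h0 ht).add
    (tendsto_zero_iff_norm_tendsto_zero.2 ((tendsto_zero_iff_norm_tendsto_zero.1 h2).congr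
      fun i => (B1.nrm 1 (L i) _ f).symm))
  rw [add_zero] at h3
  exact h3.congr fun i => (h1 i).symm

lemma tc_loc {σ : ℝ} {φ : V → Tn (Fin 4)} {K : Set V} (hσ : σ * σ = 1) (h : Ok φ)
    (hK : tsupport φ ⊆ K) (hp : ∀ u, φ (-u) = σ • φ u) : TC c (psi w φ) ∧ Loc c σ K (psi w φ) :=
  ⟨P.tc _ h, B.loc_mono _ _ _ _ hK (P.loc σ φ hσ h hp)⟩

lemma g1 {σ : ℝ} {X : V → Tn (Fin 3)} (hσ : σ * σ = 1) (hX : ContDiff ℝ ∞ X)
    (hp : ∀ u, X (-u) = -σ • X u) : Dat c w σ (d1 X) (g1 w X) ∧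
    (∀ s L, 0 < s → IsLor L → ga c s L (g1 w (pf s L X)) = s • g1 w X) ∧
    ∀ X' (a : ℝ), ContDiff ℝ ∞ X' →
      g1 w (X + X') = g1 w X + g1 w X' ∧ g1 w (a • X) = a • g1 w X := by
  have ok := fun (η : EC) X hX => T.okb η.1 X η.2.1.1 (ec_ev η) hX
  have h1 := fun η : EC => tc_loc T B P hσ (ok η X hX).1 (ok η X hX).2.1 fun u => funext fun ν => by
    simp [b1, dr_neg η.2.2, hp]
    ring
  refine ⟨⟨fun η => ?_, fun η => ?_, fun η η' => ?_⟩, fun s L hs hL => funext fun η => ?_,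
    fun X' a hX' => ⟨funext fun η => ?_, funext fun η => ?_⟩⟩
  · simpa [TE.g1] using B.tc_smul (-1) _ (h1 η).1
  · simpa [TE.g1] using B.loc_smul _ _ (-1) _ (h1 η).2
  · have h2 : b1 η.1 X = b1 (η.1 - η'.1) X + b1 η'.1 X := funext₂ fun u ν => by
      simp [b1, dr_sub η.2.1.1 η'.2.1.1, sub_mul]
    have h3 := P.c1 _ X (T.ec η η').1 (T.ec η η').2 hX
    rw [TE.g1, TE.g1, h2, P.add _ _ (T.okb _ X (T.ec η η').1 (sub_ev η η') hX).1 (ok η' X hX).1,
      eq_neg_of_add_eq_zero_right h3]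
    abel
  · rw [ga_apply, TE.g1, pull_eq η hs hL, (T.b1 s L η.1 X η.2.1.1.1).1,
      P.smul _ _ (T.okp s L _ hs hL (ok η X hX).1), map_neg, map_smul, P.cov s L _ hs hL (ok η X hX).1]
    simp [TE.g1]
  · have h2 : b1 η.1 (X + X') = b1 η.1 X + b1 η.1 X' := funext₂ fun u ν => by simp [b1, mul_add]
    rw [Pi.add_apply, TE.g1, TE.g1, TE.g1, h2, P.add _ _ (ok η X hX).1 (ok η X' hX').1, neg_add]
  · have h2 : b1 η.1 (a • X) = a • b1 η.1 X := funext₂ fun u ν => by simp [b1, mul_left_comm]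
    rw [Pi.smul_apply, TE.g1, TE.g1, h2, P.smul _ _ (ok η X hX).1, smul_neg]

lemma g3 {σ : ℝ} {Y : V → Tn (Fin 3)} (hσ : σ * σ = 1) (hY : ContDiff ℝ ∞ Y)
    (hp : ∀ u, Y (-u) = -σ • Y u) :
    (∀ η : EC, TC c (psi w (b3 η.1 Y)) ∧ Loc c σ (tsupport η.1) (psi w (b3 η.1 Y))) ∧
    (∀ η η' : EC, psi w (b3 η.1 Y) - psi w (b3 η'.1 Y) + psi w (cs (η.1 - η'.1) (d3 Y)) =
      ∑ r, cp (KDa.dS (bas r 1)) (psi w (cs (η.1 - η'.1) (i3 r Y)))) ∧
    (∀ s L, 0 < s → IsLor L → ga c s L (fun η => psi w (b3 η.1 (pf s L Y))) =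
      s • fun η : EC => psi w (b3 η.1 Y)) ∧
    ∀ Y' (a : ℝ) (η : EC), ContDiff ℝ ∞ Y' →
      psi w (b3 η.1 (Y + Y')) = psi w (b3 η.1 Y) + psi w (b3 η.1 Y') ∧
      psi w (b3 η.1 (a • Y)) = a • psi w (b3 η.1 Y) := by
  have ok := fun (η : EC) X hX => (T.okb η.1 X η.2.1.1 (ec_ev η) hX).2.2
  refine ⟨fun η => tc_loc T B P hσ (ok η Y hY).1 (ok η Y hY).2 fun u => funext fun ν => ?_,
    fun η η' => ?_, fun s L hs hL => funext fun η => ?_, fun Y' a η hY' => ⟨?_, ?_⟩⟩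
  · simp [b3, dr_neg η.2.2, hp]
    ring
  · have h2 : b3 η.1 Y = b3 (η.1 - η'.1) Y + b3 η'.1 Y := funext₂ fun u ν => by
      simp [b3, dr_sub η.2.1.1 η'.2.1.1, sub_mul]
    rw [h2, P.add _ _ (T.okb _ Y (T.ec η η').1 (sub_ev η η') hY).2.2.1 (ok η' Y hY).1,
      add_sub_cancel_right, P.c3 _ Y (T.ec η η').1 (T.ec η η').2 hY]
  · rw [ga_apply, pull_eq η hs hL, (T.b1 s L η.1 Y η.2.1.1.1).2,
      P.smul _ _ (T.okp s L _ hs hL (ok η Y hY).1), map_smul, P.cov s L _ hs hL (ok η Y hY).1]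
    rfl
  · have h2 : b3 η.1 (Y + Y') = b3 η.1 Y + b3 η.1 Y' := funext₂ fun u ν => by simp [b3, mul_add]
    rw [h2, P.add _ _ (ok η Y hY).1 (ok η Y' hY').1]
  · have h2 : b3 η.1 (a • Y) = a • b3 η.1 Y := funext₂ fun u ν => by simp [b3, mul_left_comm]
    rw [h2, P.smul _ _ (ok η Y hY).1]

end Bp

theorem bp_of (T : TEN) (B1 : TPD.BA c.toCtx) (H : LIE) (B : BA c) (P : BP1 c w) : BP c w := by
  refine ⟨P, fun σ => ⟨fun _ => B.tc0, fun _ => B.loc0 _ _, fun η η' => ?_⟩,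
    fun σ S S' x x' hS hS' h h' => ⟨fun η => B.tc_add _ _ (h.tc η) (h'.tc η),
      fun η => B.loc_add _ _ _ _ (h.loc η) (h'.loc η), fun η η' => ?_⟩,
    fun σ a S x hS h => ⟨fun η => B.tc_smul a _ (h.tc η), fun η => B.loc_smul _ _ a _ (h.loc η),
      fun η η' => ?_⟩,
    fun σ S S' x hS hS' hs h => ⟨h.tc, h.loc, fun η η' => ?_⟩,
    fun _ _ _ _ _ => Bp.dact T B P, fun _ _ _ => Bp.dhom T B,
    fun _ _ _ _ _ _ _ => Bp.dcont B B1 H, fun _ _ => Bp.g1 T B P, fun _ _ => Bp.g3 T B P⟩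
  · simp [Bp.cs_zero, Bp.psi_zero]
  · have : cs (η.1 - η'.1) (S + S') = cs (η.1 - η'.1) S + cs (η.1 - η'.1) S' :=
      funext fun u => by simp [cs]
    rw [this, P.add _ _ (okc T η η' hS) (okc T η η' hS'), ← h.coc, ← h'.coc,
      Pi.add_apply, Pi.add_apply, add_sub_add_comm]
  · have : cs (η.1 - η'.1) (a • S) = a • cs (η.1 - η'.1) S :=
      funext fun u => by simp [cs, smul_comm a]
    rw [this, P.smul _ _ (okc T η η' hS), ← h.coc, Pi.smul_apply, Pi.smul_apply, smul_sub]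
  · rw [h.coc]
    refine P.sy _ _ (okc T η η' hS) (okc T η η' hS') fun u => funext fun ν => ?_
    have := congrFun (hs u) ν
    simp only [cs, TPD.sy, Pi.smul_apply, smul_eq_mul] at this ⊢
    linear_combination (η.1 - η'.1) u * this

theorem b0_of (b : TPD.B0 c.toCtx) : B0 c :=
  ⟨b, b.ten, b.exp, ba_of b.ten b.ba, fun _ S =>
    bp_of b.ten b.ba b.lie (ba_of b.ten b.ba) (bp1_of b.ten S)⟩

end

end Vale.Agent.P352L.TPD.TE
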