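import Vale.Agent.P352L.TPD.EUt
import Vale.Agent.P352L.TPD.Crl1

/-!
# P352L, block TPD: row CRL (helper14)
-/

set_option linter.all false

open MeasureTheory Filter Topology
open scoped SchwartzMap ComplexConjugate ENNReal ContDiff

namespace Vale.Agent.P352L.TPD.TE

open Vale.Agent.P352 Vale.Agent.P352.GF Vale.Agent.P352.BW Vale.Agent.P352.H246
open Vale.Agent.P352.H496 Vale.Agent.P352.H755 Vale.Agent.P352.H15
open Vale.Agent.P352X Vale.Agent.P352X.TPD
open UniformSpace (Completion)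
open Complex (I)

noncomputable section

variable {D : Type*} [NormedAddCommGroup D] [InnerProductSpace ℂ D] {E : Type*} [AddCommGroup E]
  [Module ℝ E]

namespace Crl

open TPD.Crl

variable {c : Cx D E}

/-- the curl -/
def crE (n : V →ₗ[ℝ] ET D E) (v v' : V) : ET D E := cp (KDa.dS v') (n v) - cp (KDa.dS v) (n v')

lemma crE_e (n : V →ₗ[ℝ] ET D E) (v v' : V) (e : E) : crE n v v' e = crl (ev1 e n) v v' := rfl

/-- the divergence of the curl -/
def dcE (n : V →ₗ[ℝ] ET D E) (v : V) : ET D E :=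
  ∑ m, eta m • cp (KDa.dS (bas m 1)) (crE n v (bas m 1))

lemma dcE_e (n : V →ₗ[ℝ] ET D E) (v : V) (e : E) : dcE n v e = dcr (ev1 e n) v := by
  rw [dcr_eq, dcE, LinearMap.sum_apply]
  rfl

end Crl

open Crl TPD.Crl

/-- **row CRL** -/
theorem crl_row (c : Cx D E) (b : B0 c) (cv1 : TPD.CVX c.toCtx) (cv : CVX c) : CRL c := by
  intro n h hc
  have c1 : ∀ e, Cv1 c.toCtx (ev1 e n) := fun e L v v' hL => by
    have := hc 1 L v v' e one_pos hL
    rwa [Real.log_one, c.u.zero] at this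
  have d : ∀ {s L} e v, 0 < s → IsLor L → act c s L (dcE n v) e = dcE n (sim s L 0 v) e :=
    fun {s L} e v hs hL => by
      rw [act_e, dcE_e, dcE_e, act_dcr2 b.b hs hL fun v v' => hc s L v v' _ hs hL, c.u.neg]
  have a : ∀ e, Mu c.toCtx (fun p => ((mu p * be p)⁻¹ : ℝ)) (dcr (ev1 e n) va) := fun e =>
    dcE_e n va e ▸ cv (dcE n va) (fun e => dcE_e n va e ▸ tc_dcr b.b (h · e) va)
      (fun w => LinearMap.ext fun e => by
        rw [d e _ one_pos (b.ten.lg w).1, (b.ten.lg w).2.1, gap_a])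
      (fun r s hr hs => LinearMap.ext fun e => by
        rw [d e _ (Real.sqrt_pos.2 (mul_pos hr hs)) (b.ten.lsc r s hr hs).1,
          (b.ten.lsc r s hr hs).2.1, scp_a, LinearMap.smul_apply, dcE_e, dcE_e, dcr_smul]) e
  have z : ∀ i, PZ c.toCtx ∘ₗ crE n va (ex i) = 0 := fun i => c.u.eq_zero fun e he => by
    have aa : cB (ev1 e n) va va = 0 := sub_self _
    refine PZ_zero b.b cv1 (α := 1 / 2) (β := -1 / 2) (tc_crl b.b (n := ev1 e n) (h · e) _ _)
      (fun w => ?_)
      (fun r s hr hs => ?_) (by norm_num)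
    · rw [crE_e, c1 e _ _ _ (b.ten.lg w).1, (b.ten.lg w).2.1, (b.ten.lg w).2.1, gap_a,
        show gap w (ex i) = ex i + w i • va from null_ext (by simp) (by simp) (by simp),
        ← cB_apply, map_add, map_smul, aa, smul_zero, add_zero, cB_apply]
    · have p := Real.sqrt_pos.2 (mul_pos hr hs)
      have k : ∀ z, sim 1 (Lsc r s) 0 z = (Real.sqrt (r * s))⁻¹ • scp r s z := fun z => by
        rw [← (b.ten.lsc r s hr hs).2.1, sim_smul (s := Real.sqrt _), inv_smul_smul₀ p.ne']
      rw [PZ_act b.b p (b.ten.lsc r s hr hs).1, crE_e, hc _ _ _ _ _ p (b.ten.lsc r s hr hs).1, k, k,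
        scp_a,
        show scp r s (ex i) = Real.sqrt (r * s) • ex i from null_ext (by simp) (by simp) (by simp),
        inv_smul_smul₀ p.ne', smul_smul, ← cB_apply, map_smul, LinearMap.smul_apply, cB_apply,
        map_smul, ← crE_e, ← crE_e]
      refine congrArg₂ _ ?_ (he _)
      rw [neg_div, Real.rpow_neg hs.le, ← Real.sqrt_eq_rpow, ← Real.sqrt_eq_rpow,
        Real.sqrt_mul hr.le]
      have := Real.sqrt_pos.2 hr
      have := Real.sqrt_pos.2 hs
      field_simp
      exact (Real.sq_sqrt hr.le).symm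
  refine fun e => ⟨a e, ?_, fun v w f => ?_⟩
  · have := mu_act (by fun_prop) (a e) b.ten.sw.1
    rw [act_dcr2 b.b one_pos b.ten.sw.1 fun v v' => c1 e _ v v' b.ten.sw.1, sw_a b.ten] at this
    convert this using 4 with p
    rw [mu, mu, be, Kin.du_sq _ b.ten.sw.1, Kin.du_pair' _ b.ten.sw.1, sw_a b.ten, one_pow, one_mul,
      al]
  · rw [← Z_apply, Z_zero1 b.b (c1 e) fun i => LinearMap.congr_fun (z i) e]
    rfl

end

end Vale.Agent.P352L.TPD.TE
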