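import Vale.Agent.P352X.TPD.Bp2
import Vale.Agent.P352L.TPD.Ba2

/-!
# P352L, block TPD: sources without scale covariance (helper14)
-/

set_option linter.all false

open MeasureTheory Filter Topology
open scoped SchwartzMap ComplexConjugate ENNReal ContDiff LineDeriv

namespace Vale.Agent.P352L.TPD

open Vale.Agent.P352 Vale.Agent.P352.GF Vale.Agent.P352.BW Vale.Agent.P352.H246
open Vale.Agent.P352.H496 Vale.Agent.P352.H755 Vale.Agent.P352.H15
open Vale.Agent.P352X Vale.Agent.P352X.TPD Vale.Agent.P352X.TPD.Bp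
open UniformSpace (Completion)
open Complex (I)

noncomputable section

variable {D : Type*} [NormedAddCommGroup D] [InnerProductSpace ℂ D]

/-- `psi` is linear in the source -/
def psiL (φ : V → Tn (Fin 4)) : WW D →ₗ[ℝ] TT D where
  toFun w := psi w φ
  map_add' w w' := by
    simp only [psi, Pi.add_apply, ContinuousLinearMap.add_comp, Finset.sum_add_distrib]
  map_smul' a w := by
    simp only [psi, Pi.smul_apply, ContinuousLinearMap.smul_comp, Finset.smul_sum,
      RingHom.id_apply]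

/-- composition on the right -/
def rc (B : Sch →L[ℂ] Sch) : TT D →ₗ[ℝ] TT D where
  toFun x := x ∘L B
  map_add' x y := ContinuousLinearMap.add_comp _ _ _
  map_smul' a x := ContinuousLinearMap.smul_comp _ _ _

/-- sources, without covariance -/
structure Sr1 (c : Ctx D) (w : WW D) : Prop where
  perp : ∀ I J F, inner ℂ c.Om (w I J F) = 0
  ind1 : ∀ I J, w I J = w I.swap J
  ind2 : ∀ I J, w I J = w I J.swap
  c1 : ∀ n J G, OffD G → dv1 w n J G = 0
  c2 : ∀ I n G, OffD G → ∑ m, w I (m, n) (LineDeriv.lineDerivOp ((0, bas m 1) : V × V) G) = 0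
  loc : ∀ a b y I J (G G' : S2), IsNull a → IsNull b → 0 < mdot a b → OffD G →
    HasCompactSupport G → tsupport G ⊆ Wdg a b y ×ˢ Wdg a b y →
    (∀ x z, G' (x, z) = G (-x, -z)) → Pr (c.N (Wdg a b y)) c.Om (w I J G) (Th c (w I J G'))

namespace Sr1

variable {c : Ctx D} {w w' : WW D}

lemma cov (T : TEN) {Q : Theory D} {s : ℝ} {L : Ix → V} (a : V) (hs : 0 < s) (hL : IsLor L)
    (S : ∀ I J (F G : S2), OffD F → (∀ x y, G (x, y) = F (sim s L a x, sim s L a y)) →
      w' I J F = ∑ K, ∑ M, (L2 L K I * L2 L M J) • Ug Q s L a (w K M G))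
    {φ : V → Tn (Fin 4)} (h : Ok φ) (f g : Sch) (hg : ∀ x, g x = f (sim s L a x)) :
    Ug Q s L a (psi w (pf s L φ) g) = psi w' φ f := by
  have h1 : ∀ K M, Api4.ten2 (e fun u => pf s L φ u (q K M)) g = ∑ I, ∑ J,
      (L2 L K I * L2 L M J) • Api4.ten2 (pS s L (e fun u => φ u (q I J))) g := fun K M => by
    ext z
    simp only [ten_e (ok_tst (T.okp s L φ hs hL h) _), SchwartzMap.sum_apply,
      SchwartzMap.smul_apply, Api4.ten2_apply, pS_apply hs hL, e_apply (ok_tst h _), smul_eq_mul,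
      ← mul_assoc, ← Finset.sum_mul]
    exact congrArg (· * _) (T.four L _ K M)
  have h2 : ∀ I J, w' I J (Api4.ten2 (e fun u => φ u (q I J)) f) = ∑ K, ∑ M,
      (L2 L K I * L2 L M J) • Ug Q s L a (w K M (Api4.ten2 (pS s L (e fun u => φ u (q I J))) g)) :=
    fun I J => S I J _ _ (ok_offD h _ f) fun x y => by
      simp only [Api4.ten2_apply, pS_apply hs hL, hg, sim_sub]
  simp only [psi_apply, h1, h2, map_sum, map_smul]
  rw [Finset.sum_congr rfl fun K _ => Finset.sum_comm, Finset.sum_comm]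
  refine Finset.sum_congr rfl fun I _ => ?_
  rw [Finset.sum_congr rfl fun K _ => Finset.sum_comm, Finset.sum_comm]

lemma ploc (S : Sr1 c w) {σ : ℝ} {φ : V → Tn (Fin 4)} (h : Ok φ) (hσ : ∀ u, φ (-u) = σ • φ u) :
    Loc c σ (tsupport φ) (psi w φ) := by
  intro a b y f ha hb hab hf h1 h2
  simp only [psi_apply, map_sum, Finset.smul_sum]
  refine Pr.sum _ fun I _ => Pr.sum _ fun J _ => ?_
  have t := ok_tst h (q I J)
  refine (S.loc a b y I J _ ((σ : ℂ) • Api4.ten2 (e fun u => φ u (q I J)) (ng f)) ha hb hab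
    (ok_offD h _ f) ?_ (fun z hz => ?_) fun x z => ?_).cast rfl ?_
  · have := (Api4.sch_ten2 (Api4.dc_of_sch _ (e_cpt t)) (Api4.dc_of_sch _ hf)).1.2
    rwa [← funext (Api4.ten2_apply _ f)] at this
  · obtain ⟨h3, h4⟩ := ten_supp t f hz
    exact ⟨by simpa using h2 _ h4 _ (comp_supp φ _ h3), h1 h4⟩
  · have : -x - -z = -(x - z) := by abel
    simp [ten_e t, ng_apply, this, hσ, mul_assoc, -neg_sub]
  · rw [map_smul, map_smulₛₗ, Complex.conj_ofReal, Complex.coe_smul]

lemma four (S : Sr1 c w) (A : I2 → I2 → S2) :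
    ∑ I, ∑ J, w I J (A I J + A I.swap J + A I J.swap + A I.swap J.swap) =
      (4 : ℂ) • ∑ I, ∑ J, w I J (A I J) := by
  have h1 : ∀ A : I2 → I2 → S2, ∑ I, ∑ J, w I J (A I.swap J) = ∑ I, ∑ J, w I J (A I J) := fun A =>
    Fintype.sum_equiv (Equiv.prodComm _ _) _ _ fun I => Finset.sum_congr rfl fun J _ => by
      rw [S.ind1 I J]; rfl
  have h2 : ∀ A : I2 → I2 → S2, ∑ I, ∑ J, w I J (A I J.swap) = ∑ I, ∑ J, w I J (A I J) := fun A =>
    Finset.sum_congr rfl fun I _ => Fintype.sum_equiv (Equiv.prodComm _ _) _ _ fun J => by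
      rw [S.ind2 I J]; rfl
  simp only [map_add, Finset.sum_add_distrib]
  rw [h1 A, h2 A, h1 fun I J => A I J.swap, h2 A]
  module

lemma psy (S : Sr1 c w) {φ φ' : V → Tn (Fin 4)} (h : Ok φ) (h' : Ok φ')
    (hs : ∀ u, TPD.sy (φ u) = TPD.sy (φ' u)) : psi w φ = psi w φ' := by
  ext f
  refine smul_right_injective _ (by norm_num : (4 : ℂ) ≠ 0) ?_
  simp only [psi_apply, ← four S]
  refine Finset.sum_congr rfl fun I _ => Finset.sum_congr rfl fun J _ => congrArg _ ?_
  ext z
  simp only [SchwartzMap.add_apply, ten_e (ok_tst h _), ten_e (ok_tst h' _), ← add_mul,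
    ← Complex.ofReal_add]
  exact congrArg (fun t : ℝ => (t : ℂ) * _) (congrFun (hs (z.1 - z.2)) (q I J))

lemma pc1 (S : Sr1 c w) {χ : V → ℝ} {X : V → Tn (Fin 3)} (h : Tst χ) (h0 : (0 : V) ∉ tsupport χ)
    (hX : ContDiff ℝ ∞ X) : psi w (b1 χ X) + psi w (cs χ (d1 X)) = 0 := by
  ext f
  simp only [ContinuousLinearMap.add_apply, psi_apply, ← Finset.sum_add_distrib, ← map_add,
    ← ten_add, ContinuousLinearMap.zero_apply]
  rw [Finset.sum_comm]
  refine Finset.sum_eq_zero fun J _ => ?_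
  rw [Fintype.sum_prod_type_right]
  refine Finset.sum_eq_zero fun n _ => ?_
  have hg := contDiff_pi.1 hX ![n, J.1, J.2]
  refine Eq.trans (Finset.sum_congr rfl fun m _ => congrArg _ ?_) (S.c1 n J _ (off_mul h h0 hg f))
  rw [ten_der, sub_zero, e_mul_der h hg, LineDeriv.lineDerivOp_left_zero, map_zero, add_zero]
  rfl

lemma pc3 (S : Sr1 c w) {χ : V → ℝ} {Y : V → Tn (Fin 3)} (h : Tst χ) (h0 : (0 : V) ∉ tsupport χ)
    (hY : ContDiff ℝ ∞ Y) : psi w (b3 χ Y) + psi w (cs χ (d3 Y)) =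
      ∑ r, psi w (cs χ (i3 r Y)) ∘L KDa.dS (bas r 1) := by
  ext f
  simp only [ContinuousLinearMap.add_apply, psi_apply, ← Finset.sum_add_distrib, ← map_add,
    ← ten_add, ContinuousLinearMap.sum_apply, ContinuousLinearMap.comp_apply]
  refine Eq.trans (Finset.sum_congr rfl fun I _ => ?_) Finset.sum_comm
  simp only [Fintype.sum_prod_type_right]
  refine Eq.trans (Finset.sum_congr rfl fun n _ => ?_) Finset.sum_comm
  have hg := contDiff_pi.1 hY ![I.1, I.2, n]
  have h1 : ∀ r t f, Api4.ten2 (e fun u => cs χ (i3 r Y) u (q I (t, n))) f =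
      (bas r 1 t : ℂ) • Api4.ten2 (e fun u => χ u * Y u ![I.1, I.2, n]) f := fun r t f => by
    have t1 : Tst fun u => cs χ (i3 r Y) u (q I (t, n)) := tst_mul h (contDiff_const.mul hg)
    ext z
    rw [ten_e t1, SchwartzMap.smul_apply, ten_e (tst_mul h hg)]
    simp [cs, i3, q]
    ring
  have h2 := S.c2 I n _ (off_mul h h0 hg f)
  have h3 : ∀ r : Ix, ∂_{(0 - bas r 1 : V)} (e fun u => χ u * Y u ![I.1, I.2, n]) =
      -((e fun u => b3 χ Y u (q I (r, n))) + e fun u => cs χ (d3 Y) u (q I (r, n))) := fun r => by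
    rw [zero_sub, LineDeriv.lineDerivOp_left_neg, e_mul_der h hg]
    rfl
  simp only [ten_der, h3, ten_neg, map_add, map_neg, Finset.sum_add_distrib, Finset.sum_neg_distrib,
    neg_add_eq_zero] at h2
  simp only [h1, map_smul, h2]
  refine Finset.sum_congr rfl fun r _ => ?_
  rw [Finset.sum_eq_single r (fun t _ ht => by simp [bas, ht]) (by simp)]
  simp [bas, KDa.dS]

end Sr1

end

end Vale.Agent.P352L.TPD
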