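import Vale.Agent.P352L.TPD.Uni
import Vale.Agent.P352L.TPD.One

/-!
# P352L, block TPD: distributions that depend linearly on a parameter (helper14)

`E` is a real vector space with a unipotent one parameter group `A`. The dilations act on `E`
through `A (log s)`.
-/

set_option linter.all false

open MeasureTheory Filter Topology
open scoped SchwartzMap ComplexConjugate ENNReal ContDiff

namespace Vale.Agent.P352L.TPD.TE

open Vale.Agent.P352 Vale.Agent.P352.GF Vale.Agent.P352.BW Vale.Agent.P352.H246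
open Vale.Agent.P352.H496 Vale.Agent.P352.H755 Vale.Agent.P352.H15
open Vale.Agent.P352X Vale.Agent.P352X.TPD
open UniformSpace (Completion)
open Complex (I)

noncomputable section

/-- the context and a unipotent group -/
structure Cx (D : Type*) [NormedAddCommGroup D] [InnerProductSpace ℂ D] (F : Type*)
    [AddCommGroup F] [Module ℝ F] extends Ctx D where
  u : Uni F

/-- distributions that depend linearly on a parameter -/
abbrev ET (D : Type*) [NormedAddCommGroup D] [InnerProductSpace ℂ D] (E : Type*)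
    [AddCommGroup E] [Module ℝ E] := E →ₗ[ℝ] TT D

/-- families that depend on a cutoff -/
abbrev EF (D : Type*) [NormedAddCommGroup D] [InnerProductSpace ℂ D] (E : Type*)
    [AddCommGroup E] [Module ℝ E] := EC → ET D E

/-- two point distributions -/
abbrev EW (D : Type*) [NormedAddCommGroup D] [InnerProductSpace ℂ D] (E : Type*)
    [AddCommGroup E] [Module ℝ E] := E →ₗ[ℝ] WW D

variable {D : Type*} [NormedAddCommGroup D] [InnerProductSpace ℂ D] {E : Type*} [AddCommGroup E]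
  [Module ℝ E]

instance iE1 : AddCommGroup (ET D E) := LinearMap.addCommGroup
instance iE2 : Module ℝ (ET D E) := LinearMap.module
instance iE3 : DistribMulAction ℝ (ET D E) := iE2.toDistribMulAction
instance iE4 : MulAction ℝ (ET D E) := iE3.toMulAction
instance iE5 : DistribSMul ℝ (ET D E) := DistribMulAction.toDistribSMul
instance iE6 : SMulZeroClass ℝ (ET D E) := iE5.toSMulZeroClass

/-- `f ↦ w (φ (x - y) f y)` -/
def psi (w : EW D E) (φ : V → Tn (Fin 4)) : ET D E := psiL φ ∘ₗ w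

attribute [local irreducible] P352X.TPD.psi in
lemma psi_e (w : EW D E) (φ : V → Tn (Fin 4)) (e : E) : psi w φ e = TPD.psi (w e) φ := rfl

/-- the gauge datum in the first slot -/
def g1 (w : EW D E) (X : V → Tn (Fin 3)) : EF D E := fun η => -psi w (b1 η.1 X)

/-- composition with an operator on test functions -/
def cp (B : Sch →L[ℂ] Sch) : ET D E →ₗ[ℝ] ET D E where
  toFun x := rc B ∘ₗ x
  map_add' x y := LinearMap.ext fun e => map_add (rc B) (x e) (y e)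
  map_smul' a x := LinearMap.ext fun e => map_smul (rc B) a (x e)

lemma cp_e (B : Sch →L[ℂ] Sch) (x : ET D E) (e : E) : cp B x e = x e ∘L B := rfl

variable (c : Cx D E)

/-- the action of the linear similitudes -/
def act (s : ℝ) (L : Ix → V) : ET D E →ₗ[ℝ] ET D E where
  toFun x := TPD.act c.toCtx s L ∘ₗ x ∘ₗ c.u.A (-Real.log s)
  map_add' x y := by rw [LinearMap.add_comp, LinearMap.comp_add]
  map_smul' a x := by rw [LinearMap.smul_comp, LinearMap.comp_smul, RingHom.id_apply]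

lemma act_e (s : ℝ) (L : Ix → V) (x : ET D E) (e : E) :
    act c s L x e = TPD.act c.toCtx s L (x (c.u.A (-Real.log s) e)) := rfl

lemma act_one (L : Ix → V) (x : ET D E) (e : E) :
    act c 1 L x e = TPD.act c.toCtx 1 L (x e) := by
  rw [act_e, Real.log_one, neg_zero, c.u.zero]

lemma act_A (s : ℝ) (L : Ix → V) (x : ET D E) (e : E) :
    act c s L x (c.u.A (Real.log s) e) = TPD.act c.toCtx s L (x e) := by
  rw [act_e, c.u.neg']

/-- the action on families -/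
def ga (s : ℝ) (L : Ix → V) : EF D E →ₗ[ℝ] EF D E where
  toFun x η := act c s L (x (η.pull s L))
  map_add' x y := funext fun η => map_add _ _ _
  map_smul' a x := funext fun η => map_smul (act c s L) a _

lemma ga_apply (s : ℝ) (L : Ix → V) (x : EF D E) (η : EC) :
    ga c s L x η = act c s L (x (η.pull s L)) := rfl

/-- translation covariant and orthogonal to the vacuum -/
def TC (x : ET D E) : Prop := ∀ e, TPD.TC c.toCtx (x e)

/-- wedge local up to the set `K` -/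
def Loc (σ : ℝ) (K : Set V) (x : ET D E) : Prop := ∀ e, TPD.Loc c.toCtx σ K (x e)

/-- local, of scaling dimension `4 - k` up to logarithms -/
structure Hom (σ : ℝ) (k : ℕ) (y : ET D E) : Prop where
  tc : TC c y
  loc : Loc c σ ∅ y
  hom : ∀ s : ℝ, 0 < s → s ^ k • act c s GF.one y = y

/-- the time ordered products away from the diagonal, orthogonal to the vacuum -/
structure Src (w : EW D E) : Prop where
  sr : ∀ e, Sr1 c.toCtx (w e)
  cov : ∀ s L a e I J (F G : S2), 0 < s → IsLor L → OffD F →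
    (∀ x y, G (x, y) = F (sim s L a x, sim s L a y)) →
    w (c.u.A (Real.log s) e) I J F = ∑ K, ∑ M, (L2 L K I * L2 L M J) • Ug c.Q s L a (w e K M G)

/-- `x η` is a value for `w (η (x - y) S (x - y) f y)` -/
structure Dat (w : EW D E) (σ : ℝ) (S : V → Tn (Fin 4)) (x : EF D E) : Prop where
  tc : ∀ η, TC c (x η)
  loc : ∀ η : EC, Loc c σ (tsupport η.1) (x η)
  coc : ∀ η η' : EC, x η - x η' = psi w (cs (η.1 - η'.1) S)

/-- dilation covariant data for polynomials of degree `k` -/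
def HD (w : EW D E) {k : ℕ} (h : Tn (Fin 4 ⊕ Fin k)) (x : EF D E) : Prop :=
  Dat c w ((-1) ^ k) (pol h) x ∧ ∀ s : ℝ, 0 < s → s ^ k • ga c s GF.one x = x

/-- covariant data for all polynomials of degree `k` -/
def Ext (w : EW D E) (k : ℕ) : Prop := ∃ B : Tn (Fin 4 ⊕ Fin k) →ₗ[ℝ] EF D E,
  (∀ h, Dat c w ((-1) ^ k) (pol h) (B h)) ∧
  ∀ (s : ℝ) L h, 0 < s → IsLor L → s ^ k • ga c s L (B (pb L h)) = B h

/-! ## tools -/

/-- the calculus of `act`, `TC`, `Loc` -/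
structure BA : Prop where
  mul : ∀ s s' L L' x, 0 < s → 0 < s' → IsLor L → IsLor L' →
    act c s L (act c s' L' x) = act c (s * s') (T.cm L' L) x
  one : ∀ x, act c 1 GF.one x = x
  gmul : ∀ s s' L L' x, 0 < s → 0 < s' → IsLor L → IsLor L' →
    ga c s L (ga c s' L' x) = ga c (s * s') (T.cm L' L) x
  gone : ∀ x, ga c 1 GF.one x = x
  der : ∀ (s : ℝ) L x v, 0 < s → IsLor L →
    act c s L (cp (KDa.dS v) x) = s • cp (KDa.dS (sim 1 L 0 v)) (act c s L x)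
  cont : ∀ (ι : Type) (l : Filter ι) (L : ι → Ix → V) L0 x e f, (∀ i, IsLor (L i)) → IsLor L0 →
    Tendsto L l (𝓝 L0) → Tendsto (fun i => act c 1 (L i) x e f) l (𝓝 (act c 1 L0 x e f))
  tc0 : TC c 0
  tc_add : ∀ x y, TC c x → TC c y → TC c (x + y)
  tc_smul : ∀ (a : ℝ) x, TC c x → TC c (a • x)
  tc_act : ∀ s L x, 0 < s → IsLor L → TC c x → TC c (act c s L x)
  tc_der : ∀ v x, TC c x → TC c (cp (KDa.dS v) x)
  loc0 : ∀ σ K, Loc c σ K 0
  loc_add : ∀ σ K x y, Loc c σ K x → Loc c σ K y → Loc c σ K (x + y)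
  loc_smul : ∀ σ K (a : ℝ) x, Loc c σ K x → Loc c σ K (a • x)
  loc_mono : ∀ σ K K' x, K ⊆ K' → Loc c σ K x → Loc c σ K' x
  loc_act : ∀ σ K s L x, 0 < s → IsLor L → Loc c σ K x →
    Loc c σ (sim s L 0 '' K) (act c s L x)
  loc_der : ∀ σ K v x, Loc c σ K x → Loc c (-σ) K (cp (KDa.dS v) x)
  loc_small : ∀ σ K x, (∀ ε : ℝ, 0 < ε → Loc c σ (K ∪ Metric.ball 0 ε) x) → Loc c σ K x
  loc_lim : ∀ σ K (x : ℕ → ET D E) y, (∀ e f, Tendsto (fun n => x n e f) atTop (𝓝 (y e f))) →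
    (∀ ε : ℝ, 0 < ε → ∀ᶠ n in atTop, Loc c σ (K ∪ Metric.ball 0 ε) (x n)) → Loc c σ K y
  hom0 : ∀ σ k, Hom c σ k 0
  hom_add : ∀ σ k x y, Hom c σ k x → Hom c σ k y → Hom c σ k (x + y)
  hom_smul : ∀ σ k (a : ℝ) x, Hom c σ k x → Hom c σ k (a • x)
  hom_act : ∀ σ k L x, IsLor L → Hom c σ k x → Hom c σ k (act c 1 L x)

/-- the calculus of `psi` -/
structure BP1 (w : EW D E) : Prop where
  add : ∀ φ φ', Ok φ → Ok φ' → psi w (φ + φ') = psi w φ + psi w φ'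
  smul : ∀ (a : ℝ) φ, Ok φ → psi w (a • φ) = a • psi w φ
  tc : ∀ φ, Ok φ → TC c (psi w φ)
  loc : ∀ σ φ, σ * σ = 1 → Ok φ → (∀ u, φ (-u) = σ • φ u) → Loc c σ (tsupport φ) (psi w φ)
  cov : ∀ s L φ, 0 < s → IsLor L → Ok φ → act c s L (psi w (pf s L φ)) = psi w φ
  sy : ∀ φ φ', Ok φ → Ok φ' → (∀ u, sy (φ u) = sy (φ' u)) → psi w φ = psi w φ'
  c1 : ∀ χ X, Tst χ → (0 : V) ∉ tsupport χ → ContDiff ℝ ∞ X →
    psi w (b1 χ X) + psi w (cs χ (d1 X)) = 0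
  c3 : ∀ χ Y, Tst χ → (0 : V) ∉ tsupport χ → ContDiff ℝ ∞ Y →
    psi w (b3 χ Y) + psi w (cs χ (d3 Y)) = ∑ r, cp (KDa.dS (bas r 1)) (psi w (cs χ (i3 r Y)))

/-- the calculus of `psi` and `Dat` -/
structure BP (w : EW D E) : Prop extends BP1 c w where
  dzero : ∀ σ, Dat c w σ 0 0
  dadd : ∀ σ S S' x x', ContDiff ℝ ∞ S → ContDiff ℝ ∞ S' → Dat c w σ S x → Dat c w σ S' x' →
    Dat c w σ (S + S') (x + x')
  dsmul : ∀ σ (a : ℝ) S x, ContDiff ℝ ∞ S → Dat c w σ S x → Dat c w σ (a • S) (a • x)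
  dsy : ∀ σ S S' x, ContDiff ℝ ∞ S → ContDiff ℝ ∞ S' → (∀ u, TPD.sy (S u) = TPD.sy (S' u)) →
    Dat c w σ S x → Dat c w σ S' x
  dact : ∀ σ s L S x, 0 < s → IsLor L → ContDiff ℝ ∞ S → Dat c w σ (pf s L S) x →
    Dat c w σ S (ga c s L x)
  dhom : ∀ σ (k : ℕ) x, Dat c w σ 0 x → (∀ s : ℝ, 0 < s → s ^ k • ga c s GF.one x = x) →
    ∃ y, Hom c σ k y ∧ ∀ η, x η = y
  dcont : ∀ σ S x (ι : Type) (l : Filter ι) (L : ι → Ix → V) L0 η e f, ContDiff ℝ ∞ S →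
    Dat c w σ S x → (∀ i, IsLor (L i)) → IsLor L0 → Tendsto L l (𝓝 L0) →
    Tendsto (fun i => ga c 1 (L i) x η e f) l (𝓝 (ga c 1 L0 x η e f))
  g1 : ∀ σ X, σ * σ = 1 → ContDiff ℝ ∞ X → (∀ u, X (-u) = -σ • X u) →
    Dat c w σ (d1 X) (g1 w X) ∧
    (∀ s L, 0 < s → IsLor L → ga c s L (g1 w (pf s L X)) = s • g1 w X) ∧
    ∀ X' (a : ℝ), ContDiff ℝ ∞ X' → g1 w (X + X') = g1 w X + g1 w X' ∧ g1 w (a • X) = a • g1 w X
  g3 : ∀ σ Y, σ * σ = 1 → ContDiff ℝ ∞ Y → (∀ u, Y (-u) = -σ • Y u) →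
    (∀ η : EC, TC c (psi w (b3 η.1 Y)) ∧ Loc c σ (tsupport η.1) (psi w (b3 η.1 Y))) ∧
    (∀ η η' : EC, psi w (b3 η.1 Y) - psi w (b3 η'.1 Y) + psi w (cs (η.1 - η'.1) (d3 Y)) =
      ∑ r, cp (KDa.dS (bas r 1)) (psi w (cs (η.1 - η'.1) (i3 r Y)))) ∧
    (∀ s L, 0 < s → IsLor L → ga c s L (fun η => psi w (b3 η.1 (pf s L Y))) =
      s • fun η : EC => psi w (b3 η.1 Y)) ∧
    ∀ Y' (a : ℝ) (η : EC), ContDiff ℝ ∞ Y' →
      psi w (b3 η.1 (Y + Y')) = psi w (b3 η.1 Y) + psi w (b3 η.1 Y') ∧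
      psi w (b3 η.1 (a • Y)) = a • psi w (b3 η.1 Y)

/-- the tools -/
structure B0 : Prop where
  b : TPD.B0 c.toCtx
  ten : TEN
  exp : EXP
  ba : BA c
  bp : ∀ w, Src c w → BP c w

/-! ## rows -/

/-- row KILL: no local eigenvectors of low twist -/
def KILL : Prop := ∀ σ y (r s a : ℝ), TC c y → Loc c σ ∅ y → 0 < r → r < 1 → 0 < s → s < 1 →
  act c (Real.sqrt (r * s)) (Lsc r s) y = a • y → (r * s) ^ (-(15 / 8 : ℝ)) < a → y = 0

/-- row LIM: data as anisotropic limits -/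
def LIM : Prop := ∀ w, Src c w → ∀ σ S (r s a : ℝ), σ * σ = 1 → ContDiff ℝ ∞ S →
  (∀ u, S (-u) = σ • S u) → 0 < r → r < 1 → 0 < s → s < 1 →
  pf (Real.sqrt (r * s)) (Lsc r s) S = a • S → 0 ≤ a → a * (r * s) ^ (-(15 / 8 : ℝ)) < 1 →
  ∃ x, Dat c w σ S x ∧ ∀ (s' : ℝ) L (κ : ℝ), 0 < s' → IsLor L →
    (∀ z, sim 1 L 0 (scp r s z) = scp r s (sim 1 L 0 z)) → pf s' L S = κ • S →
    κ • ga c s' L x = x

/-- row WL: the weight lemma -/
def WL : Prop := ∀ σ (k : ℕ) y, σ * σ = 1 → Hom c σ k y → ∃ z : ℤ → ET D E,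
  (∀ n, Hom c σ k (z n) ∧ ∀ t, act c 1 (Lb t) (z n) = Real.exp (n * t) • z n) ∧
  (∀ n, 4 - (k : ℤ) ≤ |n| → z n = 0) ∧ y = ∑ n ∈ Finset.Icc (-3 : ℤ) 3, z n ∧
  σ • act c 1 r1 y = ∑ n ∈ Finset.Icc (-3 : ℤ) 3, (-1 : ℝ) ^ n • z n

/-- row EU: existence and uniqueness give covariance -/
def EU : Prop := ∀ w, Src c w → ∀ k : ℕ, (∀ y, Hom c ((-1) ^ k) k y → y = 0) →
  (∀ h : Tn (Fin 4 ⊕ Fin k), ∃ x, HD c w h x) → Ext c w k

/-- degrees three and higher -/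
def A3 : Prop := ∀ w, Src c w → ∀ k, 3 ≤ k → Ext c w k

/-- degrees zero and one -/
def A1 : Prop := ∀ w, Src c w → ∀ k, k < 2 → Ext c w k

/-- data for `u^2 η ⊗ n n` -/
structure Phi (w : EW D E) (Φ : V → EF D E) : Prop where
  dat : ∀ n, IsNull n → Dat c w 1 (h0 (sq n)) (Φ n)
  hom : ∀ n (t : ℝ), IsNull n → 0 < t → Φ (t • n) = t ^ 2 • Φ n
  cov : ∀ (s : ℝ) L n, 0 < s → IsLor L → IsNull n → s ^ 2 • ga c s L (Φ n) = Φ (sim 1 L 0 n)

/-- row PHI -/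
def PHI : Prop := ∀ w, Src c w → ∃ Φ, Phi c w Φ

/-- row FIVE -/
def FIVE : Prop := ∀ w Φ, Src c w → Phi c w Φ → ∀ x y, df5 (fun x => Φ (nb x)) x y = 0

/-- row TL -/
def TL : Prop := ∀ w, Src c w → ∃ B : Tn (Fin 2) →ₗ[ℝ] EF D E,
  (∀ k, Dat c w 1 (h0 (tl k)) (B k)) ∧
  ∀ (s : ℝ) L k, 0 < s → IsLor L → s ^ 2 • ga c s L (B (pb L k)) = B k

/-- row IRN: division by the energy -/
def IRN : Prop := ∀ x y v, TC c x → TC c y →
  x = (2 : ℝ) • act c 2 GF.one x + cp (KDa.dS v) y →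
  ∀ e, Mu c.toCtx (fun p => ((p o)⁻¹ : ℝ)) (x e)

/-- row CVX: highest weight components, the bound -/
def CVX : Prop := ∀ x : ET D E, TC c x → (∀ w, act c 1 (Lg w) x = x) →
  (∀ r s, 0 < r → 0 < s → act c (Real.sqrt (r * s)) (Lsc r s) x = r • x) →
  ∀ e, Mu c.toCtx (fun p => ((mu p * be p)⁻¹ : ℝ)) (x e)

/-- evaluation -/
def ev1 (e : E) (n : V →ₗ[ℝ] ET D E) : V →ₗ[ℝ] TT D := n.flip e

/-- row CRL: bounds for a covariant curl -/
def CRL : Prop := ∀ n : V →ₗ[ℝ] ET D E, (∀ v, TC c (n v)) →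
  (∀ s L v v' e, 0 < s → IsLor L → TPD.act c.toCtx s L (crl (ev1 e n) v v') =
    crl (ev1 (c.u.A (Real.log s) e) n) (sim 1 L 0 v) (sim 1 L 0 v')) → ∀ e,
  Mu c.toCtx (fun p => ((mu p * be p)⁻¹ : ℝ)) (dcr (ev1 e n) va) ∧
  Mu c.toCtx (fun p => ((mu p * al p)⁻¹ : ℝ)) (dcr (ev1 e n) vb) ∧
  ∀ v v' f, c.bt.P {p | mu p = 0} (crl (ev1 e n) v v' f) = 0

/-- row DIV: division by the momentum -/
def DIV : Prop := ∀ (n : V →ₗ[ℝ] EF D E) (cc : EC → EC → ET D E), (∀ v η, TC c (n v η)) →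
  (∀ v (η : EC), Loc c (-1) (tsupport η.1) (n v η)) → (∀ η η', TC c (cc η η')) →
  (∀ v η η', n v η - n v η' = cp (KDa.dS v) (cc η η')) →
  (∀ (s : ℝ) L v, 0 < s → IsLor L → s • ga c s L (n v) = n (sim 1 L 0 v)) →
  ∃ m : EF D E, (∀ η : EC, TC c (m η) ∧ Loc c 1 (tsupport η.1) (m η)) ∧
    (∀ η η', m η - m η' = cc η η') ∧ ∀ (s : ℝ) L, 0 < s → IsLor L → s ^ 2 • ga c s L m = m

/-- row SC -/
def SC : Prop := ∀ w, Src c w → ∃ m, Dat c w 1 (h0 et) m ∧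
  ∀ (s : ℝ) L, 0 < s → IsLor L → s ^ 2 • ga c s L m = m

/-- degree two -/
def A2 : Prop := ∀ w, Src c w → Ext c w 2

end

end Vale.Agent.P352L.TPD.TE
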