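import Vale.Agent.P352L.TPD.EUt
import Vale.Agent.P352L.TPD.DIV

/-!
# P352L, block TPD: row DIV (helper14)
-/

set_option linter.all false

open MeasureTheory Filter Topology
open scoped SchwartzMap ComplexConjugate ENNReal ContDiff

namespace Vale.Agent.P352L.TPD.TE

open Vale.Agent.P352 Vale.Agent.P352.GF Vale.Agent.P352.BW Vale.Agent.P352.H246
open Vale.Agent.P352.H496 Vale.Agent.P352.H755 Vale.Agent.P352.H15
open Vale.Agent.P352X Vale.Agent.P352X.TPD
open UniformSpace (Completion)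
open Complex (I)

noncomputable section

variable {D : Type*} [NormedAddCommGroup D] [InnerProductSpace ℂ D] {E : Type*} [AddCommGroup E]
  [Module ℝ E]

namespace Dvr

variable {c : Ctx D} {n n' : V →ₗ[ℝ] TT D} {m m' : TT D}

lemma pot_plus (b : TPD.BA c) (h : Pot c n m) (h' : Pot c n' m') : Pot c (n + n') (m + m') :=
  ⟨b.tc_add _ _ h.tc h'.tc, fun f => by
    rw [ContinuousLinearMap.add_apply, map_add, h.pos, h'.pos, ← map_add]
    simp [dvg, Finset.sum_add_distrib], fun v f => by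
    simp only [ContinuousLinearMap.add_apply, LinearMap.add_apply, map_add, h.nul, h'.nul]⟩

lemma pot_smul (b : TPD.BA c) (a : ℝ) (h : Pot c n m) : Pot c (a • n) (a • m) :=
  ⟨b.tc_smul _ _ h.tc, fun f => by
    rw [ContinuousLinearMap.smul_apply, ContinuousLinearMap.map_smul_of_tower, h.pos,
      ← ContinuousLinearMap.map_smul_of_tower]
    simp [dvg, Finset.smul_sum, smul_comm a], fun v f => by
    simp only [ContinuousLinearMap.smul_apply, LinearMap.smul_apply,
      ContinuousLinearMap.map_smul_of_tower, h.nul]⟩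

end Dvr

open Dvr TPD.Dvr

theorem div_row (c : Cx D E) (b : B0 c) (irn : IRN c) (pot : POT c.toCtx) (cr : CRL c) :
    DIV c := by
  intro n cc h1 h2 h3 h4 h5
  obtain ⟨N, hN⟩ : ∃ N : EC → V →ₗ[ℝ] ET D E, ∀ η v, N η v = n v η :=
    ⟨fun η => (LinearMap.proj η).comp n, fun _ _ => rfl⟩
  simp only [← hN] at h1 h2 h4
  replace h5 : ∀ (s : ℝ) L (η : EC), 0 < s → IsLor L → ∀ v,
      s • act c s L (N (η.pull s L) v) = N η (sim 1 L 0 v) := fun s L η hs hL v => by
    rw [hN, hN, ← h5 s L v hs hL]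
    rfl
  have h6 : ∀ (s : ℝ) L (η : EC) e, 0 < s → IsLor L → ∀ v,
      s • TPD.act c.toCtx s L (ev1 e (N (η.pull s L)) v) =
        ev1 (c.u.A (Real.log s) e) (N η) (sim 1 L 0 v) := fun s L η e hs hL v => by
    have := LinearMap.congr_fun (h5 s L η hs hL v) (c.u.A (Real.log s) e)
    rwa [LinearMap.smul_apply, act_A] at this
  have h7 : ∀ e η η' v, ev1 e (N η) v - ev1 e (N η') v = cc η η' e ∘L KDa.dS v :=
    fun e η η' v => LinearMap.congr_fun (h4 v η η') e
  have e1 : ∀ e η η' v v', crl (ev1 e (N η)) v v' = crl (ev1 e (N η')) v v' :=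
    fun e η η' v v' => by
      ext1 f
      simp [crl, sub_eq_iff_eq_add.1 (h7 e η η' _), dS_comm v v']
  have ex : ∀ η e, ∃ m, Pot c.toCtx (ev1 e (N η)) m := fun η e => by
    obtain ⟨a1, a2, a3⟩ := cr (N η) (h1 · η) (fun s L v v' e hs hL => by
      rw [e1 e η (η.pull s L), crl, map_sub, b.b.ba.der s L _ _ hs hL, b.b.ba.der s L _ _ hs hL,
        ← ContinuousLinearMap.smul_comp, ← ContinuousLinearMap.smul_comp, h6 s L η e hs hL,
        h6 s L η e hs hL, crl]) e
    refine pot.ex _ (h1 · η e) (fun v => irn _ ((2 : ℝ) ^ 2 • act c 2 GF.one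
      (cc (η.pull 2 GF.one) η)) v (h1 v η) (b.ba.tc_smul _ _ (b.ba.tc_act _ _ _ two_pos
        (lor_one b.ten) (h3 _ _))) ?_ e) a1 a2 a3
    have a4 := h5 2 _ η two_pos (lor_one b.ten) v
    rw [sim_id, sub_eq_iff_eq_add'.1 (h4 v _ η), map_add, b.ba.der _ _ _ _ two_pos (lor_one b.ten),
      sim_id, smul_add, smul_smul, ← pow_two, ← map_smul (cp _)] at a4
    exact a4.symm
  choose m hm using ex
  have ad : ∀ η e e', m η (e + e') = m η e + m η e' := fun η e e' => pot.uq _ _ _ (hm η _) (by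
    rw [ev1, map_add]
    exact pot_plus b.b.ba (hm η e) (hm η e'))
  have sm : ∀ η (a : ℝ) e, m η (a • e) = a • m η e := fun η a e => pot.uq _ _ _ (hm η _) (by
    rw [ev1, map_smul]
    exact pot_smul b.b.ba a (hm η e))
  obtain ⟨M, hM⟩ : ∃ M : EF D E, ∀ η e, M η e = m η e :=
    ⟨fun η => ⟨⟨m η, ad η⟩, sm η⟩, fun _ _ => rfl⟩
  simp only [← hM] at hm
  refine ⟨M, fun η => ⟨fun e => (hm η e).tc, fun e => ?_⟩, fun η η' => LinearMap.ext fun e => ?_,
    fun s L hs hL => funext fun η => LinearMap.ext fun e => ?_⟩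
  · exact pot.loc (ev1 e (N η)) _ _ (h1 · η e) (h2 · η e) (hm η e)
  · exact sub_eq_iff_eq_add'.2 (pot.uq _ _ _ (hm η e)
      (pot_add b.b (h3 η η' e) (h7 e η η') (hm η' e)))
  · have := pot_act b.b hs hL (h6 s L η (c.u.A (-Real.log s) e) hs hL) (hm _ _)
    rw [c.u.neg] at this
    exact pot.uq _ _ _ this (hm η e)

end

end Vale.Agent.P352L.TPD.TE
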