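import Vale.Agent.P352L.TPD.EUt
import Vale.Agent.P352X.TPD.A2

/-!
# P352L, block TPD: rows EU, A1 and A3 (helper14)
-/

set_option linter.all false

open MeasureTheory Filter Topology
open scoped SchwartzMap ComplexConjugate ENNReal ContDiff

namespace Vale.Agent.P352L.TPD.TE

open Vale.Agent.P352 Vale.Agent.P352.GF Vale.Agent.P352.BW Vale.Agent.P352.H246
open Vale.Agent.P352.H496 Vale.Agent.P352.H755 Vale.Agent.P352.H15
open Vale.Agent.P352X Vale.Agent.P352X.TPD
open UniformSpace (Completion)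
open Complex (I)

noncomputable section

variable {D : Type*} [NormedAddCommGroup D] [InnerProductSpace ℂ D] {E : Type*} [AddCommGroup E]
  [Module ℝ E]

variable {c : Cx D E} {w : EW D E} {k : ℕ}
  {h h' : Tn (Fin 4 ⊕ Fin k)} {x x' : EF D E}

lemma HD.add (b : B0 c) (hw : Src c w) (a : HD c w h x) (a' : HD c w h' x') :
    HD c w (h + h') (x + x') :=
  ⟨(b.ten.add _ k 0 h h').1 ▸ (b.bp w hw).dadd _ _ _ _ _ (b.ten.smooth _ k h).1
    (b.ten.smooth _ k h').1 a.1 a'.1, fun s hs => by rw [map_add, smul_add, a.2 s hs, a'.2 s hs]⟩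

lemma HD.smul (b : B0 c) (hw : Src c w) (t : ℝ) (a : HD c w h x) : HD c w (t • h) (t • x) :=
  ⟨(b.ten.add _ k t h h).2 ▸ (b.bp w hw).dsmul _ _ _ _ (b.ten.smooth _ k h).1 a.1,
    fun s hs => by rw [map_smul, smul_comm, a.2 s hs]⟩

lemma HD.act (b : B0 c) (hw : Src c w) {L : Ix → V} (hL : IsLor L) (a : HD c w (pb L h) x) :
    HD c w h (ga c 1 L x) :=
  ⟨(b.bp w hw).dact _ 1 L _ _ one_pos hL (b.ten.smooth _ k h).1 (by
    simpa only [b.ten.pol, one_pow, one_smul] using a.1), fun s hs => by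
      rw [← (ga_dil b hs hL x).2, (ga_dil b hs hL x).1, ← map_smul, a.2 s hs]⟩

lemma HD.uq (b : B0 c) (hw : Src c w) (u : ∀ y, Hom c ((-1) ^ k) k y → y = 0) (a : HD c w h x)
    (a' : HD c w h x') : x = x' := by
  obtain ⟨y, h1, h2⟩ := (b.bp w hw).dhom _ k _ ((b.bp w hw).dsub (b.ten.smooth _ k h).1 a.1 a'.1)
    fun s hs => by rw [map_sub, smul_sub, a.2 s hs, a'.2 s hs]
  exact sub_eq_zero.1 (funext fun η => (h2 η).trans (u y h1))

theorem eu_row (c : Cx D E) : B0 c → EU c := fun b w hw k u ex => by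
  choose x hx using ex
  refine ⟨⟨⟨x, fun h h' => (hx _).uq b hw u ((hx h).add b hw (hx h'))⟩,
    fun t h => (hx _).uq b hw u ((hx h).smul b hw t)⟩, fun h => (hx h).1, fun s L h hs hL => ?_⟩
  rw [(ga_dil b hs hL _).1, ← map_smul]
  exact (congrArg _ ((hx _).2 s hs)).trans (((hx _).act b hw hL).uq b hw u (hx h))

theorem a1_row (c : Cx D E) : B0 c → EQ1 → A1 c := fun b e w hw k hk => by
  obtain ⟨σ, h1, h2⟩ := e k hk
  have sm := fun h => b.ten.smooth (Fin 3) (k + 1) h
  have g := fun h => (b.bp w hw).g1 ((-1) ^ k) (pol h) (by rw [← mul_pow]; simp) (sm h).1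
    fun u => by rw [(sm h).2, pow_succ, mul_neg_one]
  refine ⟨⟨⟨fun h => g1 w (pol (σ h)), fun h h' => by
      rw [map_add, (b.ten.add _ _ 0 _ _).1, ((g _).2.2 _ 0 (sm _).1).1]⟩, fun t h => by
      simp only [map_smul, (b.ten.add _ _ t _ 0).2, ((g _).2.2 _ t (sm 0).1).2, RingHom.id_apply]⟩,
    fun h => (b.bp w hw).dsy _ _ _ _ ?_ (b.ten.smooth _ k h).1 (fun u => (h2 h u).symm) (g _).1,
    fun s L h hs hL => ?_⟩
  · exact P352X.TPD.A2r.sm_d1 (sm _).1
  · have := (g (σ h)).2.1 s L hs hL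
    rw [b.ten.pol, ((g _).2.2 _ _ (sm 0).1).2, map_smul, pow_succ', mul_smul] at this
    exact (congrArg (fun y => s ^ k • ga c s L (g1 w (pol y))) (h1 L h hL)).trans
      (smul_right_injective _ hs.ne' this)

theorem a3_row (c : Cx D E) : B0 c → SPAN → LIM c → WL c → EU c → A3 c :=
  fun b sp lim wl eu w hw k hk => by
  have sg : ((-1 : ℝ) ^ k) * (-1) ^ k = 1 := by rw [← mul_pow]; simp
  have hd : ∀ (h : Tn (Fin 4 ⊕ Fin k)) (r s a : ℝ), 0 < r → r < 1 → 0 < s → s < 1 →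
      pb (Lsc r s) h = a • h → 0 ≤ a →
      Real.sqrt (r * s) ^ k * a * (r * s) ^ (-(15 / 8 : ℝ)) < 1 → ∃ x, HD c w h x :=
    fun h r s a h1 h2 h3 h4 e ha lt => by
      obtain ⟨x, k1, k2⟩ := lim w hw _ _ r s _ sg (b.ten.smooth _ k h).1 (b.ten.smooth _ k h).2
        h1 h2 h3 h4 (by rw [b.ten.pol, e, (b.ten.add _ k a h h).2, smul_smul]) (by positivity) lt
      exact ⟨x, k1, fun t ht => k2 t _ _ ht (lor_one b.ten) (fun z => by rw [sim_id, sim_id])
        (by rw [b.ten.pol, b.ten.one])⟩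
  rcases hk.eq_or_lt with rfl | hk
  · refine eu w hw 3 (fun y hy => ?_) fun h => ?_
    · have a : ∀ y, Hom c ((-1) ^ 3) 3 y → act c 1 r1 y = -y := fun y hy => by
        obtain ⟨z, -, z2, z3, z4⟩ := wl _ 3 y sg hy
        have z0 : ∀ n ∈ Finset.Icc (-3 : ℤ) 3, n ≠ 0 → z n = 0 := fun n _ hn =>
          z2 n (by simpa using Int.one_le_abs hn)
        rw [Finset.sum_eq_single 0 z0 (by simp)] at z3
        rw [Finset.sum_eq_single 0 (fun n hn h => by rw [z0 n hn h, smul_zero]) (by simp), ← z3,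
          zpow_zero, one_smul, show (-1 : ℝ) ^ 3 = -1 by norm_num, neg_one_smul] at z4
        exact neg_eq_iff_eq_neg.1 z4
      have l1 := b.ten.r1.1
      have l2 := b.ten.cyc.1
      have cube : ∀ L, IsLor L → (∀ z, sim 1 L 0 (sim 1 L 0 (sim 1 L 0 z)) = z) →
          act c 1 L (act c 1 L (act c 1 L y)) = y := fun L hL e => by
        rw [b.ba.mul _ _ _ _ _ one_pos one_pos hL hL, one_mul, b.ba.mul _ _ _ _ _ one_pos one_pos
          (b.ten.lcm L L hL hL).1 hL, one_mul, show T.cm L (T.cm L L) = GF.one from T.mat_ext fun z => by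
            rw [T.sim_cm, T.sim_cm, e, sim_id], b.ba.one]
      have ha := fun y => b.ba.hom_act ((-1) ^ 3) 3 cyc y l2
      have m : ∀ y, Hom c ((-1) ^ 3) 3 y → act c 1 (T.cm cyc r1) y = -act c 1 cyc y := fun y hy => by
        rw [← a _ (ha y hy), b.ba.mul _ _ _ _ _ one_pos one_pos l1 l2, one_mul]
      have a1 := cube _ (b.ten.lcm _ _ l1 l2).1 fun z => by
        simp only [T.sim_cm, b.ten.cyc.2]
        ext n
        fin_cases n <;> simp [sim, r1, bas, sj]
      rw [m y hy, map_neg, m _ (ha y hy), neg_neg, m _ (ha _ (ha y hy)), cube _ l2 fun z => by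
        simp only [b.ten.cyc.2]
        ext n
        fin_cases n <;> rfl] at a1
      have : y = (2⁻¹ : ℝ) • (y - -y) := by module
      rw [this, a1, sub_self, smul_zero]
    · have := sp ⟨⟨⟨{h | ∃ x, HD c w h x}, fun ⟨_, a⟩ ⟨_, a'⟩ => ⟨_, a.add b hw a'⟩⟩,
        0, ?_, fun s _ => by rw [map_zero, smul_zero]⟩, fun t _ ⟨_, a⟩ => ⟨_, a.smul b hw t⟩⟩
        (fun L h hL ⟨_, a⟩ => ⟨_, a.act b hw hL⟩) fun h j hj e => ?_
      · exact (this.ge Submodule.mem_top : h ∈ _)
      · have := (b.ten.add (Fin 4) 3 0 0 0).2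
        rw [zero_smul, zero_smul] at this
        exact this ▸ (b.bp w hw).dzero _
      · refine hd h (2 ^ (-1 : ℝ)) (2 ^ (-17 : ℝ)) _ (by positivity) (by norm_num) (by positivity)
          (by norm_num) (e _ _ (by positivity) (by positivity)) (by positivity) ?_
        simp only [← Real.rpow_add two_pos, ← Real.rpow_sub two_pos, Real.sqrt_eq_rpow,
          ← Real.rpow_mul zero_le_two, ← Real.rpow_natCast]
        refine Real.rpow_lt_one_of_one_lt_of_neg one_lt_two ?_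
        have : (1 : ℝ) ≤ j := by exact_mod_cast hj
        push_cast
        linarith
  · refine eu w hw k (fun y hy => ?_) fun h => hd h (2 ^ (-1 : ℝ)) (2 ^ (-1 : ℝ)) 1 (by positivity)
      (by norm_num) (by positivity) (by norm_num) (by
        rw [(b.ten.lsc _ 1 (by positivity) one_pos).2.2, b.ten.one, one_smul]) zero_le_one ?_
    · obtain ⟨z, -, z2, z3, -⟩ := wl _ k y sg hy
      rw [z3, Finset.sum_eq_zero fun n _ => z2 n (by have := abs_nonneg n; omega)]
    · simp only [← Real.rpow_add two_pos, Real.sqrt_eq_rpow, ← Real.rpow_mul zero_le_two,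
        ← Real.rpow_natCast, mul_one]
      refine Real.rpow_lt_one_of_one_lt_of_neg one_lt_two ?_
      have : (4 : ℝ) ≤ k := by exact_mod_cast hk
      linarith

end

end Vale.Agent.P352L.TPD.TE
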