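import Vale.Agent.P352X.TPD.FIN.B
import Vale.Agent.P352L.TPD.EDefs

/-!
# P352L, block TPD: the covariant extension to the diagonal (helper14)
-/

set_option linter.all false

open MeasureTheory Filter Topology Set
open scoped SchwartzMap ComplexConjugate ContDiff

namespace Vale.Agent.P352L.TPD.TE

open Vale.Agent.P352 Vale.Agent.P352.GF Vale.Agent.P352.BW
open Vale.Agent.P352X Vale.Agent.P352X.TPD Vale.Agent.P352X.TPD.Fi Api4
open Vale.Agent.P352.H755 (Tst)
open Vale.Agent.P352.H496 (IsNull Wdg)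
open Vale.Agent.P352Y (mon dc_mon f2 jet ext5 expand2 expand' tsupport_comp sw_sw)
open UniformSpace (Completion)

noncomputable section

variable {D : Type*} [NormedAddCommGroup D] [InnerProductSpace ℂ D] {E : Type*} [AddCommGroup E]
  [Module ℝ E] {c : Cx D E} {w v : EW D E} {k m : ℕ}

/-- covariant local extensions of `w` -/
structure Full (c : Cx D E) (w v : EW D E) : Prop where
  off : ∀ e I J F, OffD F → v e I J F = w e I J F
  perp : ∀ e I J F, inner ℂ c.Om (v e I J F) = 0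
  cov : ∀ s L a e I J (F G : S2), 0 < s → IsLor L →
    (∀ x y, G (x, y) = F (sim s L a x, sim s L a y)) → v (c.u.A (Real.log s) e) I J F =
      ∑ K, ∑ M, (L2 L K I * L2 L M J) • Ug c.Q s L a (v e K M G)
  loc : ∀ e a b y I J (G G' : S2), IsNull a → IsNull b → 0 < mdot a b →
    HasCompactSupport G → tsupport G ⊆ Wdg a b y ×ˢ Wdg a b y → (∀ x z, G' (x, z) = G (-x, -z)) →
    Pr (c.N (Wdg a b y)) c.Om (v e I J G) (Th c.toCtx (v e I J G'))

namespace Fn

theorem ext_sym (t : TEN) (h : Ext c w k) :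
    ∃ B : Tn (Fin 4 ⊕ Fin k) →ₗ[ℝ] EF D E, (∀ h, Dat c w ((-1) ^ k) (pol h) (B h)) ∧
      (∀ (s : ℝ) L h, 0 < s → IsLor L → s ^ k • ga c s L (B (pb L h)) = B h) ∧
      ∀ I J γ (σ : Equiv.Perm (Fin k)), B (un I J (γ ∘ σ)) = B (un I J γ) := by
  obtain ⟨B, h1, h2⟩ := h
  exact ⟨B ∘ₗ Sy k, fun h => pol_Sy h ▸ h1 (Sy k h), fun s L h hs hL => by
    simpa only [LinearMap.comp_apply, Sy_pb t] using h2 s L (Sy k h) hs hL,
    fun I J γ σ => congrArg B (Sy_un I J γ σ)⟩

/-- the cut monomials -/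
def cmo (γ : Fin k → Ix) (χ : V → ℝ) : Sch := sch fun u => mon γ u * χ u

lemma cmo_apply (γ : Fin k → Ix) {χ : V → ℝ} (h : Tst χ) (u : V) : cmo γ χ u = mon γ u * χ u :=
  sch_apply (dc_mon (dc_cx h) γ) u

lemma supp_ten2 (γ : Fin k → Ix) {χ : V → ℝ} (h : Tst χ) (f : Sch) : tsupport (ten2 (cmo γ χ) f) ⊆
    {z | z.1 - z.2 ∈ tsupport χ ∧ z.2 ∈ tsupport f} :=
  closure_minimal (fun z hz => ⟨subset_tsupport _ fun k => hz (by simp [cmo_apply γ h, k]),
    subset_tsupport _ fun k => hz (by simp [k])⟩)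
    (((isClosed_tsupport _).preimage (continuous_fst.sub continuous_snd)).inter
      ((isClosed_tsupport _).preimage continuous_snd))

lemma rel_smul {G : Type*} [NormedAddCommGroup G] [NormedSpace ℂ G] {Λ Λ' : S2 →L[ℂ] G}
    (h : Rel m Λ Λ') (a : ℝ) : Rel m (a • Λ) (a • Λ') :=
  h.comp ((a : ℂ) • ContinuousLinearMap.id ℂ G) adm_one

/-- an extension with the contact terms `B` -/
structure Cand (w v : EW D E) (m : ℕ) (B : ∀ k, Tn (Fin 4 ⊕ Fin k) →ₗ[ℝ] EF D E) : Prop where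
  rel : ∀ e I J, Rel m (v e I J) (w e I J)
  val : ∀ k ≤ m, ∀ e I J (γ : Fin k → Ix) (η : EC) f,
    v e I J (ten2 (cmo γ η.1) f) = B k (un I J γ) η e f

variable {B : ∀ k, Tn (Fin 4 ⊕ Fin k) →ₗ[ℝ] EF D E}

theorem ex_cand [Module.Finite ℝ E] (t : TEN) (h1 : ∀ k h, Dat c w ((-1) ^ k) (pol h) (B k h))
    (h3 : ∀ k I J γ (σ : Equiv.Perm (Fin k)), B k (un I J (γ ∘ σ)) = B k (un I J γ)) :
    ∃ v m, Cand w v m B := by
  let b := Module.finBasis ℝ E
  obtain ⟨C, m, hC, hb⟩ := ST.clm_sn_c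
    (ContinuousLinearMap.pi fun p : _ × I2 × I2 => w (b p.1) p.2.1 p.2.2)
  obtain ⟨η0, -⟩ := t.small 1 one_pos
  choose v e1 e2 e3 using fun i I J => ext5 (w (b i) I J) (m + 1) (dc_cx η0.2.1.1)
    (η0.2.1.2.mono fun u hu => by simp [cx, hu]) (fun k γ => B k (un I J γ) η0 (b i))
    fun k γ σ => by rw [h3]
  have s : ∀ {X : Type _} [AddCommGroup X] [Module ℝ X] (x : E →ₗ[ℝ] X) e,
      x e = ∑ i, b.repr e i • x (b i) := fun x e => by
    simp only [← map_smul, ← map_sum, b.sum_repr]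
  have r : ∀ e I J, Rel m (b.constr ℝ v e I J) (w e I J) := fun e I J => by
    rw [s w, s (b.constr ℝ v)]
    simp only [Finset.sum_apply, Pi.smul_apply, b.constr_basis]
    exact Rel.sum _ fun i => rel_smul ⟨e1 i I J, fun F ⟨γ, H, e⟩ => e3 i I J γ H F e, C, hC,
      fun F => (norm_le_pi_norm _ (i, I, J)).trans (hb F)⟩ _
  refine ⟨b.constr ℝ v, m, r, fun k hk e I J γ η f => ?_⟩
  have e4 : b.constr ℝ v e I J (ten2 (cmo γ η0.1) f) = B k (un I J γ) η0 e f := by
    rw [s (B k (un I J γ) η0), s (b.constr ℝ v)]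
    simp only [Finset.sum_apply, Pi.smul_apply, b.constr_basis, ContinuousLinearMap.sum_apply,
      ContinuousLinearMap.smul_apply, ← e2 _ I J k (Nat.lt_succ_of_le hk)]
    rfl
  obtain ⟨k1, k2⟩ := t.ec η η0
  have a := DFunLike.congr_fun (DFunLike.congr_fun ((h1 k (un I J γ)).coc η η0) e) f
  rw [psi_e, psi_un, LinearMap.sub_apply, ContinuousLinearMap.sub_apply, ← e4,
    ContinuousLinearMap.comp_apply, ← (r e I J).off _ fun x hx => k2 ?_, sub_eq_iff_eq_add,
    ← map_add] at a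
  · refine (congrArg _ (SchwartzMap.ext fun z => ?_)).trans a.symm
    erw [SchwartzMap.add_apply, ten2_apply, ten2_apply, ten2_apply, cmo_apply γ η.2.1.1,
      cmo_apply γ k1, cmo_apply γ η0.2.1.1]
    simp only [Pi.sub_apply]
    push_cast
    ring
  · simpa using (supp_ten2 γ k1 f hx).1

theorem ug_split {c : Ctx D} (g : GRP c) {s : ℝ} {L : Ix → V} (hs : 0 < s) (hL : IsLor L) (a : V)
    (z : Completion D) : Ug c.Q s L a z = Ut c.Q a (Ug c.Q s L 0 z) := by
  have := g.mul 1 GF.one a s L 0 one_pos hs H496.isLor_one hL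
  simp only [HM.sim_tr, one_mul, zero_add, add_zero] at this
  exact (DFunLike.congr_fun this z).symm

theorem Cand.perp (h : Cand w v m B) (t : TEN) (hw : Src c w)
    (h1 : ∀ k h, Dat c w ((-1) ^ k) (pol h) (B k h)) (e : E) (I J : I2) (F : S2) :
    inner ℂ c.Om (v e I J F) = 0 := by
  obtain ⟨η, -⟩ := t.small 1 one_pos
  obtain ⟨a1, a2⟩ := ((h.rel e I J).comp (innerSL ℂ c.Om) adm_one).kill fun F _ =>
    (hw.sr e).perp I J F
  exact DFunLike.congr_fun (expand' a1 a2 (dc_cx η.2.1.1)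
    (η.2.1.2.mono fun u hu => by simp [cx, hu]) fun k hk γ f =>
      (congrArg _ (h.val k hk e I J γ η f)).trans (((h1 k _).tc η e).perp f)) F

theorem Cand.cov (h : Cand w v m B) (t : TEN) (g : GRP c.toCtx) (hw : Src c w)
    (h1 : ∀ k h, Dat c w ((-1) ^ k) (pol h) (B k h))
    (h2 : ∀ k (s : ℝ) L h, 0 < s → IsLor L → s ^ k • ga c s L (B k (pb L h)) = B k h)
    (s : ℝ) (L : Ix → V) (a : V) (p : E) (I J : I2) (F G : S2) (hs : 0 < s) (hL : IsLor L)
    (e : ∀ x y, G (x, y) = F (sim s L a x, sim s L a y)) :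
    v (c.u.A (Real.log s) p) I J F =
      ∑ K, ∑ M, (L2 L K I * L2 L M J) • Ug c.Q s L a (v p K M G) := by
  obtain ⟨η, -⟩ := t.small 1 one_pos
  obtain ⟨a1, a2⟩ := ((h.rel (c.u.A (Real.log s) p) I J).sub (Rel.sum Finset.univ fun K =>
    Rel.sum Finset.univ fun M => (h.rel p K M).comp ((L2 L K I * L2 L M J) • Ug c.Q s L a)
      (adm_sim hs hL a))).kill fun F hF => by
      simpa [sub_eq_zero] using hw.cov s L a p I J F _ hs hL hF (Wk.sim2_apply hs hL a F)
  have := DFunLike.congr_fun (expand' a1 a2 (dc_cx η.2.1.1)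
    (η.2.1.2.mono fun u hu => by simp [cx, hu]) fun k hk γ f => ?_) F
  · rw [show G = Wk.sim2 hs hL a F from SchwartzMap.ext fun z =>
      (e z.1 z.2).trans (Wk.sim2_apply hs hL a F z.1 z.2).symm]
    simpa [sub_eq_zero] using this
  have e1 : Wk.sim2 hs hL a (ten2 (cmo γ η.1) f) = ∑ δ : Fin k → Ix,
      ((s ^ k * ∏ i, L (δ i) (γ i) : ℝ) : ℂ) •
        ten2 (cmo δ (η.pull s L).1) (pS s L (ST.tsl (-a) f)) := SchwartzMap.ext fun z => by
    rw [Wk.sim2_apply hs hL a _ z.1 z.2, ten2_apply, P352Y.sim_sub, cmo_apply γ η.2.1.1, mon_lin]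
    simp only [SchwartzMap.sum_apply, SchwartzMap.smul_apply, ten2_apply, smul_eq_mul,
      cmo_apply _ (η.pull s L).2.1.1, η.pull_apply hs hL, pS_apply hs hL, ST.tsl_apply,
      Finset.sum_mul, mul_assoc, sub_neg_eq_add, ← HM.sim_at]
  have e2 := DFunLike.congr_fun (DFunLike.congr_fun (congrFun (h2 k s L (un I J γ) hs hL) η)
    (c.u.A (Real.log s) p)) (ST.tsl (-a) f)
  have e3 := ((h1 k (un I J γ)).tc η (c.u.A (Real.log s) p)).tra a (ST.tsl (-a) f)
  rw [show ST.tsl a (ST.tsl (-a) f) = f from SchwartzMap.ext fun z => by simp [ST.tsl_apply],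
    ← e2, pb_un] at e3
  rw [show (sch fun u => mon γ u * cx η.1 u) = cmo γ η.1 from rfl,
    ContinuousLinearMap.sub_apply, h.val k hk, ← e3, sub_eq_zero]
  simp only [ContinuousLinearMap.sum_apply, ContinuousLinearMap.comp_apply,
    ContinuousLinearMap.smul_apply, map_sum, map_smul, Finset.sum_apply, Pi.smul_apply, ga_apply,
    LinearMap.smul_apply, LinearMap.sum_apply, act_A,
    act_apply, ContinuousLinearMap.map_smul_of_tower, Finset.smul_sum, ← ug_split g hs hL, e1]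
  simp only [map_sum, map_smul, h.val k hk, Finset.smul_sum, smul_smul, ← Complex.coe_smul, L2]
  refine Finset.sum_congr rfl fun K _ => Finset.sum_congr rfl fun M _ =>
    Finset.sum_congr rfl fun δ _ => congrArg₂ _ ?_ rfl
  push_cast
  ring

theorem Cand.loc (h : Cand w v m B) (t : TEN) (b0 : TPD.BA c.toCtx) (hw : Src c w)
    (h1 : ∀ k h, Dat c w ((-1) ^ k) (pol h) (B k h)) (p : E) (a b y : V) (I J : I2) (G G' : S2)
    (ha : IsNull a) (hb : IsNull b) (hab : 0 < mdot a b) (hG : HasCompactSupport G)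
    (hW : tsupport G ⊆ Wdg a b y ×ˢ Wdg a b y) (e : ∀ x z, G' (x, z) = G (-x, -z)) :
    Pr (c.N (Wdg a b y)) c.Om (v p I J G) (Th c.toCtx (v p I J G')) := fun Z hZ => by
  have o := (Ap.open_wdg a b y).prod (Ap.open_wdg a b y)
  obtain ⟨κ, k1, k2, k3, -⟩ := Ap.ex_chi hG o hW
  have dk := dc_cx k1
  obtain ⟨ε, ε0, hε⟩ := hG.isCompact.exists_thickening_subset_open
    (o.inter (isOpen_interior (s := {z | κ z = 1}))) fun z hz =>
      ⟨hW hz, mem_interior_iff_mem_nhds.2 (k3 z hz)⟩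
  obtain ⟨η, hη⟩ := t.small ε ε0
  have i : ∀ x, inner ℂ (Th c.toCtx x) (Z c.Om) = inner ℂ (Th c.toCtx (Z c.Om)) x := fun x => by
    rw [← b0.th_inner x, b0.th_th]
  obtain ⟨a1, a2⟩ := (((h.rel p I J).comp (innerSL ℂ (star Z c.Om)) (adm_ml dk)).sub
    ((h.rel p I J).comp (innerSL ℂ (Th c.toCtx (Z c.Om))) (adm_ng.comp (adm_ml dk) (vn_ml dk)))).kill
      fun F hF => by
    have s1 : tsupport (ml (cx κ) F) ⊆ tsupport κ :=
      Ap.tsupp_of_zero fun z hz => by simp [ml_apply dk, cx, hz]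
    exact sub_eq_zero.2 (((hw.sr p).loc a b y I J _ _ ha hb hab ((adm_ml dk).off F hF)
      (k1.2.of_isClosed_subset (isClosed_tsupport _) s1) (s1.trans k2)
      (fun _ _ => rfl) Z hZ).trans (i _))
  have := expand2 a1 a2 (dc_cx η.2.1.1) (η.2.1.2.mono fun u hu => by simp [cx, hu]) G
  rw [Finset.sum_eq_zero fun k hk => Finset.sum_eq_zero fun γ _ => ?_] at this
  · have e1 : ml (cx κ) G = G := SchwartzMap.ext fun z => by
      by_cases hz : z ∈ tsupport G
      · simp [ml_apply dk, cx, (k3 z hz).self_of_nhds]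
      · simp [ml_apply dk, image_eq_zero_of_notMem_tsupport hz]
    rw [i, show G' = ng2 G from SchwartzMap.ext fun z => e z.1 z.2, ← sub_eq_zero]
    simpa [e1] using this
  have s1 : tsupport (jet γ G) ⊆ (fun z => (z, z)) ⁻¹' tsupport G :=
    closure_minimal (fun z hz => by_contra fun n => hz (f2.dd_zero γ n))
      ((isClosed_tsupport _).preimage (by fun_prop))
  have s2 : ∀ z ∈ tsupport (jet γ G), ∀ u ∈ tsupport η.1, (z + u, z) ∈
      Metric.thickening ε (tsupport G) := fun z hz u hu =>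
    Metric.mem_thickening_iff.2 ⟨_, s1 hz, by simpa [Prod.dist_eq, ε0] using hη hu⟩
  have e1 : ml (cx κ) (ten2 (cmo γ η.1) (jet γ G)) = ten2 (cmo γ η.1) (jet γ G) :=
    SchwartzMap.ext fun z => by
      by_cases hz : z ∈ tsupport (ten2 (cmo γ η.1) (jet γ G))
      · obtain ⟨b1, b2⟩ := supp_ten2 γ η.2.1.1 _ hz
        have := interior_subset (hε (s2 _ b2 _ b1)).2
        simp only [add_sub_cancel, mem_setOf_eq, Prod.mk.eta] at this
        simp only [ml_apply dk, cx, this, Complex.ofReal_one, one_mul]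
      · rw [ml_apply dk, image_eq_zero_of_notMem_tsupport hz, mul_zero]
  have e2 : ng2 (ten2 (cmo γ η.1) (jet γ G)) =
      (((-1 : ℝ) ^ k : ℝ) : ℂ) • ten2 (cmo γ η.1) (ng (jet γ G)) := SchwartzMap.ext fun z => by
    simp only [ng2_apply, ten2_apply, cmo_apply γ η.2.1.1, SchwartzMap.smul_apply, ng_apply,
      neg_sub_neg, smul_eq_mul]
    rw [← neg_sub z.1, η.2.2, ← neg_one_smul ℝ (z.1 - z.2), P352Y.mon_smul]
    push_cast
    ring
  have := ((h1 k (un I J γ)).loc η p) a b y (jet γ G) ha hb hab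
    ((hG.isCompact.image continuous_snd).of_isClosed_subset (isClosed_tsupport _)
      fun z hz => ⟨_, s1 hz, rfl⟩) (fun z hz => (hW (s1 hz)).1)
    (fun z hz u hu => (hε (s2 z hz u hu)).1.1) Z hZ
  have hk' := Nat.lt_succ_iff.1 (Finset.mem_range.1 hk)
  refine smul_eq_zero_of_right _ (sub_eq_zero.2 ?_)
  show inner ℂ _ (v p I J (ml (cx κ) (ten2 (cmo γ η.1) _))) =
    inner ℂ _ (v p I J (ng2 (ml (cx κ) (ten2 (cmo γ η.1) _))))
  rw [e1, e2, map_smul, h.val k hk', h.val k hk', this, ← Complex.coe_smul, inner_smul_left,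
    inner_smul_right, i, Complex.conj_ofReal]

end Fn

open Fn in
/-- **the extension to the diagonal** -/
theorem ex_full [Module.Finite ℝ E] (b : B0 c) (hw : Src c w) (h : ∀ k, Ext c w k) :
    ∃ v, Full c w v := by
  choose B h1 h2 h3 using fun k => ext_sym b.ten (h k)
  obtain ⟨v, m, k⟩ := ex_cand b.ten h1 h3
  exact ⟨v, fun e I J => (k.rel e I J).off, k.perp b.ten hw h1, k.cov b.ten b.b.grp hw h1 h2,
    k.loc b.ten b.b.ba hw h1⟩

end

end Vale.Agent.P352L.TPD.TE
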