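import Vale.Agent.P352L.TPD.EUt
import Vale.Agent.P352X.TPD.FIVE

/-!
# P352L, block TPD: row FIVE (helper14)
-/

set_option linter.all false

open MeasureTheory Filter Topology
open scoped SchwartzMap ComplexConjugate ENNReal ContDiff

namespace Vale.Agent.P352L.TPD.TE

open Vale.Agent.P352 Vale.Agent.P352.GF Vale.Agent.P352.BW Vale.Agent.P352.H246
open Vale.Agent.P352.H496 Vale.Agent.P352.H755 Vale.Agent.P352.H15
open Vale.Agent.P352X Vale.Agent.P352X.TPD
open UniformSpace (Completion)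
open Complex (I)

noncomputable section

variable {D : Type*} [NormedAddCommGroup D] [InnerProductSpace ℂ D] {E : Type*} [AddCommGroup E]
  [Module ℝ E]

/-- **row FIVE** -/
theorem five_row (c : Cx D E) (b : B0 c) (wl : WL c) : FIVE c := by
  intro w Φ hw h
  have t := b.ten
  have P := b.bp w hw
  obtain ⟨η⟩ := ec0 t
  set φ : R2 → EF D E := fun x => Φ (nb x) with hφ
  have eg : ∀ x y v, ga c 1 (Lg x) (df5 φ y v) = df5 φ (x + y) v := fun x y v => by
    simp only [df5, map_sum, map_smul]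
    refine Finset.sum_congr rfl fun j _ => ?_
    have := h.cov 1 _ _ one_pos (t.lg x).1 (null_nb (y + (j : ℝ) • v))
    rw [one_pow, one_smul, (t.lg x).2.1, gap_nb, ← add_assoc] at this
    rw [this]
  have eb : ∀ τ v, ga c 1 (Lb τ) (df5 φ 0 v) =
      Real.exp (-τ) ^ 2 • df5 φ 0 (Real.exp τ • v) := fun τ v => by
    simp only [df5, map_sum, map_smul, Finset.smul_sum]
    refine Finset.sum_congr rfl fun j _ => ?_
    have := h.cov 1 _ _ one_pos (t.lb τ).1 (null_nb (0 + (j : ℝ) • v))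
    rw [one_pow, one_smul, (t.lb τ).2.1, show scp (Real.exp τ) (Real.exp (-τ)) (nb (0 + (j : ℝ) • v))
      = Real.exp (-τ) • nb (0 + (j : ℝ) • Real.exp τ • v) from null_ext (by
        simp only [nb, al_scp, al_pt, al_smul, zero_add, d2_smul, d2_smul_l, Real.exp_neg]
        field_simp) (by simp [nb]) (by
        simp [nb, ← Real.exp_add, smul_smul, mul_left_comm (Real.exp (-τ))]),
      h.hom _ _ (null_nb _) (Real.exp_pos _)] at this
    rw [this, smul_comm]
  have ex : ∀ v, ∃ y, Hom c 1 2 y ∧ ∀ η, df5 φ 0 v η = y := fun v => P.dhom 1 2 _ (by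
    have := P.dsum t (Finset.range 6) (fun j => (-1) ^ (5 - j) * (Nat.choose 5 j : ℝ)) _ _
      fun j _ => h.dat _ (null_nb (0 + (j : ℝ) • v))
    have z := ((t.h0s 0).2.2 0 0).2
    rw [zero_smul, zero_smul] at z
    rwa [P352X.TPD.Five.sq5, z] at this) fun s hs => by
      simp only [df5, map_sum, map_smul, Finset.smul_sum]
      refine Finset.sum_congr rfl fun j _ => ?_
      have := h.cov s _ _ hs (lor_one t) (null_nb (0 + (j : ℝ) • v))
      rw [smul_comm, this, sim_id]
  choose y hy ey using ex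
  suffices H : ∀ v, y v = 0 from fun x v => by
    rw [← add_zero x, ← eg, show df5 φ 0 v = 0 from funext fun η => (ey v η).trans (H v), map_zero]
  intro v
  obtain ⟨z, z1, z2, z3, -⟩ := wl 1 2 _ (one_mul _) (hy v)
  have z4 : y v = z (-1) + z 0 + z 1 := by
    rw [z3, show Finset.Icc (-3 : ℤ) 3 = {-3, -2, -1, 0, 1, 2, 3} by decide]
    simp [z2 (-3) (by norm_num), z2 (-2) (by norm_num), z2 2 (by norm_num), z2 3 (by norm_num),
      add_assoc]
  have e1 : ∀ s : ℝ, 0 < s → y (s • v) = s • (z (-1) + s • z 0 + s ^ 2 • z 1) := fun s hs => by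
    have := congrFun (eb (Real.log s) v) η
    rw [ga_apply, ey, Pi.smul_apply, ey, z4, map_add, map_add, (z1 _).2, (z1 _).2, (z1 _).2,
      Real.exp_neg, Real.exp_log hs, inv_pow, eq_inv_smul_iff₀ (by positivity)] at this
    rw [← this]
    simp only [Int.reduceNeg, Int.cast_neg, Int.cast_one, neg_mul, one_mul, Real.exp_neg,
      Real.exp_log hs, Int.cast_zero, zero_mul, Real.exp_zero, smul_add, smul_smul]
    congr 2 <;> [congr 1; skip; skip] <;> field_simp
  let M : ℝ → ET D E →ₗ[ℝ] ET D E := fun s =>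
    ∑ j ∈ Finset.range 6, (Nat.choose 5 j : ℝ) • act c 1 (Lg ((j : ℝ) • s • v))
  have e2 : ∀ s : ℝ, y ((2 * s) • v) = M s (y (s • v)) := fun s => by
    rw [← ey _ η, ← smul_smul, P352X.TPD.Five.dbl]
    simp only [M, Finset.sum_apply, LinearMap.sum_apply, Pi.smul_apply, LinearMap.smul_apply]
    refine Finset.sum_congr rfl fun j _ => ?_
    rw [← ey _ (η.pull 1 (Lg ((j : ℝ) • s • v))), ← ga_apply, eg, add_zero]
  have lM : ∀ x (f : E × Sch), Tendsto (fun s => M s x f.1 f.2) (𝓝[>] 0)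
      (𝓝 ((32 : ℝ) • x f.1 f.2)) := fun x f => by
    have : ∀ j : ℕ, Tendsto (fun s : ℝ => act c 1 (Lg ((j : ℝ) • s • v)) x f.1 f.2) (𝓝[>] 0)
        (𝓝 (x f.1 f.2)) := fun j => by
      have := b.ba.cont ℝ (𝓝[>] 0) (fun s : ℝ => Lg ((j : ℝ) • s • v)) _ x f.1 f.2
        (fun s => (t.lg _).1) (lor_one t) (tendsto_nhdsWithin_of_tendsto_nhds
          ((t.lg0.2.comp (by fun_prop)).tendsto' 0 _ (by simp [t.lg0.1])))
      rwa [b.ba.one] at this
    have h1 := tendsto_finset_sum (Finset.range 6) fun j _ =>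
      (this j).const_smul (Nat.choose 5 j : ℝ)
    rw [← Finset.sum_smul, show ∑ j ∈ Finset.range 6, (Nat.choose 5 j : ℝ) = 32 by
      norm_num [Finset.sum_range_succ, Nat.choose]] at h1
    simpa only [M, LinearMap.sum_apply, LinearMap.smul_apply, ContinuousLinearMap.sum_apply,
      ContinuousLinearMap.smul_apply] using h1
  rw [z4]
  refine P352X.TPD.Five.kill3 (fun f : E × Sch => ⟨⟨fun x : ET D E => x f.1 f.2, fun _ _ => rfl⟩,
    fun _ _ => rfl⟩) (fun x hx => LinearMap.ext fun e => ContinuousLinearMap.ext fun f =>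
      hx (e, f)) M lM fun s hs => ?_
  have := e2 s
  rw [e1 _ (by positivity), e1 s hs, map_smul] at this
  refine smul_right_injective _ hs.ne' (Eq.trans ?_ this)
  module

end

end Vale.Agent.P352L.TPD.TE
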