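import Vale.Agent.P352L.TPD.IRN

/-!
# P352L, block TPD: division by the energy, with a remainder (helper14)
-/

set_option linter.all false

open MeasureTheory Filter Topology
open scoped SchwartzMap ComplexConjugate ENNReal ContDiff

namespace Vale.Agent.P352L.TPD

open Vale.Agent.P352 Vale.Agent.P352.GF Vale.Agent.P352.BW Vale.Agent.P352.H246
open Vale.Agent.P352.H496 Vale.Agent.P352.H755 Vale.Agent.P352.H15
open Vale.Agent.P352X Vale.Agent.P352X.TPD
open UniformSpace (Completion)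
open Complex (I)

noncomputable section

variable {D : Type*} [NormedAddCommGroup D] [InnerProductSpace ℂ D]

variable {c : Ctx D}

open Set Irn

lemma sn_mono {m m' : ℕ} (h : m ≤ m') (f : Sch) : sn m f ≤ sn m' f := by
  rw [Api4.sn_eq, Api4.sn_eq]
  exact ST.sn_mono h f

lemma mu_zero (F : V → ℂ) : Mu c F 0 := ⟨0, 0, fun f => by
  rw [ContinuousLinearMap.zero_apply, Base.nu, c.bt.nu_zero, lintegral_zero_measure]
  exact bot_le⟩

lemma mu_add {F : V → ℂ} {x y : TT D} (h : Mu c F x) (h' : Mu c F y) : Mu c F (x + y) := by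
  obtain ⟨m, C, h⟩ := h
  obtain ⟨m', C', h'⟩ := h'
  refine ⟨max m m', 2 * (|C| + |C'|), fun f => ?_⟩
  refine (lintegral_mono' (c.bt.nu_add_le _ _) le_rfl).trans ?_
  rw [lintegral_smul_measure, lintegral_add_measure, ENNReal.smul_def, smul_eq_mul]
  refine (mul_le_mul_right (add_le_add (h f) (h' f)) _).trans ?_
  rw [← ENNReal.ofReal_add (sq_nonneg _) (sq_nonneg _), ← ENNReal.ofReal_coe_nnreal,
    ← ENNReal.ofReal_mul (by simp)]
  refine ENNReal.ofReal_le_ofReal ?_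
  have s0 : 0 ≤ sn m f := apply_nonneg _ _
  have s0' : 0 ≤ sn m' f := apply_nonneg _ _
  have a1 := pow_le_pow_left₀ s0 (sn_mono (le_max_left m m') f) 2
  have a2 := pow_le_pow_left₀ s0' (sn_mono (le_max_right m m') f) 2
  have a3 := mul_le_mul_of_nonneg_left a1 (sq_nonneg C)
  have a4 := mul_le_mul_of_nonneg_left a2 (sq_nonneg C')
  have a5 := mul_nonneg (mul_nonneg (abs_nonneg C) (abs_nonneg C')) (sq_nonneg (sn (max m m') f))
  have a6 := mul_nonneg (sq_nonneg C) (sq_nonneg (sn (max m m') f))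
  have a7 := mul_nonneg (sq_nonneg C') (sq_nonneg (sn (max m m') f))
  simp only [mul_pow, add_sq, sq_abs, NNReal.coe_ofNat]
  nlinarith

lemma mu_smul {F : V → ℂ} {x : TT D} (a : ℝ) (h : Mu c F x) : Mu c F (a • x) := by
  obtain ⟨m, C, h⟩ := h
  refine ⟨m, a * C, fun f => ?_⟩
  rw [ContinuousLinearMap.smul_apply, ← Complex.coe_smul, Two.nu_real, lintegral_smul_measure,
    smul_eq_mul, mul_assoc, mul_pow a, ENNReal.ofReal_mul (sq_nonneg _)]
  exact mul_le_mul_right (h f) _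

lemma mu_comp {F : V → ℂ} {x : TT D} (h : Mu c F x) (B : Sch →L[ℂ] Sch) : Mu c F (x ∘L B) := by
  obtain ⟨m, C, h⟩ := h
  obtain ⟨C', m', hC', h'⟩ := ST.clm_sn' (B.restrictScalars ℝ) m
  refine ⟨m', |C| * C', fun f => (h (B f)).trans (ENNReal.ofReal_le_ofReal ?_)⟩
  have s0 : 0 ≤ sn m (B f) := apply_nonneg _ _
  rw [← sq_abs, abs_mul, abs_of_nonneg s0, mul_assoc]
  refine pow_le_pow_left₀ (mul_nonneg (abs_nonneg _) s0)
    (mul_le_mul_of_nonneg_left ?_ (abs_nonneg _)) 2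
  rw [Api4.sn_eq, Api4.sn_eq]
  exact h' f

lemma mu_dil (g : GRP c) {s : ℝ} (hs : 0 < s) {x : TT D}
    (h : Mu c (fun p => ((p o)⁻¹ : ℝ)) x) : Mu c (fun p => ((p o)⁻¹ : ℝ)) (act c s GF.one x) := by
  obtain ⟨m, C, h⟩ := mu_comp h (pS s GF.one)
  refine ⟨m, s * C, fun f => ?_⟩
  rw [act_apply, nu_dil g hs _ (by fun_prop), mul_assoc, mul_pow s,
    ENNReal.ofReal_mul (sq_nonneg _)]
  refine le_trans (le_of_eq ?_) (mul_le_mul_right (h f) _)
  rw [← lintegral_const_mul' _ _ ENNReal.ofReal_ne_top]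
  refine lintegral_congr fun p => ?_
  rw [← ENNReal.ofReal_mul (sq_nonneg _)]
  simp [mul_pow, mul_comm, sq_abs]

lemma mu_der (rho : RHO c) {y : TT D} (ty : TC c y) (v : V) :
    Mu c (fun p => ((p o)⁻¹ : ℝ)) (y ∘L KDa.dS v) := by
  obtain ⟨ρ, -, hν, hc, -⟩ := rho y ty
  obtain ⟨C, m, hC, hb⟩ := ST.clm_sn_c y
  have mf : ∀ f : Sch, Measurable fun p => ENNReal.ofReal (‖ft (ev f) p‖ ^ 2) := fun f =>
    Two.meas_sq2 (Two.cont_ft ⟨f, rfl⟩).measurable
  refine ⟨m, 4 * ‖v‖ * C, fun f => ?_⟩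
  have e : ∫⁻ p, ENNReal.ofReal (‖ft (ev f) p‖ ^ 2) ∂ρ = ENNReal.ofReal (‖y f‖ ^ 2) := by
    rw [← c.bt.nu_univ, ofReal_measureReal, show c.bt.nu (y f) = _ from hν f,
      withDensity_apply _ .univ, setLIntegral_univ]
  rw [ContinuousLinearMap.comp_apply, hν, lintegral_withDensity_eq_lintegral_mul _ (mf _)
    (by fun_prop), mul_assoc, mul_pow, ENNReal.ofReal_mul (sq_nonneg _)]
  refine le_trans ?_ (mul_le_mul_right (e.le.trans (ENNReal.ofReal_le_ofReal
    (pow_le_pow_left₀ (norm_nonneg _) (Api4.sn_eq m f ▸ hb f) 2))) _)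
  rw [← lintegral_const_mul' _ _ ENNReal.ofReal_ne_top]
  refine lintegral_mono_ae (hc.mono fun p hp => ?_)
  rw [Pi.mul_apply, ← ENNReal.ofReal_mul (sq_nonneg _), ← ENNReal.ofReal_mul (sq_nonneg _),
    KDa.ev_dS, ft_dv ⟨f, rfl⟩]
  refine ENNReal.ofReal_le_ofReal ?_
  have a := P352X.abs_mdot_le p v
  have a1 := (Ani.cone hp.1 hp.2).1
  have a2 : |mdot p v| * (p o)⁻¹ ≤ 4 * ‖v‖ := by
    rw [← div_eq_mul_inv, div_le_iff₀ hp.1]
    nlinarith [norm_nonneg v]
  have a3 := pow_le_pow_left₀ (mul_nonneg (abs_nonneg _) (inv_pos.2 hp.1).le) a2 2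
  simp only [norm_mul, norm_neg, Complex.norm_I, one_mul, Complex.norm_real, Real.norm_eq_abs,
    mul_pow, sq_abs] at a3 ⊢
  nlinarith [sq_nonneg ‖ft (ev f) p‖]

theorem irn2 (b : B0 c) (rho : RHO c) {x z : TT D} (tx : TC c x)
    (e : x = (2 : ℝ) • act c 2 GF.one x + z) (hz : Mu c (fun p => ((p o)⁻¹ : ℝ)) z) :
    Mu c (fun p => ((p o)⁻¹ : ℝ)) x := by
  obtain ⟨ρ, lf, hν, hc, M, hM⟩ := rho x tx
  obtain ⟨mz, Cz, hz⟩ := hz
  obtain ⟨K, hK⟩ := (isCompact_closedBall (0 : V) 1).exists_bound_of_continuousOn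
    Two.cont_k.continuousOn
  set G : Sch := Two.exists_g0.choose
  have eG : ev G = Two.g0 := rfl
  have mf : ∀ f : Sch, Measurable fun p => ENNReal.ofReal (‖ft (ev f) p‖ ^ 2) := fun f =>
    Two.meas_sq2 (Two.cont_ft ⟨f, rfl⟩).measurable
  have mk := Two.meas_sq2 Two.cont_k.measurable
  have cn : ∀ p (t : ℝ), ENNReal.ofReal (t * ‖ft Two.g0 p‖ ^ 2) *
      Two.sq2 (fun p => (ft Two.g0 p)⁻¹) p = ENNReal.ofReal t := fun p t => by
    rw [Two.sq2, mul_comm, ← ENNReal.ofReal_mul (sq_nonneg _), norm_inv]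
    have := norm_pos_iff.2 (Two.g0_ne p)
    congr 1
    field_simp
  have m2 : MeasurableSet (Metric.closedBall (0 : V) 2) := Metric.isClosed_closedBall.measurableSet
  have key : ∀ δ, 0 < δ → ∫⁻ p, hh δ p ∂ρ ≤ ρ (Metric.closedBall 0 2) +
      3 * (ENNReal.ofReal (K ^ 2) * ENNReal.ofReal ((Cz * sn mz G) ^ 2)) := fun δ hδ => by
    refine absorb (fin hδ hc) ?_
    set φ : V → ℝ≥0∞ := fun p => hh δ p * Two.sq2 (fun p => (ft Two.g0 p)⁻¹) p
    have mφ : Measurable φ := (meas_hh δ).mul mk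
    have e1 : ∫⁻ p, hh δ p ∂ρ = ∫⁻ p, φ p ∂c.nu (x G) := by
      rw [hν, lintegral_withDensity_eq_lintegral_mul _ (mf G) mφ]
      refine lintegral_congr fun p => ?_
      have := cn p 1
      rw [one_mul, ENNReal.ofReal_one] at this
      rw [Pi.mul_apply, eG, mul_left_comm, this, mul_one]
    have e2 : x G = ((2 : ℝ) : ℂ) • Ug c.Q 2 GF.one 0 (x (pS 2 GF.one G)) + z G := by
      conv_lhs => rw [e]
      rfl
    refine (e1.trans (by rw [e2])).trans_le ((lintegral_mono' (c.bt.nu_add_le _ _) le_rfl).trans ?_)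
    rw [lintegral_smul_measure, lintegral_add_measure, ← Base.nu, Two.nu_real, lintegral_smul_measure,
      nu_dil b.grp two_pos _ mφ, hν, ← Base.nu,
      lintegral_withDensity_eq_lintegral_mul _ (mf _) (g := fun p => φ ((2⁻¹ : ℝ) • p))
        (by fun_prop), ENNReal.smul_def, smul_eq_mul, smul_eq_mul]
    refine mul_le_mul' le_rfl (add_le_add (mul_le_mul_right ?_ _) ?_)
    · rw [← lintegral_indicator_one m2, ← lintegral_add_left (meas_hh δ),
        ← lintegral_const_mul' _ _ ENNReal.ofReal_ne_top]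
      refine lintegral_mono_ae (hc.mono fun p hp => le_trans (le_of_eq ?_) (half hδ hp.1 hp.2))
      have a := ft_sim two_pos H496.isLor_one Two.g0 0 ((2⁻¹ : ℝ) • p)
      rw [smul_smul, mul_inv_cancel₀ two_ne_zero, one_smul, Irn.sim_one, zero_add, one_smul] at a
      rw [Pi.mul_apply, show ev (pS 2 GF.one G) = fun z => Two.g0 (sim 2 GF.one 0 z) from
        funext (pS_apply two_pos H496.isLor_one G), a, mul_left_comm, ← cn ((2⁻¹ : ℝ) • p) (1 / 256)]
      congr 3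
      simp [mul_pow]
      norm_num
    · refine le_trans ?_ (mul_le_mul_right (hz G) _)
      rw [← lintegral_const_mul' _ _ ENNReal.ofReal_ne_top]
      refine lintegral_mono_ae ((b.bas.cone _).mono fun p hp => ?_)
      by_cases m : p ∈ sh δ
      swap
      · simp [φ, hh, m]
      have h1 := hK p (mem_closedBall_zero_iff.2 ((Ani.cone (hδ.trans m.1) hp.2).1.trans m.2))
      simp only [φ, hh, indicator_of_mem m, Irn.wt, Two.sq2, Complex.norm_real, Real.norm_eq_abs,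
        sq_abs]
      rw [mul_comm]
      exact mul_le_mul_left (ENNReal.ofReal_le_ofReal (pow_le_pow_left₀ (norm_nonneg _) h1 2)) _
  have q0 : ∫⁻ p, hh 0 p ∂ρ ≠ ⊤ := ne_top_of_le_ne_top (ENNReal.add_ne_top.2
    ⟨(isCompact_closedBall _ _).measure_lt_top.ne, ENNReal.mul_ne_top (by simp) (ENNReal.mul_ne_top
      ENNReal.ofReal_ne_top ENNReal.ofReal_ne_top)⟩) (lim key)
  obtain ⟨m, A, A0, hA⟩ := ft_decay M
  set J := (∫⁻ p, hh 0 p ∂ρ + ∫⁻ p, ENNReal.ofReal (((1 + ‖p‖) ^ M)⁻¹) ∂ρ).toReal with hJ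
  refine ⟨m, A * Real.sqrt J, fun f => ?_⟩
  have s0 : 0 ≤ sn m f := apply_nonneg _ _
  rw [hν, lintegral_withDensity_eq_lintegral_mul _ (mf f) (by fun_prop), mul_right_comm, mul_pow,
    Real.sq_sqrt ENNReal.toReal_nonneg, ENNReal.ofReal_mul (sq_nonneg _),
    ENNReal.ofReal_toReal (ENNReal.add_ne_top.2 ⟨q0, hM.ne⟩), ← lintegral_add_left (meas_hh 0),
    ← lintegral_const_mul' _ _ ENNReal.ofReal_ne_top]
  refine lintegral_mono_ae (hc.mono fun p hp => ?_)
  have a := hA f p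
  have w1 : 1 ≤ (1 + ‖p‖) ^ M := one_le_pow₀ (by simp)
  have f0 := norm_nonneg (ft (ev f) p)
  rw [Pi.mul_apply, Complex.norm_real, Real.norm_eq_abs, sq_abs]
  generalize ‖ft (ev f) p‖ = F at a f0
  have a1 : F ≤ A * sn m f := by nlinarith
  by_cases m1 : p o ≤ 1
  · refine mul_le_mul' (ENNReal.ofReal_le_ofReal (pow_le_pow_left₀ f0 a1 2)) (le_add_right ?_)
    rw [hh, indicator_of_mem (show p ∈ sh 0 from ⟨hp.1, m1⟩), Irn.wt]
  · refine le_trans ?_ (mul_le_mul_right le_add_self _)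
    rw [← ENNReal.ofReal_mul (sq_nonneg _), ← ENNReal.ofReal_mul (sq_nonneg _)]
    refine ENNReal.ofReal_le_ofReal ?_
    have i1 : (p o)⁻¹ ^ 2 ≤ 1 := pow_le_one₀ (inv_pos.2 hp.1).le
      (inv_le_one_of_one_le₀ (not_le.1 m1).le)
    rw [← div_eq_mul_inv _ (_ ^ M), le_div_iff₀ (by positivity)]
    calc F ^ 2 * (p o)⁻¹ ^ 2 * (1 + ‖p‖) ^ M = F * ((1 + ‖p‖) ^ M * F) * (p o)⁻¹ ^ 2 := by ring
      _ ≤ (A * sn m f) * (A * sn m f) * 1 :=
        mul_le_mul (mul_le_mul a1 a (by positivity) (by positivity)) i1 (by positivity)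
          (by positivity)
      _ = _ := by ring

end

end Vale.Agent.P352L.TPD
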