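import Vale.Agent.P352L.TPD.EUt
import Vale.Agent.P352L.TPD.Irn2

/-!
# P352L, block TPD: row IRN (helper14)
-/

set_option linter.all false

open MeasureTheory Filter Topology
open scoped SchwartzMap ComplexConjugate ENNReal ContDiff

namespace Vale.Agent.P352L.TPD.TE

open Vale.Agent.P352 Vale.Agent.P352.GF Vale.Agent.P352.BW Vale.Agent.P352.H246
open Vale.Agent.P352.H496 Vale.Agent.P352.H755 Vale.Agent.P352.H15
open Vale.Agent.P352X Vale.Agent.P352X.TPD
open UniformSpace (Completion)
open Complex (I)

noncomputable section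

variable {D : Type*} [NormedAddCommGroup D] [InnerProductSpace ℂ D] {E : Type*} [AddCommGroup E]
  [Module ℝ E]

theorem irn_row (c : Cx D E) (b : B0 c) (rho : RHO c.toCtx) : IRN c := fun x y v tx ty h =>
  c.u.ind (by rw [map_zero]; exact mu_zero _) fun e he => by
    refine irn2 b.b rho (tx e) ?_ (mu_add (mu_smul 2 (mu_dil b.b.grp two_pos (he (-Real.log 2))))
      (mu_der rho (ty e) v))
    rw [← add_assoc, ← smul_add, ← map_add, ← map_add, add_sub_cancel]
    exact LinearMap.congr_fun h e

end

end Vale.Agent.P352L.TPD.TE
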