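import Vale.Agent.P352L.TPD.Spec

/-!
# P352L, block TPD: rows KILL and LIM
-/

set_option linter.all false

open MeasureTheory Filter Topology
open scoped SchwartzMap ComplexConjugate ENNReal ContDiff

namespace Vale.Agent.P352L.TPD

open Vale.Agent.P352X

open Vale.Agent.P352 Vale.Agent.P352.GF Vale.Agent.P352.BW Vale.Agent.P352.H246
open Vale.Agent.P352.H496 Vale.Agent.P352.H755 Vale.Agent.P352.H15
open UniformSpace (Completion)

noncomputable section

variable {D : Type*} [NormedAddCommGroup D] [InnerProductSpace ℂ D] {c : Ctx D}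

namespace Lim

/-- geometric convergence of distributions -/
lemma exists_lim (x : ℕ → TT D) {q C : ℝ} {m : ℕ} (h0 : 0 ≤ q) (h1 : q < 1)
    (h : ∀ n f, ‖x (n + 1) f - x n f‖ ≤ C * q ^ n * sn m f) :
    ∃ y : TT D, ∀ f, Tendsto (fun n => x n f) atTop (𝓝 (y f)) := by
  have hd : ∀ f n, dist (x n f) (x (n + 1) f) ≤ C * sn m f * q ^ n := fun f n => by
    rw [dist_comm, dist_eq_norm, mul_right_comm]
    exact h n f
  choose y hy using fun f => cauchySeq_tendsto_of_complete (cauchySeq_of_le_geometric q _ h1 (hd f))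
  refine ⟨x 0 + SchwartzMap.mkCLMtoNormedSpace (σ := RingHom.id ℂ) (fun f => y f - x 0 f)
    (fun f g => ?_) (fun a f => ?_) ⟨Finset.Iic (m, m), |C| / (1 - q),
      div_nonneg (abs_nonneg C) (sub_pos.2 h1).le, fun f => ?_⟩, fun f => ?_⟩
  · rw [tendsto_nhds_unique (hy (f + g)) (by simpa using (hy f).add (hy g)), map_add]
    abel
  · rw [tendsto_nhds_unique (hy (a • f)) (by simpa using (hy f).const_smul a), map_smul, smul_sub,
      RingHom.id_apply]
  · rw [← dist_eq_norm, dist_comm]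
    refine (dist_le_of_le_geometric_of_tendsto₀ q _ h1 (hd f) (hy f)).trans ?_
    rw [div_mul_eq_mul_div]
    exact div_le_div_of_nonneg_right (mul_le_mul_of_nonneg_right (le_abs_self C)
      (apply_nonneg _ f)) (sub_pos.2 h1).le
  · convert hy f using 2
    exact add_sub_cancel _ _

lemma ani_pow (b : B0 c) (A : ANI c) {σ : ℝ} {K : Set V} {x : TT D} {r s : ℝ} (h1 : TC c x)
    (h2 : Loc c σ K x) (h3 : Bornology.IsBounded K) (r0 : 0 < r) (r1 : r < 1) (s0 : 0 < s)
    (s1 : s < 1) : ∃ (m : ℕ) (C : ℝ), ∀ N f, ‖(act c (Real.sqrt (r * s)) (Lsc r s))^[N] x f‖ ≤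
      C * ((r * s) ^ (-(15 / 8 : ℝ))) ^ N * sn m f := by
  obtain ⟨m, C, h⟩ := A σ K x r s h1 h2 h3 r0 r1 s0 s1
  obtain ⟨hL, hs, -⟩ := b.ten.lsc r s r0 s0
  have e : ∀ N f, ‖(act c (Real.sqrt (r * s)) (Lsc r s))^[N] x f‖ =
      ‖x ((pS (Real.sqrt (r * s)) (Lsc r s))^[N] f)‖ ∧
      ∀ z, (pS (Real.sqrt (r * s)) (Lsc r s))^[N] f z = f (scp (r ^ N) (s ^ N) z) := fun N => by
    induction N with
    | zero => simp
    | succ N ih =>
      refine fun f => ⟨?_, fun z => ?_⟩
      · rw [Function.iterate_succ_apply', b.ba.nrm, (ih _).1, Function.iterate_succ_apply]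
      · rw [Function.iterate_succ_apply, (ih _).2, pS_apply (by positivity) hL, hs,
          scp_scp _ r0.le s0.le, pow_succ', pow_succ']
  exact ⟨m, C, fun N f => (e N f).1.trans_le (h N f _ (e N f).2)⟩

end Lim

open Lim

/-- **Row KILL.** -/
theorem kill_row (c : Ctx D) (b : B0 c) (A : ANI c) : KILL c := by
  intro σ y r s a h1 h2 r0 r1 s0 s1 h ha
  obtain ⟨m, C, hC⟩ := ani_pow b A h1 h2 Bornology.isBounded_empty r0 r1 s0 s1
  have h0 : 0 < (r * s) ^ (-(15 / 8 : ℝ)) := by positivity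
  have e : ∀ N, (act c (Real.sqrt (r * s)) (Lsc r s))^[N] y = a ^ N • y := fun N => by
    induction N with
    | zero => simp
    | succ N ih => rw [Function.iterate_succ_apply', ih, map_smul, h, smul_smul, pow_succ]
  refine ContinuousLinearMap.ext fun f => norm_le_zero_iff.1 ?_
  have t := (tendsto_pow_atTop_nhds_zero_of_lt_one (div_pos h0 (h0.trans ha)).le
    ((div_lt_one (h0.trans ha)).2 ha)).const_mul (C * sn m f)
  rw [mul_zero] at t
  refine ge_of_tendsto' t fun N => ?_
  have := hC N f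
  rw [e, ContinuousLinearMap.smul_apply, norm_smul, Real.norm_of_nonneg (pow_pos (h0.trans ha) N).le,
    ← le_div_iff₀' (pow_pos (h0.trans ha) N)] at this
  rw [div_pow, ← mul_div_assoc, mul_right_comm]
  exact this

end

end Vale.Agent.P352L.TPD
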