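import Vale.Agent.P352L.TPD.EBa
import Vale.Agent.P352L.TPD.Kill

/-!
# P352L, block TPD: rows KILL and LIM with logarithms (helper14)
-/

set_option linter.all false

open MeasureTheory Filter Topology
open scoped SchwartzMap ComplexConjugate ENNReal ContDiff

namespace Vale.Agent.P352L.TPD.TE

open Vale.Agent.P352 Vale.Agent.P352.GF Vale.Agent.P352.BW Vale.Agent.P352.H246
open Vale.Agent.P352.H496 Vale.Agent.P352.H755 Vale.Agent.P352.H15
open Vale.Agent.P352X Vale.Agent.P352X.TPD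
open UniformSpace (Completion)
open Complex (I)

noncomputable section

variable {D : Type*} [NormedAddCommGroup D] [InnerProductSpace ℂ D] {E : Type*} [AddCommGroup E]
  [Module ℝ E]
  {c : Cx D E}

namespace Lim

lemma sn_mono {m m' : ℕ} (h : m ≤ m') (f : Sch) : sn m f ≤ sn m' f := by
  rw [Api4.sn_eq, Api4.sn_eq]
  exact ST.sn_mono h f

/-- geometric convergence -/
lemma exists_lim (x : ℕ → ET D E) {q : ℝ} (h0 : 0 ≤ q) (h1 : q < 1)
    (h : ∀ e, ∃ (m : ℕ) (C : ℝ), ∀ n f, ‖x (n + 1) e f - x n e f‖ ≤ C * q ^ n * sn m f) :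
    ∃ y : ET D E, ∀ e f, Tendsto (fun n => x n e f) atTop (𝓝 (y e f)) := by
  choose y hy using fun e => (h e).elim fun m k => k.elim fun C hC =>
    TPD.Lim.exists_lim (fun n => x n e) h0 h1 hC
  refine ⟨⟨⟨y, fun e e' => ContinuousLinearMap.ext fun f => tendsto_nhds_unique (hy _ f) ?_⟩,
    fun a e => ContinuousLinearMap.ext fun f => tendsto_nhds_unique (hy _ f) ?_⟩, hy⟩
  · simpa using (hy e f).add (hy e' f)
  · simpa using (hy e f).const_smul a

lemma act_iter (s : ℝ) (L : Ix → V) (x : ET D E) (N : ℕ) (e : E) : (act c s L)^[N] x e =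
    (TPD.act c.toCtx s L)^[N] (x ((c.u.A (-Real.log s))^[N] e)) := by
  induction N generalizing e with
  | zero => rfl
  | succ N ih => rw [Function.iterate_succ_apply', act_e, ih, Function.iterate_succ_apply',
      Function.iterate_succ_apply]

/-- the logarithms cost an arbitrarily small power -/
lemma pow_gain (u : Uni E) (t : ℝ) {X : ℕ → E →ₗ[ℝ] TT D} {q ρ : ℝ} (q0 : 0 ≤ q) (hρ : 1 < ρ)
    (h : ∀ e, ∃ (m : ℕ) (C : ℝ), ∀ N f, ‖X N e f‖ ≤ C * q ^ N * sn m f) (e : E) :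
    ∃ (m : ℕ) (C : ℝ), 0 ≤ C ∧ ∀ N M f, ‖X N ((u.A t)^[M] e) f‖ ≤ C * q ^ N * ρ ^ M * sn m f := by
  refine u.ind (P := fun e => ∃ (m : ℕ) (C : ℝ), 0 ≤ C ∧ ∀ N M f,
    ‖X N ((u.A t)^[M] e) f‖ ≤ C * q ^ N * ρ ^ M * sn m f) ⟨0, 0, le_rfl, fun N M f => by
      simp [← Module.End.pow_apply]⟩ (fun e he => ?_) e
  obtain ⟨m, C, C0, hC⟩ := he t
  obtain ⟨m', C', hC'⟩ := h e
  have r0 : 0 < ρ - 1 := sub_pos.2 hρ
  refine ⟨max m m', |C'| + C / (ρ - 1), by positivity, fun N M f => ?_⟩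
  have s0 : 0 ≤ sn m f := apply_nonneg _ _
  have s0' : 0 ≤ sn m' f := apply_nonneg _ _
  have s1 := sn_mono (le_max_left m m') f
  have s2 := sn_mono (le_max_right m m') f
  have p0 := pow_nonneg q0 N
  induction M with
  | zero =>
    refine (hC' N f).trans ?_
    rw [pow_zero, mul_one]
    have : 0 ≤ C / (ρ - 1) := by positivity
    gcongr
    linarith [le_abs_self C']
  | succ M ih =>
    rw [u.iter, map_add, ContinuousLinearMap.add_apply]
    refine (norm_add_le_of_le ih ((hC N M f).trans (mul_le_mul_of_nonneg_left s1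
      (by positivity)))).trans ?_
    have e1 : C ≤ (|C'| + C / (ρ - 1)) * (ρ - 1) := by
      rw [add_mul, div_mul_cancel₀ _ r0.ne']
      exact le_add_of_nonneg_left (by positivity)
    have e2 := mul_le_mul_of_nonneg_right e1
      (show 0 ≤ q ^ N * ρ ^ M * sn (max m m') f by have := s0.trans s1; positivity)
    rw [pow_succ]
    linarith

lemma ani_pow (b : B0 c) (A : ANI c.toCtx) {σ : ℝ} {K : Set V} {x : ET D E} {r s ρ : ℝ}
    (h1 : TC c x) (h2 : Loc c σ K x) (h3 : Bornology.IsBounded K) (r0 : 0 < r) (r1 : r < 1)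
    (s0 : 0 < s) (s1 : s < 1) (hρ : 1 < ρ) (e : E) : ∃ (m : ℕ) (C : ℝ), ∀ N f,
      ‖(act c (Real.sqrt (r * s)) (Lsc r s))^[N] x e f‖ ≤
        C * ((r * s) ^ (-(15 / 8 : ℝ)) * ρ) ^ N * sn m f := by
  obtain ⟨m, C, -, h⟩ := pow_gain c.u (-Real.log (Real.sqrt (r * s)))
    (X := fun N => (TPD.act c.toCtx (Real.sqrt (r * s)) (Lsc r s) ^ N) ∘ₗ x)
    (q := (r * s) ^ (-(15 / 8 : ℝ))) (by positivity) hρ (fun e => by
      simpa only [LinearMap.comp_apply, Module.End.pow_apply] using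
        TPD.Lim.ani_pow b.b A (h1 e) (h2 e) h3 r0 r1 s0 s1) e
  refine ⟨m, C, fun N f => ?_⟩
  have := h N N f
  rwa [LinearMap.comp_apply, Module.End.pow_apply, ← act_iter, mul_assoc C, ← mul_pow] at this

lemma ex_rho {a q : ℝ} (a0 : 0 ≤ a) (q0 : 0 < q) (h : a * q < 1) : ∃ ρ, 1 < ρ ∧ a * (q * ρ) < 1 := by
  have t : Tendsto (fun ρ : ℝ => a * (q * ρ)) (𝓝[>] 1) (𝓝 (a * (q * 1))) :=
    tendsto_nhdsWithin_of_tendsto_nhds (Continuous.tendsto (by fun_prop) 1)
  rw [mul_one] at t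
  exact (eventually_mem_nhdsWithin.and (t.eventually (gt_mem_nhds h))).exists

/-- the distribution of a difference of two cutoffs -/
def Ps (w : EW D E) (S : V → Tn (Fin 4)) (η η' : EC) : ET D E := psi w (cs (η.1 - η'.1) S)

variable (b : B0 c) {w : EW D E} (hw : Src c w) {S : V → Tn (Fin 4)} (hS : ContDiff ℝ ∞ S)
include b hw hS

lemma ok (η η' : EC) : Ok (cs (η.1 - η'.1) S) ∧
    tsupport (cs (η.1 - η'.1) S) ⊆ tsupport η.1 ∪ tsupport η'.1 :=
  have h := b.ten.okc _ S (b.ten.ec η η').1 (b.ten.ec η η').2 hS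
  ⟨h.1, h.2.trans (tsupport_sub _ _)⟩

lemma ps_add (η η' η'' : EC) : Ps w S η η' + Ps w S η' η'' = Ps w S η η'' := by
  rw [Ps, Ps, ← (b.bp w hw).add _ _ (ok b hw hS _ _).1 (ok b hw hS _ _).1]
  congr 1
  funext u
  simp only [cs, Pi.add_apply, Pi.sub_apply, ← add_smul, sub_add_sub_cancel]

lemma ps_tc (η η' : EC) : TC c (Ps w S η η') := (b.bp w hw).tc _ (ok b hw hS _ _).1

lemma ps_loc {σ : ℝ} (hσ : σ * σ = 1) (he : ∀ u, S (-u) = σ • S u) (η η' : EC) :
    Loc c σ (tsupport η.1 ∪ tsupport η'.1) (Ps w S η η') :=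
  b.ba.loc_mono _ _ _ _ (ok b hw hS _ _).2 ((b.bp w hw).loc σ _ hσ (ok b hw hS _ _).1 fun u => by
    simp only [cs, Pi.sub_apply, η.2.2, η'.2.2, he, smul_comm σ])

lemma ps_cov {s κ : ℝ} {L : Ix → V} (hs : 0 < s) (hL : IsLor L) (h : pf s L S = κ • S) (η η' : EC) :
    κ • act c s L (Ps w S (η.pull s L) (η'.pull s L)) = Ps w S η η' := by
  rw [← map_smul, Ps, ← (b.bp w hw).smul _ _ (ok b hw hS _ _).1, Ps,
    ← (b.bp w hw).cov s L _ hs hL (ok b hw hS η η').1]
  congr 2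
  funext u
  have := congrFun h u
  simp only [pf, Pi.smul_apply] at this
  simp only [pf, cs, Pi.smul_apply, Pi.sub_apply, map_smul, this, EC.pull_apply _ hs hL,
    smul_comm κ]

end Lim

open Lim

/-- **Row KILL.** -/
theorem kill_row (c : Cx D E) (b : B0 c) (kl : TPD.KILL c.toCtx) : KILL c := by
  intro σ y r s a h1 h2 r0 r1 s0 s1 h ha
  refine c.u.eq_zero fun e he => kl σ _ r s a (h1 e) (h2 e) r0 r1 s0 s1 ?_ ha
  rw [← he (-Real.log (Real.sqrt (r * s))), ← act_e, h, he]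
  rfl

/-- **Row LIM.** -/
theorem lim_row (c : Cx D E) (b : B0 c) (A : ANI c.toCtx) : LIM c := by
  intro w hw σ S r s a hσ hS he r0 r1 s0 s1 h a0 ha
  obtain ⟨ρ, ρ1, ha⟩ := ex_rho a0 (by positivity) ha
  have ρ0 := one_pos.trans ρ1
  obtain ⟨hL, hg, -⟩ := b.ten.lsc r s r0 s0
  obtain ⟨hL', hg', -⟩ := b.ten.lsc r⁻¹ s⁻¹ (inv_pos.2 r0) (inv_pos.2 s0)
  have l0 : 0 < Real.sqrt (r * s) := by positivity
  have l0' : 0 < Real.sqrt (r⁻¹ * s⁻¹) := by positivity
  set P : EC → EC := fun η => η.pull (Real.sqrt (r⁻¹ * s⁻¹)) (Lsc r⁻¹ s⁻¹) with hP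
  have i1 : ∀ z, scp r⁻¹ s⁻¹ (scp r s z) = z := fun z => by
    rw [scp_scp _ (inv_pos.2 r0).le (inv_pos.2 s0).le, inv_mul_cancel₀ r0.ne',
      inv_mul_cancel₀ s0.ne', scp_one]
  have i2 : ∀ z, scp r s (scp r⁻¹ s⁻¹ z) = z := fun z => by
    rw [scp_scp _ r0.le s0.le, mul_inv_cancel₀ r0.ne', mul_inv_cancel₀ s0.ne', scp_one]
  have p0 : ∀ η u, (P η).1 u = η.1 (scp r⁻¹ s⁻¹ u) := fun η u => by
    rw [hP, EC.pull_apply _ l0' hL', hg']
  have p1 : ∀ η η' N, Ps w S (P^[N] η) (P^[N] η') =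
      a ^ N • (act c (Real.sqrt (r * s)) (Lsc r s))^[N] (Ps w S η η') := fun η η' N => by
    have e : ∀ η, (P η).pull (Real.sqrt (r * s)) (Lsc r s) = η := fun η =>
      Subtype.ext (funext fun u => by rw [EC.pull_apply _ l0 hL, hg, p0, i1])
    induction N with
    | zero => simp
    | succ N ih =>
      simp only [Function.iterate_succ_apply']
      rw [← ps_cov b hw hS l0 hL h, e, e, ih, map_smul, smul_smul, pow_succ']
  have p2 : ∀ (η η' : EC) e, ∃ (m : ℕ) (C : ℝ), ∀ N f, ‖Ps w S (P^[N] η) (P^[N] η') e f‖ ≤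
      C * (a * ((r * s) ^ (-(15 / 8 : ℝ)) * ρ)) ^ N * sn m f := fun η η' e => by
    obtain ⟨m, C, hC⟩ := ani_pow b A (ps_tc b hw hS η η') (ps_loc b hw hS hσ he η η')
      (η.2.1.1.2.union η'.2.1.1.2).isBounded r0 r1 s0 s1 ρ1 e
    refine ⟨m, C, fun N f => ?_⟩
    rw [p1, LinearMap.smul_apply, ContinuousLinearMap.smul_apply, norm_smul,
      Real.norm_of_nonneg (pow_nonneg a0 N)]
    refine (mul_le_mul_of_nonneg_left (hC N f) (pow_nonneg a0 N)).trans_eq ?_
    rw [mul_pow a]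
    ring
  have q0 : 0 ≤ a * ((r * s) ^ (-(15 / 8 : ℝ)) * ρ) := by positivity
  have p3 : ∀ η : EC, ∃ y : ET D E, ∀ e f,
      Tendsto (fun N => Ps w S η (P^[N] η) e f) atTop (𝓝 (y e f)) := fun η => by
    refine exists_lim (fun N => Ps w S η (P^[N] η)) q0 ha fun e => ?_
    obtain ⟨m, C, hC⟩ := p2 η (P η) e
    refine ⟨m, C, fun N f => ?_⟩
    rw [← ps_add b hw hS η (P^[N] η) (P^[N + 1] η), LinearMap.add_apply,
      ContinuousLinearMap.add_apply, add_sub_cancel_left, Function.iterate_succ_apply]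
    exact hC N f
  choose x hx using p3
  have p4 : ∀ (η : EC) N, tsupport (P^[N] η).1 ⊆ scp (r ^ N) (s ^ N) '' tsupport η.1 := fun η N => by
    induction N with
    | zero => simp
    | succ N ih =>
      intro u hu
      rw [Function.iterate_succ_apply'] at hu
      obtain ⟨v, hv, e⟩ := ih ((b.ten.pull _ _ 1 _ _ l0' one_pos hL' hL').2.2 ▸
        Set.mem_image_of_mem _ hu)
      refine ⟨v, hv, ?_⟩
      rw [pow_succ', pow_succ', ← scp_scp _ r0.le s0.le, e, hg', i2]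
  refine ⟨x, ⟨fun η e => ⟨fun y f => ?_, fun f => ?_⟩, fun η => ?_, fun η η' => ?_⟩,
    fun s' L κ hs' hL1 hc hκ => funext fun η => LinearMap.ext fun e0 =>
      ContinuousLinearMap.ext fun f => ?_⟩
  · refine tendsto_nhds_unique (((Ut c.Q y).continuous.tendsto _).comp (hx η e f)) ?_
    simpa only [Function.comp_def, (ps_tc b hw hS _ _ e).tra] using hx η e (ST.tsl y f)
  · refine tendsto_nhds_unique (tendsto_const_nhds.inner (hx η e f)) ?_
    simpa only [(ps_tc b hw hS _ _ e).perp] using tendsto_const_nhds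
  · refine b.ba.loc_lim σ _ _ _ (hx η) fun ε hε => ?_
    have hc : Continuous fun z : (ℝ × ℝ) × V => scp z.1.1 z.1.2 z.2 := by
      unfold scp
      fun_prop
    have t := ((tendsto_pow_atTop_nhds_zero_of_lt_one r0.le r1).prodMk_nhds
      (tendsto_pow_atTop_nhds_zero_of_lt_one s0.le s1)).eventually
        (η.2.1.1.2.isCompact.eventually_forall_of_forall_eventually
          (P := fun (t : ℝ × ℝ) z => scp t.1 t.2 z ∈ Metric.ball 0 ε) fun z _ =>
            (hc.tendsto' ((0, 0), z) 0 (null_ext (by simp) (by simp) (by simp))).eventually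
              (Metric.ball_mem_nhds 0 hε))
    refine t.mono fun N hN => b.ba.loc_mono _ _ _ _ (Set.union_subset_union_right _ ?_)
      (ps_loc b hw hS hσ he η _)
    refine (p4 η N).trans ?_
    rintro _ ⟨v, hv, rfl⟩
    exact hN v hv
  · refine LinearMap.ext fun e => ContinuousLinearMap.ext fun f =>
      tendsto_nhds_unique ((hx η e f).sub (hx η' e f)) ?_
    obtain ⟨m, C, hC⟩ := p2 η η' e
    have t := ((tendsto_pow_atTop_nhds_zero_of_lt_one q0 ha).const_mul C).mul_const (sn m f)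
    rw [mul_zero, zero_mul] at t
    have t2 := (squeeze_zero_norm (fun N => hC N f) t).const_sub (Ps w S η η' e f)
    rw [sub_zero] at t2
    refine t2.congr fun N => ?_
    have := (ps_add b hw hS η (P^[N] η) (P^[N] η')).trans (ps_add b hw hS η η' (P^[N] η')).symm
    rw [sub_eq_sub_iff_add_eq_add, ← ContinuousLinearMap.add_apply, ← LinearMap.add_apply, ← this,
      LinearMap.add_apply, ContinuousLinearMap.add_apply]
  · have e : ∀ N, P^[N] (η.pull s' L) = (P^[N] η).pull s' L := fun N => by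
      induction N with
      | zero => rfl
      | succ N ih =>
        simp only [Function.iterate_succ_apply', ih]
        refine Subtype.ext (funext fun u => ?_)
        have e1 : ∀ z, sim s' L 0 z = s' • sim 1 L 0 z := fun z => funext fun n => by simp [sim]
        have e2 := hc (scp r⁻¹ s⁻¹ u)
        rw [i2] at e2
        rw [p0, EC.pull_apply _ hs' hL1, EC.pull_apply _ hs' hL1, p0, e1, e1 u, e2,
          ← scpL_apply (s' • _), map_smul, scpL_apply, i1]
    refine tendsto_nhds_unique ((((Ug c.Q s' L 0).continuous.tendsto _).comp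
      (hx (η.pull s' L) _ (pS s' L f))).const_smul κ) ((hx η e0 f).congr fun N => ?_)
    rw [← ps_cov b hw hS hs' hL1 hκ, ← e, LinearMap.smul_apply, ContinuousLinearMap.smul_apply,
      act_e, act_apply, Function.comp_apply]

end

end Vale.Agent.P352L.TPD.TE
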