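import Vale.Agent.P352L.TPD.EUt
import Vale.Agent.P352X.TPD.TL

/-!
# P352L, block TPD: row TL (helper14)
-/

set_option linter.all false

open MeasureTheory Filter Topology
open scoped SchwartzMap ComplexConjugate ENNReal ContDiff

namespace Vale.Agent.P352L.TPD.TE

open Vale.Agent.P352 Vale.Agent.P352.GF Vale.Agent.P352.BW Vale.Agent.P352.H246
open Vale.Agent.P352.H496 Vale.Agent.P352.H755 Vale.Agent.P352.H15
open Vale.Agent.P352X Vale.Agent.P352X.TPD
open UniformSpace (Completion)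
open Complex (I)

noncomputable section

variable {D : Type*} [NormedAddCommGroup D] [InnerProductSpace ℂ D] {E : Type*} [AddCommGroup E]
  [Module ℝ E]

variable {c : Cx D E}

namespace Tl

open Vale.Agent.P352X.TPD.Tl Finset

/-- matrix elements -/
def me (ξ : Completion D) (η : EC) (f : E × Sch) : EF D E →ₗ[ℝ] ℂ where
  toFun x := inner ℂ ξ (x η f.1 f.2)
  map_add' x y := inner_add_right _ _ _
  map_smul' a x := by
    simp only [Pi.smul_apply, LinearMap.smul_apply, ContinuousLinearMap.smul_apply,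
      RingHom.id_apply]
    exact inner_smul_right_eq_smul _ _ _

variable {w : EW D E} {Φ : V → EF D E}

lemma quad (b : B0 c) (hp : POLYN) (h5 : FIVE c) (hw : Src c w) (h : Phi c w Φ)
    (ξ : Completion D) (η : EC) (f : E × Sch) : ∃ q : Ix → Ix → ℂ, ∀ n, IsNull n →
      me ξ η f (Φ n) = ∑ m, ∑ k, q m k * (sq n ![m, k] : ℝ) := by
  have nvb : IsNull vb := nb0 ▸ null_nb 0
  have e1 : ∀ x, Φ (nb x) = ga c 1 (Lg x) (Φ vb) := fun x => by
    have := h.cov 1 (Lg x) vb one_pos (b.ten.lg x).1 nvb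
    rw [(b.ten.lg x).2.1, gap_vb, one_pow, one_smul] at this
    exact this.symm
  have e2 : ∀ x, Φ (na x) = ga c 1 sw (Φ (nb (rf x))) := fun x => by
    have := h.cov 1 sw _ one_pos b.ten.sw.1 (null_nb (rf x))
    rw [sw_nb b.ten, one_pow, one_smul] at this
    exact this.symm
  have c1 : ∀ η e f, Continuous fun x => Φ (nb x) η e f := fun η e f =>
    continuous_iff_continuousAt.2 fun x => by
      simp only [e1]
      exact (b.bp w hw).dcont 1 _ _ R2 (𝓝 x) Lg (Lg x) η e f (b.ten.h0s _).1 (h.dat vb nvb)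
        (fun y => (b.ten.lg y).1) (b.ten.lg x).1 (b.ten.lg0.2.tendsto x)
  refine hp (fun n => me ξ η f (Φ n)) (fun n t hn ht => ?_) (continuous_const.inner (c1 η _ _)) ?_
    (fun x y => ?_) fun x y => ?_
  · simp only [h.hom n t hn ht, map_smul, Complex.real_smul]
  · simp only [e2]
    exact continuous_const.inner ((Ug c.Q 1 sw 0).continuous.comp
      ((c1 _ _ _).comp rf.continuous_of_finiteDimensional))
  · rw [map_df5 (me ξ η f) fun x => Φ (nb x), h5 w Φ hw h, map_zero]
  · have := h5 w Φ hw h (rf x) (rf y)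
    simp only [e2]
    rw [map_df5 (me ξ η f) fun x => ga c 1 sw (Φ (nb (rf x))),
      map_df5 (ga c 1 sw) fun x => Φ (nb (rf x))]
    simp only [df5, map_add, map_smul] at this ⊢
    rw [this, map_zero, map_zero]

lemma rel (b : B0 c) (hp : POLYN) (h5 : FIVE c) (hw : Src c w) (h : Phi c w Φ) {N : ℕ}
    {n n' : Fin N → V} {a a' : Fin N → ℝ} (hn : ∀ i, IsNull (n i)) (hn' : ∀ i, IsNull (n' i))
    (e : ∑ i, a i • sq (n i) = ∑ i, a' i • sq (n' i)) :
    ∑ i, a i • Φ (n i) = ∑ i, a' i • Φ (n' i) := by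
  refine funext fun η => LinearMap.ext fun e0 => ContinuousLinearMap.ext fun f0 =>
    ext_inner_left ℂ fun ξ => ?_
  set f := (e0, f0)
  obtain ⟨q, hq⟩ := quad b hp h5 hw h ξ η f
  have k : ∀ (n : Fin N → V) (a : Fin N → ℝ), (∀ i, IsNull (n i)) →
      me ξ η f (∑ i, a i • Φ (n i)) =
        ∑ m, ∑ k, q m k * ((∑ i, a i • sq (n i)) ![m, k] : ℝ) := fun n a hn => by
    simp only [map_sum, map_smul, hq _ (hn _), Complex.real_smul, Finset.sum_apply, Pi.smul_apply,
      smul_eq_mul, Complex.ofReal_sum, Complex.ofReal_mul, mul_sum]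
    rw [sum_comm]
    refine sum_congr rfl fun m _ => ?_
    rw [sum_comm]
    exact sum_congr rfl fun k _ => sum_congr rfl fun i _ => by ring
  exact (k n a hn).trans (e ▸ (k n' a' hn').symm)

lemma dat (b : B0 c) (hw : Src c w) (h : Phi c w Φ) {ι : Type} (s : Finset ι) {n : ι → V}
    (a : ι → ℝ) (hn : ∀ i, IsNull (n i)) :
    Dat c w 1 (h0 (∑ i ∈ s, a i • sq (n i))) (∑ i ∈ s, a i • Φ (n i)) := by
  classical
  induction s using Finset.induction_on with
  | empty =>
    have : h0 0 = 0 := by ext u ν; simp [h0]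
    simpa only [sum_empty, this] using (b.bp w hw).dzero 1
  | insert i s hi ih =>
    rw [sum_insert hi, sum_insert hi, ((b.ten.h0s _).2.2 _ 0).1]
    refine (b.bp w hw).dadd _ _ _ _ _ (b.ten.h0s _).1 (b.ten.h0s _).1 ?_ ih
    rw [((b.ten.h0s _).2.2 0 _).2]
    exact (b.bp w hw).dsmul _ _ _ _ (b.ten.h0s _).1 (h.dat _ (hn i))

end Tl

open Tl Finset in
/-- row TL -/
theorem tl_row (c : Cx D E) : B0 c → POLYN → NODES → PHI c → FIVE c → TL c := by
  intro b hp ⟨N, n, l, hn, hl⟩ hΦ h5 w hw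
  obtain ⟨Φ, h⟩ := hΦ w hw
  refine ⟨∑ i, (l i).smulRight (Φ (n i)), fun k => ?_, fun s L k hs hL => ?_⟩
  · simpa only [hl, LinearMap.sum_apply, LinearMap.smulRight_apply] using
      dat b hw h univ (fun i => l i k) hn
  · simp only [LinearMap.sum_apply, LinearMap.smulRight_apply, map_sum, map_smul, smul_sum,
      smul_comm (s ^ 2) (l _ _), h.cov s L _ hs hL (hn _)]
    refine rel b hp h5 hw h (fun i => isNull_lor hL (hn i)) hn ?_
    obtain ⟨L', -, -, h2⟩ := b.ten.inv L hL
    have inj : Function.Injective (pb (ι := Fin 2) L) :=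
      Function.LeftInverse.injective (g := pb L') fun x => by rw [b.ten.mul, h2, b.ten.one]
    refine inj ?_
    simp only [map_sum, map_smul, b.ten.sq L _ hL]
    rw [hl, (b.ten.tl L k hL).2, ← hl, map_sum]
    simp only [map_smul]

end

end Vale.Agent.P352L.TPD.TE
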