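import Vale.Agent.P352L.TPD.EBa
import Vale.Agent.P352L.TPD.Ut

/-!
# P352L, block TPD: small common lemmas (helper14)
-/

set_option linter.all false

open MeasureTheory Filter Topology
open scoped SchwartzMap ComplexConjugate ENNReal ContDiff

namespace Vale.Agent.P352L.TPD.TE

open Vale.Agent.P352 Vale.Agent.P352.GF Vale.Agent.P352.BW Vale.Agent.P352.H246
open Vale.Agent.P352.H496 Vale.Agent.P352.H755 Vale.Agent.P352.H15
open Vale.Agent.P352X Vale.Agent.P352X.TPD
open UniformSpace (Completion)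
open Complex (I)

noncomputable section

variable {D : Type*} [NormedAddCommGroup D] [InnerProductSpace ℂ D] {E : Type*} [AddCommGroup E]
  [Module ℝ E]

variable {c : Cx D E} {w : EW D E}

/-- dilations commute with everything -/
lemma ga_dil (b : B0 c) {s : ℝ} {L : Ix → V} (hs : 0 < s) (hL : IsLor L) (x : EF D E) :
    ga c s L x = ga c 1 L (ga c s GF.one x) ∧ ga c s L x = ga c s GF.one (ga c 1 L x) := by
  rw [b.ba.gmul _ _ _ _ _ one_pos hs hL (lor_one b.ten), b.ba.gmul _ _ _ _ _ hs one_pos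
    (lor_one b.ten) hL, one_mul, mul_one, cm_one, one_cm]
  exact ⟨rfl, rfl⟩

lemma act_dil (b : B0 c) {s : ℝ} {L : Ix → V} (hs : 0 < s) (hL : IsLor L) (x : ET D E) :
    act c s L x = act c 1 L (act c s GF.one x) ∧ act c s L x = act c s GF.one (act c 1 L x) := by
  rw [b.ba.mul _ _ _ _ _ one_pos hs hL (lor_one b.ten), b.ba.mul _ _ _ _ _ hs one_pos
    (lor_one b.ten) hL, one_mul, mul_one, cm_one, one_cm]
  exact ⟨rfl, rfl⟩

lemma ga_cm (b : B0 c) {L L' : Ix → V} (hL : IsLor L) (hL' : IsLor L') (x : EF D E) :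
    ga c 1 L (ga c 1 L' x) = ga c 1 (T.cm L' L) x := by
  rw [b.ba.gmul _ _ _ _ _ one_pos one_pos hL hL', one_mul]

/-- differences of data -/
lemma BP.dsub (P : BP c w) {σ : ℝ} {S : V → Tn (Fin 4)} {x x' : EF D E} (hS : ContDiff ℝ ∞ S)
    (h : Dat c w σ S x) (h' : Dat c w σ S x') : Dat c w σ 0 (x - x') := by
  have := P.dadd σ _ _ _ _ hS (hS.const_smul (-1 : ℝ)) h (P.dsmul σ (-1) S x' hS h')
  rwa [show (S + fun u => (-1 : ℝ) • S u) = 0 from funext fun u => by simp, neg_one_smul,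
    ← sub_eq_add_neg] at this

/-- linear combinations of data for `h0` -/
lemma BP.dsum (P : BP c w) (t : TEN) {ι : Type*} (s : Finset ι) (a : ι → ℝ) (k : ι → Tn (Fin 2))
    (x : ι → EF D E) (h : ∀ i ∈ s, Dat c w 1 (h0 (k i)) (x i)) :
    Dat c w 1 (h0 (∑ i ∈ s, a i • k i)) (∑ i ∈ s, a i • x i) := by
  classical
  induction s using Finset.induction_on with
  | empty =>
    have := ((t.h0s 0).2.2 0 0).2
    rw [zero_smul, zero_smul] at this
    simpa only [Finset.sum_empty, this] using P.dzero 1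
  | insert i s hi ih =>
    rw [Finset.sum_insert hi, Finset.sum_insert hi, ((t.h0s _).2.2 _ 0).1]
    refine P.dadd 1 _ _ _ _ (t.h0s _).1 (t.h0s _).1 ?_ (ih fun j hj => h j (by simp [hj]))
    rw [((t.h0s _).2.2 0 _).2]
    exact P.dsmul 1 _ _ _ (t.h0s _).1 (h i (by simp))

/-- the lowest weight is seen in the limit -/
lemma wt_lim (b : B0 c) {s : Finset ℤ} {z : ℤ → ET D E} {y : ET D E} {m : ℤ}
    (hz : ∀ n t, act c 1 (Lb t) (z n) = Real.exp (n * t) • z n)
    (h : ∀ e f, Tendsto (fun t : ℝ => Real.exp (-(m * t)) • act c 1 (Lb t) (∑ n ∈ s, z n) e f)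
      atBot (𝓝 (y e f))) :
    (∀ n ∈ s, n < m → z n = 0) ∧ (m ∈ s → z m = y) ∧ (m ∉ s → y = 0) := by
  have k := fun e => TPD.wt_lim b.b (s := s) (z := fun n => z n e) (y := y e) (m := m)
    (fun n t => by rw [← act_one, hz]; rfl) fun f => by
      simpa only [act_one, LinearMap.sum_apply] using h e f
  exact ⟨fun n hn h1 => LinearMap.ext fun e => (k e).1 n hn h1,
    fun h1 => LinearMap.ext fun e => (k e).2.1 h1, fun h1 => LinearMap.ext fun e => (k e).2.2 h1⟩

end

end Vale.Agent.P352L.TPD.TE
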