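import Vale.Agent.P352L.TPD.Tw
import Vale.Agent.P352L.TPD.Ba1
import Vale.Agent.P352Y.WL

/-!
# P352L, block TPD: local distributions are finite sums of boost eigenvectors (helper14)
-/

set_option linter.all false

noncomputable section

open MeasureTheory Filter Topology Complex Set Finset
open scoped Real SchwartzMap BoundedContinuousFunction

namespace Vale.Agent.P352L.TPD

open Vale.Agent.P352 Vale.Agent.P352.GF Vale.Agent.P352.BW Vale.Agent.P352X
open Vale.Agent.P352X.TPD Vale.Agent.P352Y Vale.Agent.P352Y.Wl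
open Vale.Agent.P352.H496 (Wdg)
open UniformSpace (Completion)

variable {D : Type*} [NormedAddCommGroup D] [InnerProductSpace ℂ D] {c : Ctx D} {d : ℕ}
  {om om' : Sch →L[ℂ] Completion D}

namespace Gb

/-- translation covariant distributions of boost growth `d` -/
structure Tg (c : Ctx D) (d : ℕ) (om : Sch →L[ℂ] Completion D) : Prop where
  rel : ∀ f g : Sch, c.bt.Phi (ft (ev g)) (om f) = c.bt.Phi (ft (ev f)) (om g)
  gr : ∀ f, Gr d fun t => Bo c.Q t (om (bS t f))

variable (c) in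
/-- locality in the wedge -/
def Lc (om om' : Sch →L[ℂ] Completion D) : Prop := ∀ g g' : Sch, HasCompactSupport g →
  tsupport g ⊆ Wdg va vb 0 → (∀ x, g' x = g (jr x)) →
    Pr (c.N (Wdg va vb 0)) c.Om (om g) (c.J (om' g'))

variable (g0 : GRP c)
include g0

lemma Tg.key (h : Tg c d om) (f g : Sch) (s : ℝ) : c.bt.Phi (ft (ev f)) (Bo c.Q s (om g)) =
    Bo c.Q s (c.bt.Phi (ft (ev g)) (om (bS s f))) := by
  rw [h.rel, Two.Phi_W (k := scp (rexp (-s)) (rexp s)) (Two.meas_scp _ _) (g0.bo_ut s)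
    (fun p y => md_scp_l p y) (Two.bd_ft ⟨_, rfl⟩)]
  simp only [ft_bS, scp_scp _ (Real.exp_nonneg _) (Real.exp_nonneg _), Wl.ee, mul_comm (rexp (-s)),
    scp_one]

lemma Tg.lim (h : Tg c d om) (f : Sch) {G : ℕ → Sch} (b : ∀ n p, ‖ft (ev (G n)) p‖ ≤ 1)
    (l : ∀ p, Tendsto (fun n => ft (ev (G n)) p) atTop (𝓝 1)) (z : ℂ) :
    Tendsto (fun n => c.bt.Phi (ft (ev f)) (Gs (fun s => Bo c.Q s (om (G n))) z)) atTop
      (𝓝 (Gs (fun s => Bo c.Q s (om (bS s f))) z)) := by
  have u := g0.ugB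
  have i : ∀ v, Integrable fun s => gz z s • Bo c.Q s v := fun v =>
    ((int_gz z 0).norm.mul_const ‖v‖).mono' ((cont_gz z).smul (u.cont v)).aestronglyMeasurable
      (.of_forall fun s => by simp [norm_smul, u.norm])
  simp only [Gs, ← ContinuousLinearMap.integral_comp_comm _ (i _), map_smul]
  refine tendsto_integral_of_dominated_convergence _ (fun n => ((cont_gz z).smul
    ((c.bt.Phi _).continuous.comp (u.cont _))).aestronglyMeasurable) ((h.gr f).int z).norm
    (fun n => .of_forall fun s => ?_) (.of_forall fun s => ?_)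
  · simp only [h.key g0, norm_smul, u.norm]
    gcongr
    exact (c.bt.norm_le (Two.bd_ft ⟨_, rfl⟩) zero_le_one _ (.of_forall (b n))).trans_eq (one_mul _)
  · simp only [h.key g0]
    have := c.bt.tendsto_Phi (fun n => Two.bd_ft ⟨G n, rfl⟩) (SN.Bd.const 1) (v := om (bS s f))
      (.of_forall fun n => .of_forall (b n)) (.of_forall l)
    rw [c.bt.const_apply, one_smul] at this
    exact (((Bo c.Q s).continuous.tendsto _).comp this).const_smul _

lemma Lc.shift (h : Tg c d om) (h' : Tg c d om') (l : Lc c om om') (f : Sch) (z : ℂ) :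
    Gs (fun s => Bo c.Q s (om (bS s f))) (z + π * I) = Gs (fun s => Bo c.Q s (om' (bS s f))) z := by
  obtain ⟨G, g1, g2, g3⟩ := ex_G
  have e : ∀ n p, ft (ev (Wl.pb conf_jr (G n))) p = ft (ev (G n)) (jr p) := fun n p =>
    (Two.ft_conf conf_jr (q := jr p) (fun z => md_jr p z) (ev (G n))).trans (by simp)
  refine tendsto_nhds_unique (h.lim g0 f g2 g3 _) ((h'.lim g0 f (G := fun n => Wl.pb conf_jr (G n))
    (fun n p => e n p ▸ g2 n _) (fun p => by simpa only [e] using g3 _) z).congr fun n => ?_)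
  have := kms c.E (l (G n) (Wl.pb conf_jr (G n)) (g1 n).1 (g1 n).2 fun _ => rfl) z
  have bo : ∀ s, c.E.U (-s / (2 * Real.pi)) = Bo c.Q s := fun s => by
    ext z
    rw [c.bw]
    congr 2
    field_simp
  simp only [bo, c.E.J_J] at this
  rw [this]

omit g0

lemma lc (t : TEN) {σ : ℝ} {y : TT D} (h : Loc c σ ∅ y) : Lc c y (σ • act c 1 r1 y) :=
  fun g g' h1 h2 e => by
    have := h va vb 0 g null_va null_vb (md_ab ▸ one_pos) h1 h2 (by simp)
    rwa [_root_.smul_apply, act_apply, show pS 1 r1 g' = ng g from SchwartzMap.ext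
      fun z => by rw [pS_apply one_pos t.r1.1, t.r1.2, e, ng_apply]; congr 1; ext m; simp [jr_apply, ← mul_assoc, Ba1r.sj_sq],
      ← Complex.coe_smul, c.J.map_smulₛₗ, conj_ofReal, Complex.coe_smul]

lemma lb (t : TEN) (y : TT D) (s : ℝ) (f : Sch) :
    act c 1 (Lb s) y f = Bo c.Q s (y (bS s f)) := by
  rw [act_apply, Bo, Usc, Wl.ee, Real.sqrt_one, show pS 1 (Lb s) f = bS s f from
    SchwartzMap.ext fun z => by rw [pS_apply one_pos (t.lb s).1, (t.lb s).2.1, bS_apply]]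
  rfl

lemma tg (b : B0 c) {y : TT D} (h : TC c y) {N : ℕ} (hN : N < d)
    (k : ∀ f, ∃ C : ℝ, ∀ t, ‖act c 1 (Lb t) y f‖ ≤ C * Real.exp (N * |t|)) : Tg c d y := by
  refine ⟨fun f g => b.ba.tc_rel y f g h, fun f => ?_⟩
  simp only [← lb b.ten]
  obtain ⟨C, hC⟩ := k f
  refine ⟨continuous_iff_continuousAt.2 fun t => b.ba.cont ℝ (𝓝 t) Lb (Lb t) y f
    (fun s => (b.ten.lb s).1) (b.ten.lb t).1 (b.ten.lb0.2.1.tendsto t), ?_⟩
  have l := (Real.tendsto_exp_neg_atTop_nhds_zero.comp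
    (tendsto_norm_cocompact_atTop (E := ℝ))).const_mul |C|
  rw [mul_zero] at l
  refine squeeze_zero (fun t => by positivity) (fun t => ?_) l
  refine (mul_le_mul_of_nonneg_left ((hC t).trans (mul_le_mul_of_nonneg_right (le_abs_self C)
    (Real.exp_nonneg _))) (Real.exp_nonneg _)).trans ?_
  rw [mul_left_comm, ← Real.exp_add]
  refine mul_le_mul_of_nonneg_left (Real.exp_le_exp.2 ?_) (abs_nonneg C)
  have : (N : ℝ) + 1 ≤ d := by exact_mod_cast hN
  rw [Real.norm_eq_abs]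
  nlinarith [abs_nonneg t]

end Gb

open Gb in
/-- **the decomposition in boost eigenvectors** -/
theorem gbd (b : B0 c) {σ : ℝ} {y : TT D} (hσ : σ * σ = 1) (h : TC c y) (l : Loc c σ ∅ y) {N : ℕ}
    (hN : N < d) (k : ∀ f, ∃ C : ℝ, ∀ t, ‖act c 1 (Lb t) y f‖ ≤ C * Real.exp (N * |t|))
    (k' : ∀ f, ∃ C : ℝ, ∀ t, ‖act c 1 (Lb t) (σ • act c 1 r1 y) f‖ ≤ C * Real.exp (N * |t|))
    (f : Sch) : ∃ a : ℕ → Completion D, ∀ t : ℝ,
      act c 1 (Lb t) y f = ∑ j ∈ range (2 * d), cexp ((j - d) * t) • a j ∧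
      act c 1 (Lb t) (σ • act c 1 r1 y) f =
        ∑ j ∈ range (2 * d), ((-1) ^ (j + d) * cexp ((j - d) * t)) • a j := by
  have B := b.ba
  have t := b.ten
  have h1 := tg b h hN k
  have h2 := tg b (B.tc_smul σ _ (B.tc_act _ _ _ one_pos t.r1.1 h)) hN k'
  have l' := lc t (B.loc_smul _ _ σ _ (B.loc_act _ _ _ _ _ one_pos t.r1.1 l) |> fun k => by
    rwa [image_empty] at k)
  rw [map_smul, B.mul _ _ _ _ _ one_pos one_pos t.r1.1 t.r1.1, Ba1r.r1_r1, one_mul, B.one, smul_smul, hσ,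
    one_smul] at l'
  obtain ⟨a, -, ha⟩ := gauss (h1.gr f) (h2.gr f) ((lc t l).shift b.grp h1 h2 f)
    (l'.shift b.grp h2 h1 f)
  exact ⟨a, fun s => by simpa only [lb t] using ha s⟩

end Vale.Agent.P352L.TPD

end
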