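import Vale.Agent.P352L.TPD.EUt
import Vale.Agent.P352L.TPD.Gbd

/-!
# P352L, block TPD: row WL (helper14)
-/

set_option linter.all false

open MeasureTheory Filter Topology
open scoped SchwartzMap ComplexConjugate ENNReal ContDiff

namespace Vale.Agent.P352L.TPD.TE

open Vale.Agent.P352 Vale.Agent.P352.GF Vale.Agent.P352.BW Vale.Agent.P352.H246
open Vale.Agent.P352.H496 Vale.Agent.P352.H755 Vale.Agent.P352.H15
open Vale.Agent.P352X Vale.Agent.P352X.TPD
open UniformSpace (Completion)
open Complex (I)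

noncomputable section

variable {D : Type*} [NormedAddCommGroup D] [InnerProductSpace ℂ D] {E : Type*} [AddCommGroup E]
  [Module ℝ E]

open Finset Complex

variable {c : Cx D E}

lemma gro [Module.Finite ℝ E] (b : B0 c) (y : ET D E) : ∃ N : ℕ, ∀ N', N ≤ N' → ∀ e f, ∃ C : ℝ,
    ∀ t, ‖TPD.act c.toCtx 1 (Lb t) (y e) f‖ ≤ C * Real.exp (N' * |t|) := by
  obtain ⟨S, hS⟩ := Module.Finite.fg_top (R := ℝ) (M := E)
  choose N hN using fun e => b.b.ba.gro (y e)
  refine ⟨S.sup N, fun N' hN' e => ?_⟩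
  have he : e ∈ Submodule.span ℝ (S : Set E) := hS ▸ Submodule.mem_top
  induction he using Submodule.span_induction with
  | mem e he =>
    refine fun f => (hN e f).elim fun C hC => ⟨|C|, fun t => (hC t).trans ?_⟩
    have : (N e : ℝ) ≤ N' := by exact_mod_cast (le_sup (f := N) he).trans hN'
    exact mul_le_mul (le_abs_self C) (Real.exp_le_exp.2 (by gcongr)) (Real.exp_nonneg _)
      (abs_nonneg C)
  | zero => exact fun f => ⟨0, fun t => by simp⟩
  | add e e' _ _ h h' =>
    refine fun f => (h f).elim fun C hC => (h' f).elim fun C' hC' => ⟨C + C', fun t => ?_⟩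
    rw [map_add, map_add, ContinuousLinearMap.add_apply, add_mul]
    exact norm_add_le_of_le (hC t) (hC' t)
  | smul a e _ h =>
    refine fun f => (h f).elim fun C hC => ⟨|a| * C, fun t => ?_⟩
    rw [map_smul, map_smul, ContinuousLinearMap.smul_apply, norm_smul, mul_assoc]
    exact mul_le_mul_of_nonneg_left (hC t) (abs_nonneg a)

lemma kill_wt (b : B0 c) (kl : KILL c) {σ : ℝ} {k : ℕ} {n : ℤ} {z : ET D E} (h : Hom c σ k z)
    (e : ∀ t, act c 1 (Lb t) z = Real.exp (n * t) • z) (hn : 4 - (k : ℤ) ≤ |n|) : z = 0 := by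
  have key : ∀ r s : ℝ, 0 < r → 0 < s → act c (Real.sqrt (r * s)) (Lsc r s) z =
      ((r * s) ^ (-(k / 2 : ℝ)) * (r / s) ^ (n / 2 : ℝ)) • z := fun r s hr hs => by
    have p := mul_pos hr hs
    have q := Real.sqrt_pos.2 p
    rw [(act_dil b q (b.ten.lsc r s hr hs).1 z).1,
      (eq_inv_smul_iff₀ (pow_pos q k).ne').2 (h.hom _ q), map_smul, b.ten.lb0.2.2 r s hr hs, e,
      smul_smul, Real.sqrt_eq_rpow, ← Real.rpow_natCast, ← Real.rpow_mul p.le, ← Real.rpow_neg p.le,
      Real.rpow_def_of_pos (div_pos hr hs)]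
    congr 3 <;> ring
  have hn' : (4 : ℝ) - k ≤ |(n : ℝ)| := by exact_mod_cast hn
  have k0 : (0 : ℝ) ≤ k := k.cast_nonneg
  have t : ∀ x y : ℝ, 0 < x → 0 < y → 15 / 8 * (x + y) < k / 2 * (x + y) + n / 2 * (y - x) →
      z = 0 := fun x y hx hy hl => by
    refine kl σ z (2 ^ (-x)) (2 ^ (-y)) _ h.tc h.loc (by positivity)
      (Real.rpow_lt_one_of_one_lt_of_neg one_lt_two (by linarith)) (by positivity)
      (Real.rpow_lt_one_of_one_lt_of_neg one_lt_two (by linarith))
      (key _ _ (by positivity) (by positivity)) ?_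
    simp only [← Real.rpow_add two_pos, ← Real.rpow_sub two_pos, ← Real.rpow_mul zero_le_two]
    exact Real.rpow_lt_rpow_of_exponent_lt one_lt_two (by linarith)
  by_cases h4 : 4 ≤ k
  · have : (4 : ℝ) ≤ k := by exact_mod_cast h4
    exact t 1 1 one_pos one_pos (by linarith)
  have h3 : (k : ℝ) ≤ 3 := by exact_mod_cast Nat.lt_succ_iff.1 (not_le.1 h4)
  rcases le_total 0 (n : ℝ) with h0 | h0
  · rw [abs_of_nonneg h0] at hn'
    exact t 1 32 one_pos (by norm_num) (by linarith)
  · rw [abs_of_nonpos h0] at hn'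
    exact t 32 1 (by norm_num) one_pos (by linarith)

lemma resum {H : Type*} [AddCommGroup H] [Module ℂ H] {d : ℕ} (hd : 4 ≤ d) (z : ℤ → H)
    (h0 : ∀ n, 4 ≤ |n| → z n = 0) :
    ∑ j ∈ range (2 * d), z (j - d) = ∑ n ∈ Icc (-3 : ℤ) 3, z n := by
  rw [← sum_image (s := range (2 * d)) (g := fun j : ℕ => (j - d : ℤ)) (f := z)
    fun i _ j _ h => by simpa using h]
  refine (sum_subset (fun n hn => ?_) fun n _ hn => h0 n ?_).symm
  · have := mem_Icc.1 hn
    exact mem_image.2 ⟨(n + d).toNat, mem_range.2 (by omega), by omega⟩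
  · rw [mem_Icc] at hn
    rcases abs_cases n with k | k <;> omega

/-- **row WL** -/
theorem wl_row [Module.Finite ℝ E] (c : Cx D E) (b : B0 c) (kl : KILL c) : WL c :=
    fun σ k y hσ h => by
  have B := b.ba
  have t := b.ten
  obtain ⟨N, hN⟩ := gro b y
  obtain ⟨N', hN'⟩ := gro b (σ • act c 1 r1 y)
  obtain ⟨d, hd⟩ : ∃ d, d = max N N' + 4 := ⟨_, rfl⟩
  choose a ha using fun e => gbd (d := d) b.b hσ (h.tc e) (h.loc e) (N := max N N') (by omega)
    (hN _ (le_max_left _ _) e) (by
      simpa only [LinearMap.smul_apply, act_one] using hN' _ (le_max_right _ _) e)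
  obtain ⟨M, q, hq⟩ := b.exp.lag (Icc (-d) d)
  have key : ∀ (n : ℤ) (s : ℝ) e f, -d ≤ n → n < d →
      (∑ i ∈ range M, q n i • act c 1 (Lb (s + i)) y) e f =
      Real.exp (n * s) • a e f (n + d).toNat := fun n s e f h1 h2 => by
    simp only [LinearMap.sum_apply, LinearMap.smul_apply, act_one, FunLike.coe_sum,
      Finset.sum_apply, _root_.smul_apply, (ha e f _).1, smul_sum, ← Complex.coe_smul, smul_smul]
    rw [sum_comm]
    simp only [← sum_smul]
    have u : ∀ j ∈ range (2 * d), ∑ i ∈ range M, q n i * cexp ((j - d) * (s + i : ℝ)) =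
        if (j - d : ℤ) = n then cexp (n * s) else 0 := fun j hj => by
      have := congrArg (fun x : ℝ => cexp ((j - d) * s) * x)
        (hq n (mem_Icc.2 (by omega)) (j - d) (mem_Icc.2 (by have := mem_range.1 hj; omega)))
      push_cast [mul_sum, apply_ite ofReal] at this ⊢
      simp only [mul_add, Complex.exp_add, mul_left_comm (q n _ : ℂ), this]
      split_ifs with k
      · rw [← k]
        simp
      · simp
    rw [sum_eq_single_of_mem (n + d).toNat (mem_range.2 (by omega)) fun j hj k => by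
      rw [u j hj, if_neg (by omega), zero_smul], u _ (mem_range.2 (by omega)), if_pos (by omega)]
    push_cast
    rfl
  set z : ℤ → ET D E := fun n =>
    if -d ≤ n ∧ n < d then ∑ i ∈ range M, q n i • act c 1 (Lb i) y else 0
  have zf : ∀ (n : ℤ) e f, -d ≤ n → n < d → z n e f = a e f (n + d).toNat := fun n e f h1 h2 => by
    simp only [z, if_pos (And.intro h1 h2)]
    simpa using key n 0 e f h1 h2
  have z1 : ∀ n, Hom c σ k (z n) ∧ ∀ s, act c 1 (Lb s) (z n) = Real.exp (n * s) • z n :=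
    fun n => ⟨by
      simp only [z]
      split_ifs
      · exact sum_induction _ _ (B.hom_add σ k) (B.hom0 σ k) fun i _ =>
          B.hom_smul σ k _ _ (B.hom_act σ k _ y (t.lb _).1 h)
      · exact B.hom0 σ k, fun s => by
      by_cases hn : -d ≤ n ∧ n < d
      · ext e f
        rw [LinearMap.smul_apply, _root_.smul_apply, zf _ _ _ hn.1 hn.2]
        simp only [z, if_pos hn, map_sum, map_smul,
          B.mul _ _ _ _ _ one_pos one_pos (t.lb _).1 (t.lb _).1, (t.lb _).2.2.1, one_mul,
          key n s e f hn.1 hn.2]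
      · rw [show z n = 0 from if_neg hn, map_zero, smul_zero]⟩
  have z2 : ∀ n, 4 - (k : ℤ) ≤ |n| → z n = 0 := fun n => kill_wt b kl (z1 n).1 (z1 n).2
  have z3 : ∀ e f, ∀ j ∈ range (2 * d), a e f j = z (j - d) e f := fun e f j hj => by
    have := mem_range.1 hj
    rw [zf _ _ _ (by omega) (by omega), sub_add_cancel, Int.toNat_natCast]
  refine ⟨z, z1, z2, ?_, ?_⟩
  · ext e f
    have u := (ha e f 0).1
    rw [t.lb0.1, b.b.ba.one] at u
    rw [u, LinearMap.sum_apply, ContinuousLinearMap.sum_apply,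
      ← resum (d := d) (by omega) (fun n => z n e f) fun n hn => by rw [z2 n (by omega)]; rfl]
    exact sum_congr rfl fun j hj => by simp [z3 e f j hj]
  · ext e f
    have u := (ha e f 0).2
    rw [t.lb0.1, b.b.ba.one] at u
    rw [LinearMap.smul_apply, act_one, u, LinearMap.sum_apply, ContinuousLinearMap.sum_apply,
      ← resum (d := d) (by omega) (fun n => ((-1 : ℝ) ^ n • z n) e f) fun n hn => by
        rw [z2 n (by omega), smul_zero]; rfl]
    refine sum_congr rfl fun j hj => ?_
    rw [LinearMap.smul_apply, _root_.smul_apply, ← Complex.coe_smul, z3 e f j hj]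
    push_cast
    rw [zpow_sub₀ (by norm_num), zpow_natCast, zpow_natCast, pow_add, div_eq_mul_inv, ← inv_pow]
    simp

end

end Vale.Agent.P352L.TPD.TE
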