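import Vale.Agent.P352L.TPD.Uni

/-!
# P352L, block TPD: the shift group on the interpolation nodes (helper14)
-/

set_option linter.all false

open Finset

namespace Vale.Agent.P352L.TPD.Lg

noncomputable section

/-- functions on the pairs of nodes -/
abbrev En (n : ℕ) := Fin (n + 1) × Fin (n + 1) → ℝ

variable {n : ℕ} {X : Type*} [AddCommGroup X] [Module ℝ X]

/-- the evaluation at `(α, β)` -/
def io (n : ℕ) (α β : ℝ) : En n := fun p => lag n p.1 α * lag n p.2 β

/-- the linear map with given values at the nodes -/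
def nd (n : ℕ) (x : ℝ → ℝ → X) : En n →ₗ[ℝ] X :=
  ∑ p : Fin (n + 1) × Fin (n + 1), (LinearMap.proj p).smulRight (x (p.1 : ℕ) (p.2 : ℕ))

lemma nd_apply (x : ℝ → ℝ → X) (e : En n) : nd n x e = ∑ p, e p • x (p.1 : ℕ) (p.2 : ℕ) := by
  simp [nd]

lemma nd_io (x : ℝ → ℝ → X) (α β : ℝ) : nd n x (io n α β) =
    ∑ i ∈ range (n + 1), ∑ j ∈ range (n + 1), (lag n i α * lag n j β) • x i j := by
  rw [nd_apply, Fintype.sum_prod_type, sum_range]
  exact sum_congr rfl fun i _ => (sum_range fun j => (lag n i α * lag n j β) • x (i : ℕ) j).symm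

lemma nd_pol {x : ℝ → ℝ → X} (h1 : ∀ β, IsPol n fun α => x α β) (h2 : ∀ α, IsPol n (x α))
    (α β : ℝ) : nd n x (io n α β) = x α β := by
  rw [nd_io, (h1 β).lag_eq α]
  refine sum_congr rfl fun i _ => ?_
  rw [(h2 i).lag_eq β, smul_sum]
  simp only [smul_smul]

lemma pol_lag (i : Fin (n + 1)) : IsPol n (lag n i) :=
  .of_poly {0} (fun _ : ℕ => lagP n i) (fun _ => 1) (fun _ _ => lagP_deg (mem_range.2 i.2))
    fun τ => by simp [lag]

lemma pol_pi {m : ℕ} {F : ℝ → En n} (h : ∀ p, IsPol m fun τ => F τ p) : IsPol m F :=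
  .of_lag (a := fun i => F i) fun τ => funext fun p => by
    simpa only [Finset.sum_apply, Pi.smul_apply] using (h p).lag_eq τ

lemma io_pol1 (β : ℝ) : IsPol n fun α => io n α β :=
  pol_pi fun p => ((pol_lag p.1).smul (lag n p.2 β)).congr fun _ => mul_comm _ _

lemma io_pol2 (α : ℝ) : IsPol n (io n α) := pol_pi fun p => (pol_lag p.2).smul (lag n p.1 α)

lemma lag_node (i j : Fin (n + 1)) : lag n i (j : ℕ) = if i = j then 1 else 0 := by
  split_ifs with h
  · rw [h]
    exact Lagrange.eval_basis_self (lag_inj n) (mem_range.2 j.2)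
  · exact Lagrange.eval_basis_of_ne (v := fun n : ℕ => (n : ℝ)) (fun k => h (Fin.ext k))
      (mem_range.2 j.2)

lemma nd_id (e : En n) : nd n (io n) e = e := funext fun q => by
  rw [nd_apply, Finset.sum_apply, sum_eq_single q (fun p _ h => ?_) (by simp)]
  · simp [io, lag_node]
  · have : ¬ (q.1 = p.1 ∧ q.2 = p.2) := fun u => h (Prod.ext u.1 u.2).symm
    rcases not_and_or.1 this with u | u <;> simp [io, lag_node, u]

/-- linear maps that agree on the evaluations agree -/
lemma ext {Y : Type*} [AddCommGroup Y] [Module ℝ Y] {f g : En n →ₗ[ℝ] Y}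
    (h : ∀ α β, f (io n α β) = g (io n α β)) (e : En n) : f e = g e := by
  rw [← nd_id e, nd_apply]
  simp only [map_sum, map_smul, h]

lemma sh_io (t α β : ℝ) :
    nd n (fun α β => io n (α + t) (β + t)) (io n α β) = io n (α + t) (β + t) :=
  nd_pol (x := fun α β => io n (α + t) (β + t)) (fun β => (io_pol1 _).shift t)
    (fun α => (io_pol2 _).shift t) α β

/-- the shifts -/
def U (n : ℕ) : Uni (En n) where
  A t := nd n fun α β => io n (α + t) (β + t)
  n := n + n
  zero e := by simpa only [add_zero] using nd_id e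
  add s t := ext (g := _ ∘ₗ _) fun α β => by
    rw [LinearMap.comp_apply, sh_io, sh_io, sh_io, add_assoc, add_assoc, add_comm t]
  pol e := by
    simp only [nd_apply]
    exact .sum _ fun p _ => .smul _ (pol_pi fun q =>
      ((pol_lag q.1).shift' _).map₂ ((pol_lag q.2).shift' _) (LinearMap.mul ℝ ℝ))

lemma U_io (t α β : ℝ) : (U n).A t (io n α β) = io n (α + t) (β + t) := sh_io t α β

end

end Vale.Agent.P352L.TPD.Lg
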