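import Vale.Agent.P352Y.W0
import Vale.Agent.P352L.R.GRP.C
import Vale.Agent.P352L.TPD.Ba1

/-!
# P352L, block TPD: time ordered products of two members off the diagonal (helper14)
-/

set_option linter.all false

noncomputable section

open Filter Topology Set Metric
open scoped SchwartzMap ContDiff LineDeriv

namespace Vale.Agent.P352L.TPD.Mx

open Vale.Agent.P352 Vale.Agent.P352.GF Vale.Agent.P352.BW Vale.Agent.P352X Api4
open Vale.Agent.P352.H246 (In)
open UniformSpace (Completion)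
open Ap (Cc)
open Vale.Agent.P352Y (Lt open_Lt f2 f2_lam Cc_smul tsupport_comp sw_sw sw_tens tsupport_sw Cc_sim
  off_of cn cn_swap cn_or)

variable {D : Type*} [NormedAddCommGroup D] [InnerProductSpace ℂ D]

/-- the kernels of the products of components of two members -/
structure WKer (Q : Theory D) (T : ℝ → Ix → Ix → Fld D) (n : ℕ) (W : ℝ → ℝ → WW D) : Prop where
  st : ∀ τ, Stress0 Q (T τ)
  prod : ∀ α β K M (f g : Sch) (F : S2), (∀ x y, F (x, y) = f x * g y) →
    W α β K M F = ((T α K.1 K.2 (ev f) (T β M.1 M.2 (ev g) Q.vac) : D) : Completion D)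
  cov : ∀ α β s L a K M (F G : S2), 0 < s → IsLor L →
    (∀ x y, G (x, y) = F (sim s L a x, sim s L a y)) →
    W (α + Real.log s) (β + Real.log s) K M F =
      ∑ K', ∑ M', (L2 L K' K * L2 L M' M) • Ug Q s L a (W α β K' M' G)
  pol1 : ∀ β K M, IsPol n fun α => W α β K M
  pol2 : ∀ α K M, IsPol n fun β => W α β K M

/-- the time ordered products off the diagonal -/
structure W0 (W w : ℝ → ℝ → WW D) : Prop where
  lt : ∀ α β I J (F : S2), tsupport F ⊆ Lt → w α β I J F = W α β I J F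
  swap : ∀ α β I J (F G : S2), (∀ x y, G (x, y) = F (y, x)) → w α β I J F = w β α J I G
  ind : ∀ α β I J, w α β I J = w α β I.swap J

variable {Q : Theory D} {T : ℝ → Ix → Ix → Fld D} {n : ℕ} {W w : ℝ → ℝ → WW D}

lemma WKer.tens (hW : WKer Q T n W) (α β : ℝ) (K M : I2) (f g : Sch) : W α β K M (ST.tens f g) =
    ((T α K.1 K.2 (ev f) (T β M.1 M.2 (ev g) Q.vac) : D) : Completion D) :=
  hW.prod α β K M f g _ fun _ _ => rfl

lemma WKer.cn (hW : WKer Q T n W) (α β : ℝ) (I J : I2) : W α β (cn I) (cn J) = W α β I J := by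
  refine ST.ext2 fun f g _ _ => ?_
  have e : ∀ α (I : I2) (f : Sch) v,
      T α (P352Y.cn I).1 (P352Y.cn I).2 (ev f) v = T α I.1 I.2 (ev f) v := fun α I f v => by
    rcases cn_or I with h | h <;> rw [h]
    exact (hW.st α).symm _ _ _ _ ⟨f, rfl⟩
  rw [hW.tens, hW.tens, e, e]

/-- locality of the kernel -/
lemma WKer.loc (hW : WKer Q T n W) (α β : ℝ) (I J : I2) {F : S2} (h1 : tsupport F ⊆ Lt)
    (h2 : tsupport F ⊆ Prod.swap ⁻¹' Lt) : W α β I J F = W β α J I (Str.sw F) := by
  refine sub_eq_zero.1 (ST.ker2 (W α β I J - W β α J I ∘L Str.sw)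
    (open_Lt.inter (open_Lt.preimage continuous_swap)) (fun f g _ _ h => ?_) F
    (subset_inter h1 h2))
  rw [ContinuousLinearMap.sub_apply, ContinuousLinearMap.comp_apply, sw_tens, hW.tens, hW.tens,
    Q.loc _ _ _ _ _ ((hW.st α).bose _ _) (Grp.T_fld (hW.st β) _ _) ⟨f, rfl⟩ ⟨g, rfl⟩ (Ap.sep_iff.2
      ⟨fun x hx y hy => (h (mk_mem_prod hx hy)).1, fun y hy x hx => (h (mk_mem_prod hx hy)).2⟩),
    sub_self]

theorem exists_w0 (hW : WKer Q T n W) : ∃ w, W0 W w := by
  have h1 : ∀ α β I J, ∃ u : S2 →L[ℂ] Completion D,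
      (∀ F : S2, tsupport F ⊆ Lt → u F = W α β I J F) ∧
      ∀ F : S2, tsupport F ⊆ Lt → u (Str.sw F) = W β α J I F := fun α β I J => by
    obtain ⟨u, hu⟩ := f2.glue (ι := Bool) (fun b => {u | cond b (-u) u ∉ Cc})
      (fun b => cond b (W α β I J) (W β α J I ∘L Str.sw))
      (fun b => by
        cases b
        exacts [Ap.closed_Cc.isOpen_compl, Ap.closed_Cc.isOpen_compl.preimage continuous_neg])
      (fun b u s hs h a => by
        cases b
        · exact h (Cc_smul hs a)
        · exact h (by simpa using Cc_smul hs a))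
      (fun b h => by cases b <;> exact h (by simpa using Ap.zero_Cc))
      (fun u hu => by
        by_cases h : u ∈ Cc
        · exact ⟨true, fun a => hu (Ap.Cc_anti h a)⟩
        · exact ⟨false, h⟩)
      fun b b' F _ hF => by
        have k : ∀ {F : S2}, tsupport F ⊆ f2.lam ⁻¹' {u | -u ∉ Cc} →
            tsupport F ⊆ f2.lam ⁻¹' {u | u ∉ Cc} → W α β I J F = W β α J I (Str.sw F) := fun a b =>
          hW.loc α β I J (fun z hz c => a hz (by rwa [f2_lam, neg_sub])) fun z hz => b hz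
        cases b <;> cases b'
        · rfl
        · exact (k (fun z hz => (hF hz).2) fun z hz => (hF hz).1).symm
        · exact k (fun z hz => (hF hz).1) fun z hz => (hF hz).2
        · rfl
    exact ⟨u, fun F hF => hu true F fun z hz c => hF hz (by
      rwa [cond_true, f2_lam, neg_sub] at c), fun F hF => hu false _ fun z hz =>
        hF (tsupport_sw F hz)⟩
  choose u h1 h2 using h1
  refine ⟨fun α β I J => (1 / 2 : ℂ) • (u α β (cn I) (cn J) + u β α (cn J) (cn I) ∘L Str.sw),
    fun α β I J F hF => ?_, fun α β I J F G e => ?_, fun α β I J => by simp only [cn_swap]⟩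
  · simp only [ContinuousLinearMap.smul_apply, ContinuousLinearMap.add_apply,
      ContinuousLinearMap.comp_apply, h1 _ _ _ _ F hF, h2 _ _ _ _ F hF, hW.cn]
    rw [← two_smul ℂ, smul_smul]
    norm_num
  · rw [show G = Str.sw F from SchwartzMap.ext fun z => e z.1 z.2]
    simp only [ContinuousLinearMap.smul_apply, ContinuousLinearMap.add_apply,
      ContinuousLinearMap.comp_apply, sw_sw]
    rw [add_comm]

namespace W0

lemma sw (h : W0 W w) (α β : ℝ) (I J : I2) (F : S2) : w α β I J (Str.sw F) = w β α J I F :=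
  h.swap α β I J _ F fun _ _ => rfl

lemma ind2 (h : W0 W w) (α β : ℝ) (K J : I2) : w α β K J = w α β K J.swap := by
  ext F
  rw [← h.sw β α J.swap K, ← h.sw β α J K, ← h.ind]

/-- causal factorisation -/
theorem fac (h : W0 W w) (hW : WKer Q T n W) (α β : ℝ) (I J : I2) (f g : Sch) (F : S2)
    (e : ∀ x y, F (x, y) = f x * g y) (hL : Late (tsupport f) (tsupport g)) :
    w α β I J F = ((T α I.1 I.2 (ev f) (T β J.1 J.2 (ev g) Q.vac) : D) : Completion D) := by
  rw [show F = ST.tens f g from SchwartzMap.ext fun z => e z.1 z.2, h.lt _ _ _ _ _ fun z hz =>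
    hL _ (ST.tsupport_tens f g hz).1 _ (ST.tsupport_tens f g hz).2, hW.tens]

/-- exact covariance off the diagonal -/
theorem cov (h : W0 W w) (hW : WKer Q T n W) (α β : ℝ) {s : ℝ} {L : Ix → V} (a : V) (I J : I2)
    (F G : S2) (hs : 0 < s) (hL : IsLor L) (hF : OffD F)
    (e : ∀ x y, G (x, y) = F (sim s L a x, sim s L a y)) :
    w (α + Real.log s) (β + Real.log s) I J F =
      ∑ K, ∑ M, (L2 L K I * L2 L M J) • Ug Q s L a (w α β K M G) := by
  have k : ∀ α β I J (F : S2), tsupport F ⊆ Lt → w (α + Real.log s) (β + Real.log s) I J F =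
      ∑ K, ∑ M, (L2 L K I * L2 L M J) • Ug Q s L a (w α β K M (Str.sim2 hs hL a F)) :=
    fun α β I J F hF => by
      have : tsupport (Str.sim2 hs hL a F) ⊆ Lt := fun z hz c => hF (tsupport_comp
        (e := fun z : V × V => (sim s L a z.1, sim s L a z.2)) (by unfold sim; fun_prop)
        (fun z a' => (Str.sim2_apply hs hL a F z.1 z.2).trans a') hz) ((Cc_sim hs hL a _ _).2 c)
      simp only [h.lt _ _ _ _ _ this, h.lt _ _ _ _ _ hF]
      exact hW.cov α β s L a I J F _ hs hL (Str.sim2_apply hs hL a F)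
  rw [show G = Str.sim2 hs hL a F from SchwartzMap.ext fun z =>
    (e z.1 z.2).trans (Str.sim2_apply hs hL a F z.1 z.2).symm]
  have := off_of (w (α + Real.log s) (β + Real.log s) I J - ∑ K, ∑ M, (L2 L K I * L2 L M J) •
    (Ug Q s L a ∘L w α β K M ∘L Str.sim2 hs hL a)) (fun F hF => ?_) (fun F hF => ?_) hF
  all_goals simp only [ContinuousLinearMap.sub_apply, ContinuousLinearMap.sum_apply,
    ContinuousLinearMap.smul_apply, ContinuousLinearMap.comp_apply, sub_eq_zero] at *
  · exact this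
  · exact k α β I J F hF
  · rw [h.sw, k β α J I F hF, Finset.sum_comm]
    refine Finset.sum_congr rfl fun K _ => Finset.sum_congr rfl fun M _ => ?_
    rw [mul_comm, ← h.sw α β K M]
    rfl

/-- interpolation off the diagonal -/
theorem lag (h : W0 W w) (hW : WKer Q T n W) (α β : ℝ) (I J : I2) {F : S2} (hF : OffD F) :
    w α β I J F = ∑ i ∈ Finset.range (n + 1), ∑ j ∈ Finset.range (n + 1),
      (lag n i α * lag n j β) • w i j I J F := by
  have k : ∀ α β I J (F : S2), tsupport F ⊆ Lt → w α β I J F = ∑ i ∈ Finset.range (n + 1),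
      ∑ j ∈ Finset.range (n + 1), (P352L.lag n i α * P352L.lag n j β) • w i j I J F :=
    fun α β I J F hF => by
      simp only [h.lt _ _ _ _ _ hF]
      rw [(hW.pol1 β I J).lag_eq α, ContinuousLinearMap.sum_apply]
      refine Finset.sum_congr rfl fun i _ => ?_
      rw [(hW.pol2 i I J).lag_eq β]
      simp only [ContinuousLinearMap.sum_apply, ContinuousLinearMap.smul_apply, Finset.smul_sum,
        smul_smul]
  have := off_of (w α β I J - ∑ i ∈ Finset.range (n + 1), ∑ j ∈ Finset.range (n + 1),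
    (P352L.lag n i α * P352L.lag n j β) • w i j I J) (fun F hF => ?_) (fun F hF => ?_) hF
  all_goals simp only [ContinuousLinearMap.sub_apply, ContinuousLinearMap.sum_apply,
    ContinuousLinearMap.smul_apply, sub_eq_zero] at *
  · exact this
  · exact k α β I J F hF
  · simp only [h.sw]
    rw [k β α J I F hF, Finset.sum_comm]
    simp only [mul_comm]

/-- conservation off the diagonal -/
theorem cons (h : W0 W w) (hW : WKer Q T n W) (α β : ℝ) (n : Ix) (J : I2) {G : S2}
    (hG : OffD G) : dv1 (w α β) n J G = 0 := by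
  rw [← Str.dvL_apply]
  refine ST.ker2_local _ G fun q hq => ?_
  obtain ⟨δ, d0, d⟩ := Str.late_near (x := q.1) (y := q.2) fun a => hG q.1 (by
    rwa [show (q.1, q.1) = q from Prod.ext rfl a])
  refine ⟨δ, d0, fun f g _ _ s1 s2 => ?_⟩
  have s3 := fun m : Ix => (SchwartzMap.tsupport_lineDerivOp_subset (bas m 1 : V) f).trans s1
  have c1 : ∀ v : D, ∑ m, T α m n (ev (∂_{(bas m 1 : V)} f)) v = 0 := fun v => by
    simpa only [P352X.Grp.pd_ev] using (hW.st α).conserved n (ev f) v ⟨f, rfl⟩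
  have tf := Grp.T_fld (hW.st β) J.1 J.2
  rw [Str.dvL_apply, dv1]
  rcases d with d | d
  · rw [Finset.sum_congr rfl fun m _ => h.fac hW α β (m, n) J _ g _ (Str.d_tens m f g)
      fun a ha b hb => d a (s3 m ha) b (s2 hb), ← Str.coe_sum, c1, Completion.coe_zero]
  · rw [Finset.sum_congr rfl fun m _ => (h.swap α β (m, n) J _ (ST.tens g (∂_{(bas m 1 : V)} f))
      fun x y => (mul_comm _ _).trans (Str.d_tens m f g y x).symm).trans
        (h.fac hW β α J (m, n) g _ _ (fun _ _ => rfl) fun a ha b hb => d a (s2 ha) b (s3 m hb)),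
      ← Str.coe_sum, ← Str.fld_lin tf ⟨g, rfl⟩, c1]
    exact (congrArg _ (map_zero (Wk.fL tf g))).trans Completion.coe_zero

/-- locality relative to the local algebras -/
theorem loc (h : W0 W w) (hW : WKer Q T n W) (Θ : Completion D →L⋆[ℂ] Completion D)
    (hΘ : ∀ α β m n k l f g, IsTest f → IsTest g → Θ (T α m n f (T β k l g Q.vac) : D) =
      (T α m n (bar fun z => f (-z)) (T β k l (bar fun z => g (-z)) Q.vac) : D))
    {M : VonNeumannAlgebra (Completion D)} {O : Set V} (hO : IsOpen O)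
    (haf : ∀ α m n f, In O f → BW.T.Afs M (T α m n f) (T α m n (bar f))) (α β : ℝ) (I J : I2)
    {G G' : S2} (hG : OffD G) (hs : tsupport G ⊆ O ×ˢ O) (e : ∀ x y, G' (x, y) = G (-x, -y)) :
    Pr M (om Q) (w α β I J G) (Θ (w α β I J G')) := fun Z hZ => by
  rw [show G' = P352Y.W0.ng _ G from SchwartzMap.ext fun z => e z.1 z.2]
  refine sub_eq_zero.1 (ST.ker2_local (innerSL ℂ (star Z (om Q)) ∘L w α β I J -
    ((innerSLFlip ℂ (Z (om Q))).comp Θ) ∘L w α β I J ∘L P352Y.W0.ng _) G fun q hq => ?_)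
  obtain ⟨δ, d0, d⟩ := Str.late_near (x := q.1) (y := q.2) fun a => hG q.1 (by
    rwa [show (q.1, q.1) = q from Prod.ext rfl a])
  obtain ⟨δ1, d1, b1⟩ := Metric.isOpen_iff.1 hO _ (hs hq).1
  obtain ⟨δ2, d2, b2⟩ := Metric.isOpen_iff.1 hO _ (hs hq).2
  have key : ∀ α β I J (f g : Sch), In O (ev f) → In O (ev g) → Late (tsupport f) (tsupport g) →
      inner ℂ (star Z (om Q)) (w α β I J (ST.tens f g)) =
        inner ℂ (Θ (w α β I J (P352Y.W0.ng _ (ST.tens f g)))) (Z (om Q)) := fun α β I J f g hf hg hL => by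
    have n1 : ∀ f : Sch, tsupport (P352Y.W0.ng _ f) ⊆ (fun x => -x) ⁻¹' tsupport f := fun f =>
      tsupport_comp continuous_neg fun _ a => a
    have n2 : ∀ f : Sch, (fun z => ev (P352Y.W0.ng _ f) (-z)) = ev f := fun f =>
      funext fun z => congrArg f (neg_neg z)
    rw [h.fac hW α β I J f g _ (fun _ _ => rfl) hL, h.swap α β I J _ (ST.tens (P352Y.W0.ng _ g) (P352Y.W0.ng _ f))
      fun x y => mul_comm _ _, h.fac hW β α J I _ _ _ (fun _ _ => rfl) fun x hx y hy c =>
        hL _ (n1 f hy) _ (n1 g hx) (by rwa [neg_sub_neg]), hΘ _ _ _ _ _ _ _ _ ⟨_, rfl⟩ ⟨_, rfl⟩,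
      n2, n2]
    exact Pr.of_afs (afs_comp (haf _ _ _ _ hf) (haf _ _ _ _ hg)) Q.vac Z hZ
  refine ⟨min δ (min δ1 δ2), by positivity, fun f g cf cg s1 s2 => sub_eq_zero.2 ?_⟩
  have hf : In O (ev f) := ⟨⟨f, rfl⟩, cf, s1.trans
    ((ball_subset_ball ((min_le_right _ _).trans (min_le_left _ _))).trans b1)⟩
  have hg : In O (ev g) := ⟨⟨g, rfl⟩, cg, s2.trans
    ((ball_subset_ball ((min_le_right _ _).trans (min_le_right _ _))).trans b2)⟩
  replace s1 := s1.trans (ball_subset_ball (min_le_left _ _))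
  replace s2 := s2.trans (ball_subset_ball (min_le_left _ _))
  rcases d with d | d
  · exact key α β I J f g hf hg (Ap.late_mono d s1 s2)
  · have := key β α J I g f hg hf (Ap.late_mono d s2 s1)
    rwa [← h.sw α β I J, ← h.sw α β I J (P352Y.W0.ng _ _), sw_tens, show Str.sw (P352Y.W0.ng _ (ST.tens g f)) =
      P352Y.W0.ng _ (ST.tens f g) from SchwartzMap.ext fun _ => mul_comm _ _] at this

end W0

/-! ## the PCT operator -/

open Ba1r

lemma cov_r1 {T : Ix → Ix → Fld D} (hT : Stress0 Q T) (e : TEN) (m n : Ix) {f : Fn}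
    (hf : GF.IsTest f) (v : D) : Q.U 1 r1 0 (T m n f v) =
      ((sj m * sj n : ℝ) : ℂ) • T m n (fun z => f (-jr z)) (Q.U 1 r1 0 v) := by
  have ht := Grp.test_sim one_pos e.r1.1 0 hf
  have h := hT.cov m n r1 0 _ v e.r1.1 ht
  have e1 : ∀ z, -jr (-jr z) = z := fun z => by rw [Ba1r.jr_jr, neg_neg]
  simp only [e.r1.2, e1] at h
  rw [h]
  simp only [r1, bas, apply_ite Complex.ofReal, Complex.ofReal_zero, ite_mul, mul_ite, zero_mul,
    mul_zero, ite_smul, zero_smul, Finset.sum_ite_eq, Finset.mem_univ, if_true, smul_smul]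
  rw [← Complex.ofReal_mul, ← Complex.ofReal_mul,
    show sj m * sj n * (-sj m * -sj n) = 1 by
      linear_combination (sj n * sj n) * Ba1r.sj_sq m + Ba1r.sj_sq n,
    Complex.ofReal_one, one_smul]

/-- the PCT operator on products of components of two members -/
theorem th_two {c : Ctx D} (g : GRP c) (j : All JC c) (e : TEN) (α β : ℝ) (m n k l : Ix)
    (f f' : Fn) (hf : IsTest f) (hf' : IsTest f') :
    Th c (c.TT α m n f (c.TT β k l f' c.Q.vac) : D) =
      (c.TT α m n (bar fun z => f (-z)) (c.TT β k l (bar fun z => f' (-z)) c.Q.vac) : D) := by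
  have t1 : ∀ f, IsTest f → GF.IsTest fun z => f (-jr z) := fun f hf => by
    simpa only [e.r1.2] using Grp.test_sim one_pos e.r1.1 0 hf
  have t2 : GF.IsTest fun z => f (-jr (jr z)) := by
    obtain ⟨f, rfl⟩ := hf
    exact ⟨ng f, funext fun z => congrArg f (jr_jr' z).symm⟩
  have sm : ∀ (a : ℂ) v, c.TT α m n (fun z => f (-jr z)) (a • v) =
      a • c.TT α m n (fun z => f (-jr z)) v := fun a v => ext_inner_right ℂ fun w => by
    rw [(c.hF.st α).herm m n _ _ w (t1 f hf), inner_smul_left, inner_smul_left,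
      (c.hF.st α).herm m n _ _ w (t1 f hf)]
  rw [Th_apply, g.coe _ _ _ _ one_pos e.r1.1, cov_r1 (c.hF.st α) e _ _ hf,
    cov_r1 (c.hF.st β) e _ _ hf', c.Q.U_vac _ _ _ one_pos e.r1.1, sm, smul_smul,
    Completion.coe_smul, LinearIsometryEquiv.map_smulₛₗ,
    JC.two2 j _ _ _ _ _ _ (t1 f hf) t2 (t1 f' hf'), smul_smul,
    ← Complex.ofReal_mul, Complex.conj_ofReal, ← Complex.ofReal_mul,
    show sj m * sj n * (sj k * sj l) * (sj m * sj n * (sj k * sj l)) =
      sj m * sj m * (sj n * sj n) * (sj k * sj k) * (sj l * sj l) by ring]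
  simp only [Ba1r.sj_sq, one_mul, Complex.ofReal_one, one_smul, jr_jr']

end Vale.Agent.P352L.TPD.Mx
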