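import Vale.Agent.P352L.TPD.EFin
import Vale.Agent.P352L.TPD.Mix
import Vale.Agent.P352L.TPD.Lag

/-!
# P352L, block TPD: from the parametrised extension to the time ordered products (helper14)
-/

set_option linter.all false

open MeasureTheory Filter Topology Set
open scoped SchwartzMap ComplexConjugate ContDiff

namespace Vale.Agent.P352L.TPD

open Vale.Agent.P352 Vale.Agent.P352.GF Vale.Agent.P352.BW
open Vale.Agent.P352X Api4 Mx Lg
open Vale.Agent.P352.H496 (IsNull Wdg)
open Vale.Agent.P352Y (tsupport_comp sw_sw)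
open UniformSpace (Completion)

noncomputable section

variable {D : Type*} [NormedAddCommGroup D] [InnerProductSpace ℂ D] {c : Ctx D}
  {W w v v' : ℝ → ℝ → WW D} {n : ℕ}

/-- the context with the shift group -/
abbrev cE (c : Ctx D) : TE.Cx D (En c.n0) := ⟨c, U c.n0⟩

/-- the part orthogonal to the vacuum -/
abbrev pw (c : Ctx D) (w : ℝ → ℝ → WW D) : ℝ → ℝ → WW D := fun α β I J => Pp c ∘L w α β I J

/-- evaluation -/
def evW (I J : I2) (F : S2) : WW D →ₗ[ℝ] Completion D where
  toFun w := w I J F
  map_add' _ _ := rfl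
  map_smul' _ _ := rfl

lemma evW_apply (I J : I2) (F : S2) (u : WW D) : evW I J F u = u I J F := rfl

theorem sr_sum {ι : Type*} (s : Finset ι) (a : ι → ℝ) {u : ι → WW D} (h : ∀ i, Sr1 c (u i)) :
    Sr1 c (∑ i ∈ s, a i • u i) := by
  have e : ∀ I J F, (∑ i ∈ s, a i • u i) I J F = ∑ i ∈ s, (a i : ℂ) • u i I J F := fun I J F => by
    simp only [← evW_apply, map_sum, map_smul, Complex.coe_smul]
  refine ⟨fun I J F => ?_, fun I J => ContinuousLinearMap.ext fun F => ?_,
    fun I J => ContinuousLinearMap.ext fun F => ?_, fun n J G hG => ?_, fun I n G hG => ?_,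
    fun a' b y I J G G' ha hb hab hG k1 k2 k3 => ?_⟩
  · simp only [e, inner_sum, inner_smul_right, (h _).perp, mul_zero, Finset.sum_const_zero]
  · simp only [e, ← (h _).ind1]
  · simp only [e, ← (h _).ind2]
  · simp only [dv1, e]
    rw [Finset.sum_comm]
    exact Finset.sum_eq_zero fun i _ =>
      Finset.smul_sum.symm.trans (smul_eq_zero_of_right _ ((h i).c1 n J G hG))
  · simp only [e]
    rw [Finset.sum_comm]
    exact Finset.sum_eq_zero fun i _ => by rw [← Finset.smul_sum, (h i).c2 I n G hG, smul_zero]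
  · simp only [e, map_sum, map_smulₛₗ, Complex.conj_ofReal]
    exact Pr.sum _ fun i _ => ((h i).loc a' b y I J G G' ha hb hab hG k1 k2 k3).csmul _

theorem sr_pw (b : B0 c) (j : All JC c) (hW : WKer c.Q c.TT n W) (h : W0 W w) (α β : ℝ) :
    Sr1 c (pw c w α β) := by
  refine ⟨fun I J F => (b.ba.pp _).1, fun I J => by rw [pw, pw, ← h.ind],
    fun I J => by rw [pw, pw, ← h.ind2], fun n J G hG => ?_, fun I n G hG => ?_,
    fun a b' y I J G G' ha hb hab hG k1 k2 e => ?_⟩
  · simpa only [dv1, map_sum, map_zero, ContinuousLinearMap.comp_apply] using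
      congrArg (Pp c) (h.cons hW α β n J hG)
  · have := congrArg (Pp c) (h.cons hW β α n I (P352Y.OffD.sw hG))
    simp only [dv1, map_sum, map_zero] at this
    refine (Finset.sum_congr rfl fun m _ => congrArg (Pp c) ((h.sw _ _ _ _ _).symm.trans
      (congrArg _ (SchwartzMap.ext fun z => ?_)))).trans this
    exact (DFunLike.congr_fun ((ContinuousLinearEquiv.prodComm ℝ V V).comp_right_fderiv
      (f := G) (x := z)) (bas m 1, 0)).symm
  · simpa only [ContinuousLinearMap.comp_apply, (b.ba.pp _).2.1] using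
      b.ba.pp_pr _ _ _ (h.loc hW (Th c) (th_two b.grp j b.ten) (Ap.open_wdg a b' y)
        (fun α m n f => Grp.afs_T c.hN (hW.st α) m n) α β I J hG k2 e)

lemma nd_off (hW : WKer c.Q c.TT n W) (h : W0 W w) (α β : ℝ) (I J : I2) {F : S2} (hF : OffD F) :
    nd n (pw c w) (io n α β) I J F = pw c w α β I J F := by
  rw [nd_io, ContinuousLinearMap.comp_apply, h.lag hW α β I J hF, ← evW_apply]
  simp only [map_sum, map_smul, ContinuousLinearMap.map_smul_of_tower]
  rfl

theorem src_nd (b : B0 c) (j : All JC c) (hW : WKer c.Q c.TT c.n0 W) (h : W0 W w) :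
    TE.Src (cE c) (nd c.n0 (pw c w)) where
  sr e := by
    rw [nd_apply]
    exact sr_sum _ _ fun _ => sr_pw b j hW h _ _
  cov s L a e I J F G hs hL hF k := by
    have hG : OffD G := fun x hx => hF _ (tsupport_comp
      (e := fun z : V × V => (sim s L a z.1, sim s L a z.2)) (by unfold sim; fun_prop)
      (fun z a' => (k z.1 z.2).trans a') hx)
    have := Lg.ext (f := evW I J F ∘ₗ nd c.n0 (pw c w) ∘ₗ (U c.n0).A (Real.log s))
      (g := ∑ K, ∑ M, (L2 L K I * L2 L M J) • ((Ug c.Q s L a).toLinearMap.restrictScalars ℝ ∘ₗ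
        evW K M G ∘ₗ nd c.n0 (pw c w))) (fun α β => ?_) e
    all_goals simp only [LinearMap.comp_apply, LinearMap.sum_apply, LinearMap.smul_apply,
      LinearMap.restrictScalars_apply, ContinuousLinearMap.coe_coe, evW_apply] at *
    · exact this
    simp only [U_io, nd_off hW h _ _ _ _ hF, nd_off hW h _ _ _ _ hG, ContinuousLinearMap.comp_apply,
      h.cov hW α β a I J F G hs hL hF k, map_sum, map_smul, (b.ba.pp _).2.2.2.2]

/-- covariant local extensions of `w` -/
structure Full (c : Ctx D) (n : ℕ) (w v : ℝ → ℝ → WW D) : Prop where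
  off : ∀ α β I J F, OffD F → v α β I J F = w α β I J F
  perp : ∀ α β I J F, inner ℂ c.Om (v α β I J F) = 0
  cov : ∀ α β s L a I J (F G : S2), 0 < s → IsLor L →
    (∀ x y, G (x, y) = F (sim s L a x, sim s L a y)) → v (α + Real.log s) (β + Real.log s) I J F =
      ∑ K, ∑ M, (L2 L K I * L2 L M J) • Ug c.Q s L a (v α β K M G)
  loc : ∀ α β a b y I J (G G' : S2), IsNull a → IsNull b → 0 < mdot a b →
    HasCompactSupport G → tsupport G ⊆ Wdg a b y ×ˢ Wdg a b y →
    (∀ x z, G' (x, z) = G (-x, -z)) → Pr (c.N (Wdg a b y)) c.Om (v α β I J G) (Th c (v α β I J G'))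
  pol1 : ∀ β I J F, IsPol n fun α => v α β I J F
  pol2 : ∀ α I J F, IsPol n fun β => v α β I J F

theorem Full.of {u : TE.EW D (En c.n0)} (hW : WKer c.Q c.TT c.n0 W) (h : W0 W w)
    (k : TE.Full (cE c) (nd c.n0 (pw c w)) u) :
    Full c c.n0 (pw c w) fun α β => u (io c.n0 α β) where
  off α β I J F hF := (k.off _ I J F hF).trans (nd_off hW h α β I J hF)
  perp α β := k.perp _
  cov α β s L a I J F G hs hL e := U_io (Real.log s) α β ▸ k.cov s L a _ I J F G hs hL e
  loc α β := k.loc _
  pol1 β I J F := (io_pol1 β).map (evW I J F ∘ₗ u)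
  pol2 α I J F := (io_pol2 α).map (evW I J F ∘ₗ u)

theorem Full.av (h : Full c n w v) (h' : Full c n w v') :
    Full c n w fun α β I J => (2⁻¹ : ℝ) • (v α β I J + v' α β I J) where
  off α β I J F hF := by
    simp only [ContinuousLinearMap.smul_apply, ContinuousLinearMap.add_apply, h.off α β I J F hF,
      h'.off α β I J F hF]
    module
  perp α β I J F := by
    simp only [ContinuousLinearMap.smul_apply, ContinuousLinearMap.add_apply, ← Complex.coe_smul,
      inner_smul_right, inner_add_right, h.perp, h'.perp, add_zero, mul_zero]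
  cov α β s L a I J F G hs hL e := by
    simp only [ContinuousLinearMap.smul_apply, ContinuousLinearMap.add_apply, map_add,
      h.cov α β s L a I J F G hs hL e, h'.cov α β s L a I J F G hs hL e, smul_add, Finset.smul_sum,
      ContinuousLinearMap.map_smul_of_tower, Finset.sum_add_distrib, smul_comm (2⁻¹ : ℝ)]
  loc α β a b y I J G G' ha hb hab hG hW e := by
    have := ((h.loc α β a b y I J G G' ha hb hab hG hW e).add
      (h'.loc α β a b y I J G G' ha hb hab hG hW e)).csmul 2⁻¹
    simpa only [ContinuousLinearMap.smul_apply, ContinuousLinearMap.add_apply, map_add,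
      ← Complex.coe_smul, map_smulₛₗ, Complex.conj_ofReal] using this
  pol1 β I J F := ((h.pol1 β I J F).add (h'.pol1 β I J F)).smul (2⁻¹ : ℝ)
  pol2 α I J F := ((h.pol2 α I J F).add (h'.pol2 α I J F)).smul (2⁻¹ : ℝ)

theorem Full.ind (h : Full c n w v) (hw : ∀ α β I J, w α β I J = w α β I.swap J) :
    Full c n w fun α β I J => v α β I.swap J where
  off α β I J F hF := by rw [h.off _ _ _ _ F hF, ← hw]
  perp α β I J F := h.perp _ _ _ _ F
  cov α β s L a I J F G hs hL e := (h.cov α β s L a _ _ F G hs hL e).trans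
    (Fintype.sum_equiv (Equiv.prodComm Ix Ix) _ _ fun K => by simp [L2, mul_comm])
  loc α β a b y I J := h.loc α β a b y _ _
  pol1 β I J := h.pol1 β _ _
  pol2 α I J := h.pol2 α _ _

theorem Full.swap (h : Full c n w v) (hw : ∀ α β I J F, w β α J I (Str.sw F) = w α β I J F) :
    Full c n w fun α β I J => v β α J I ∘L Str.sw where
  off α β I J F hF := (h.off _ _ _ _ _ (P352Y.OffD.sw hF)).trans (hw α β I J F)
  perp α β I J F := h.perp _ _ _ _ _
  cov α β s L a I J F G hs hL e :=
    (h.cov β α s L a J I (Str.sw F) (Str.sw G) hs hL fun x y => e y x).trans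
      (Finset.sum_comm.trans (by simp only [mul_comm]; rfl))
  loc α β a b y I J G G' ha hb hab hG hW e := h.loc β α a b y J I (Str.sw G) (Str.sw G') ha hb hab
    (hG.comp_homeomorph (Homeomorph.prodComm V V))
    (fun z hz => (hW (P352Y.tsupport_sw G hz)).symm) fun x z => e z x
  pol1 β I J F := h.pol2 β _ _ _
  pol2 α I J F := h.pol1 α _ _ _

theorem fin_row (b : B0 c) (hW : WKer c.Q c.TT n W) (hw : W0 W w) (hv : Full c n (pw c w) v) :
    ∃ wp, TP2 c.Q c.TT true wp ∧ ∀ α β, LocW c (wp α β) := by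
  have s2 : ∀ α β I J F, pw c w β α J I (Str.sw F) = pw c w α β I J F :=
    fun α β I J F => congrArg (Pp c) (hw.sw β α J I F)
  have i1 : ∀ α β I J, pw c w α β I J = pw c w α β I.swap J := fun α β I J => by
    rw [pw, pw, ← hw.ind]
  have h3 := hv.av (hv.swap s2)
  have h4 := h3.av (h3.ind i1)
  obtain ⟨u, hu, u1, u2⟩ : ∃ u, Full c n (pw c w) u ∧
      (∀ α β I J F, u β α J I (Str.sw F) = u α β I J F) ∧
      ∀ α β I J, u α β I J = u α β I.swap J := by
    refine ⟨_, h4.av (((h4.swap s2).ind i1).swap s2), fun α β I J F => ?_, fun α β I J => ?_⟩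
    · simp only [ContinuousLinearMap.smul_apply, ContinuousLinearMap.add_apply,
        ContinuousLinearMap.comp_apply, sw_sw]
      module
    · ext F
      simp only [ContinuousLinearMap.smul_apply, ContinuousLinearMap.add_apply,
        ContinuousLinearMap.comp_apply, sw_sw, Prod.swap_swap]
      module
  have p : ∀ z, (1 - Pp c) z = inner ℂ c.Om z • c.Om := fun z => by simp [Pp]
  have p0 : Pp c c.Om = 0 := by
    simp [Pp, inner_self_eq_norm_sq_to_K, show ‖c.Om‖ = 1 from c.E.norm_xi]
  refine ⟨fun α β I J => u α β I J + (1 - Pp c) ∘L w α β I J, ⟨fun α β I J f g F e hL => ?_,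
    fun α β I J F G e => ?_, fun α β I J => by rw [← u2, ← hw.ind],
    fun α β s L a I J F G hs hL e => ?_, n, fun β I J F => (hu.pol1 β I J F).congr fun α => ?_⟩,
    fun α β a b' y I J G G' ha hb hab hG hW e => ?_⟩
  · have o : OffD F := fun x hx => hL x
      (tsupport_comp continuous_fst (fun z k => by rw [e z.1 z.2, k, zero_mul]) hx) x
      (tsupport_comp continuous_snd (fun z k => by rw [e z.1 z.2, k, mul_zero]) hx)
      (by simp [GF.mdot])
    simpa [hu.off α β I J F o] using hw.fac hW α β I J f g F e hL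
  · obtain rfl : G = Str.sw F := SchwartzMap.ext fun z => e z.1 z.2
    simp only [ContinuousLinearMap.add_apply, ContinuousLinearMap.comp_apply, u1, hw.sw]
  · refine ⟨inner ℂ c.Om (w (α + Real.log s) (β + Real.log s) I J F) -
      ∑ K, ∑ M, L2 L K I * L2 L M J * inner ℂ c.Om (w α β K M G), ?_⟩
    simp only [ContinuousLinearMap.add_apply, ContinuousLinearMap.comp_apply, p,
      ← Ug_apply c.Q hs hL, map_add, map_smul, b.grp.vac, smul_add, Finset.sum_add_distrib,
      smul_smul, sub_smul, Finset.sum_smul, hu.cov α β s L a I J F G hs hL e]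
    abel
  · simp only [ContinuousLinearMap.add_apply, ContinuousLinearMap.comp_apply, p, inner_add_right,
      inner_smul_right, hu.perp, Ba1r.om_om, zero_add, mul_one, add_sub_cancel_right]
  · simpa only [ContinuousLinearMap.add_apply, ContinuousLinearMap.comp_apply, p, map_add,
      map_smul, p0, smul_zero, add_zero, (b.ba.pp _).2.2.2.1 (hu.perp _ _ _ _ _)] using
      hu.loc α β a b' y I J G G' ha hb hab hG hW e

end

end Vale.Agent.P352L.TPD
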