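import Vale.Agent.P352L.TPD.Spec
import Vale.Agent.P352Y.WL
import Vale.Agent.P352L.TPD.Tw

/-!
# P352L, block TPD: row HMU
-/

set_option linter.all false

noncomputable section

open MeasureTheory Complex
open scoped Real ComplexConjugate

namespace Vale.Agent.P352L.TPD

open Vale.Agent.P352X

open Vale.Agent.P352 Vale.Agent.P352.GF Vale.Agent.P352.BW Vale.Agent.P352Y.Wl
open Vale.Agent.P352.H496 (Wdg)
open Vale.Agent.P132 (ModData)

namespace Hmu

variable {H : Type*} [NormedAddCommGroup H] [InnerProductSpace ℂ H] [CompleteSpace H]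
  {M : VonNeumannAlgebra H} {ξ ψ ψ' : H} (E : ModData M ξ)

lemma cont (v : H) : Continuous fun s : ℝ => E.U (-s / (2 * π)) v :=
  E.continuous_U_comp continuous_const (by fun_prop)

lemma int (z : ℂ) (v : H) : Integrable fun s : ℝ => gz z s • E.U (-s / (2 * π)) v :=
  ((int_gz z 0).norm.mul_const ‖v‖).mono' ((cont_gz z).smul (cont E v)).aestronglyMeasurable
    (.of_forall fun s => by simp [norm_smul])

lemma gs_inner (z : ℂ) (a b : H) : Gs (fun s => inner ℂ a (E.U (-s / (2 * π)) b)) z =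
    inner ℂ a (Gs (fun s => E.U (-s / (2 * π)) b) z) := by
  simp only [Gs, ← integral_inner (int E z b), inner_smul_right, smul_eq_mul]

lemma adj (z : ℂ) (a b : H) : inner ℂ a (Gs (fun s => E.U (-s / (2 * π)) b) z) =
    inner ℂ (Gs (fun s => E.U (-s / (2 * π)) a) (-conj z)) b := by
  rw [← inner_conj_symm _ b, ← gs_inner, ← gs_inner, Gs, Gs, ← integral_conj,
    ← integral_neg_eq_self]
  refine integral_congr_ae (.of_forall fun s => ?_)
  simp only [smul_eq_mul, map_mul, inner_conj_symm, gz, ← exp_conj]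
  rw [← E.inner_U_U (-s / (2 * π)) a, neg_div, neg_div, neg_div, neg_neg, E.U_neg_apply]
  simp only [map_neg, map_pow, map_sub, conj_ofReal, conj_conj, ofReal_neg]
  ring_nf

/-- operators that commute with the modular objects preserve the pairs -/
theorem pr_comm (A : H →L[ℂ] H) (hs : ∀ v w, inner ℂ (A v) w = inner ℂ v (A w))
    (hU : ∀ t v, E.U t (A v) = A (E.U t v)) (hJ : ∀ v, E.J (A v) = A (E.J v))
    (h : Pr M ξ ψ ψ') : Pr M ξ (A ψ) (A ψ') := fun Z hZ => by
  have e : ∀ z v, Gs (fun s => E.U (-s / (2 * π)) (A v)) z =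
      A (Gs (fun s => E.U (-s / (2 * π)) v) z) := fun z v => by
    simp only [Gs, ← A.integral_comp_comm (int E z v), hU, map_smul]
  have k := kms E ((Pr.of_mem (ξ := ξ) hZ).J_md' E)
  simp only [E.J_J] at k
  have i : ∀ a b z, Integrable fun s : ℝ => gz z s • inner ℂ a (E.U (-s / (2 * π)) b) :=
    fun a b z => by simpa only [inner_smul_right, smul_eq_mul] using (int E z b).const_inner (𝕜 := ℂ) a
  have := congrFun (inj (φ := fun s => inner ℂ (star Z ξ) (E.U (-s / (2 * π)) (A ψ)))
    (φ' := fun s => inner ℂ (E.J (Z ξ)) (E.U (-s / (2 * π)) (A (E.J ψ'))))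
    (continuous_const.inner (cont E _)) (continuous_const.inner (cont E _)) (i _ _) (i _ _)
    fun z => by
      rw [gs_inner, gs_inner, adj, ← k, e, ← kms E h, ← e, adj E (z + π * I)]
      simp [add_comm]) 0
  simp only [neg_zero, zero_div, E.U_zero, ContinuousLinearMap.one_apply] at this
  rw [this, ← hJ, J_right E.J E.J_J, E.J_J]

end Hmu

variable {D : Type*} [NormedAddCommGroup D] [InnerProductSpace ℂ D]

/-- **row HMU** -/
theorem hmu_row (c : Ctx D) (b : B0 c) : HMU c := fun a a' y ψ ψ' h ha ha' hp hb hP => by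
  have g := b.grp
  have hB : SN.Bd fun p : V => (h (mu p) : ℂ) := hb.comp Br.meas_mu
  set A := c.bt.Phi fun p : V => (h (mu p) : ℂ)
  have hL : ∀ L y v, IsLor L → Ug c.Q 1 L y (A v) = A (Ug c.Q 1 L y v) := fun L y v hL => by
    have e : Ug c.Q 1 L y = Ut c.Q y * Ug c.Q 1 L 0 := by
      rw [Ut, g.mul _ _ _ _ _ _ one_pos one_pos H496.isLor_one hL, one_mul, sim_ut, zero_add]
      simp only [sim_ut, add_zero]
    have i := H246.isLor_linv hL
    rw [e, ContinuousLinearMap.mul_apply, ContinuousLinearMap.mul_apply,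
      Two.Phi_W (k := sim 1 (H246.linv L) 0) (conf_sim one_pos i).cont.measurable
        (Two.ug_ut one_pos hL) (fun p y => (md_lor' p y hL).symm) hB,
      Two.Phi_W (A := id) measurable_id (fun z => by rw [← g.ut, add_comm, g.ut]; rfl)
        (fun _ _ => rfl) (hB.comp (conf_sim one_pos i).cont.measurable)]
    simp only [mu, H755.md_LL i, id, A]
  obtain ⟨L, h1, h2⟩ := JCa.trans ha ha' hp
  have u := g.uni 1 L y
  have h3 : Pr (c.N (Wdg va vb 0)) c.Om (star (Ug c.Q 1 L y) ψ) (star (Ug c.Q 1 L y) ψ') :=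
    hP.cov (Unitary.star_mem u) (by
      conv_lhs => rw [← g.vac 1 L y, ← ContinuousLinearMap.mul_apply, u.1]
      rfl) fun X hX => (g.alg 1 L y _ one_pos h1 _).2 (by
        rwa [star_star, ← mul_assoc, ← mul_assoc, u.2, one_mul, mul_assoc, u.2, mul_one, (h2 y).1])
  have h4 := (Hmu.pr_comm c.E A (fun v w => by simpa only [conj_ofReal] using c.bt.adj hB v w)
    (fun t v => by rw [c.bw, c.bw, Bo, Usc, sqrt_exp_neg]; exact hL _ _ _ (b.ten.lb _).1)
    (fun v => by
      have := c.bt.cov_anti c.bt SN.isPair_mdot (k := fun p => -jr p) (A := jr)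
        cont_jr.neg.measurable (fun p y => by rw [md_neg_l, ← md_jr, jr_jr])
        c.J.toContinuousLinearEquiv.toContinuousLinearMap (v := v) (w := c.J v)
        (fun y => b.jc.ut y v) hB
      refine this.trans ?_
      simp only [conj_ofReal, mu, md_neg_l, md_neg, neg_neg, md_jr, jr_jr, A]) h3).cov u
    (g.vac 1 L y) fun X hX => (h2 y).1 ▸ (g.alg 1 L y _ one_pos h1 X).1 hX
  rwa [hL _ _ _ h1, hL _ _ _ h1, ← ContinuousLinearMap.mul_apply _ (star _),
    ← ContinuousLinearMap.mul_apply _ (star _), u.2] at h4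

end Vale.Agent.P352L.TPD
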