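import Vale.Agent.P352L.TPD.Spec
import Vale.Agent.P352L.TPD.Tw

/-!
# P352L, block TPD, row RHO: the two point measure is tempered (helper21)
-/

set_option linter.all false

open MeasureTheory Measure Set Filter Topology
open scoped SchwartzMap ComplexConjugate NNReal ENNReal

namespace Vale.Agent.P352L.TPD

open Vale.Agent.P352X

open Vale.Agent.P352.GF Vale.Agent.P352.BW Vale.Agent.P352.H496 Vale.Agent.P352.H755
open UniformSpace (Completion)
open Vale.Agent.P352X.Two hiding rel_clm rho nu_eq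
open Vale.Agent.P352L.TPD.Two

noncomputable section

namespace Rh

/-- the weight `(1 + |p|)^(-M)` -/
def W (M : ℕ) (p : V) : ℝ≥0∞ := ENNReal.ofReal (((1 + ‖p‖) ^ M)⁻¹)

lemma meas_W (M : ℕ) : Measurable (W M) := by unfold W; fun_prop

lemma W_le (M : ℕ) (p η : V) : W M p * W M η ≤ W M (η - p) := by
  simp only [W]
  rw [← ENNReal.ofReal_mul (by positivity), ← mul_inv, ← mul_pow]
  refine ENNReal.ofReal_le_ofReal (inv_anti₀ (by positivity) (pow_le_pow_left₀ (by positivity) ?_ _))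
  nlinarith [norm_sub_le η p, norm_nonneg p, norm_nonneg η, mul_nonneg (norm_nonneg p) (norm_nonneg η)]

lemma int_W : ∫⁻ ξ, W 5 ξ < ⊤ := by
  have := finite_integral_one_add_norm (E := V) (μ := volume) (r := (5 : ℕ)) (by simp; norm_num)
  refine lt_of_eq_of_lt (lintegral_congr fun ξ => ?_) this
  rw [W, Real.rpow_neg (by positivity), Real.rpow_natCast]

/-- polynomial bounds for the translates of a weight give temperedness -/
theorem temp {ρ : Measure V} [SFinite ρ] {k : V → ℝ≥0∞} (hk : Measurable k) (h0 : ∀ p, k p ≠ 0)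
    {C : ℝ} {N : ℕ} (h : ∀ ξ, ∫⁻ p, k (p + ξ) ∂ρ ≤ ENNReal.ofReal (C * (1 + ‖ξ‖) ^ N)) :
    ∫⁻ p, W (N + 5) p ∂ρ < ⊤ := by
  have a : ∫⁻ ξ, ∫⁻ p, W (N + 5) ξ * k (p + ξ) ∂ρ < ⊤ := by
    refine lt_of_le_of_lt (lintegral_mono fun ξ => ?_ : _ ≤ ∫⁻ ξ, ENNReal.ofReal |C| * W 5 ξ) ?_
    · rw [lintegral_const_mul _ (by fun_prop)]
      refine (mul_le_mul_right (h ξ) _).trans ?_
      simp only [W]
      rw [← ENNReal.ofReal_mul (by positivity), ← ENNReal.ofReal_mul (by positivity)]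
      refine ENNReal.ofReal_le_ofReal ?_
      rw [show ((1 + ‖ξ‖) ^ (N + 5))⁻¹ * (C * (1 + ‖ξ‖) ^ N) = C * ((1 + ‖ξ‖) ^ 5)⁻¹ by
        field_simp; ring]
      gcongr
      exact le_abs_self C
    · rw [lintegral_const_mul _ (meas_W 5)]
      exact ENNReal.mul_lt_top ENNReal.ofReal_lt_top int_W
  have m := meas_W (N + 5)
  rw [lintegral_lintegral_swap (by fun_prop)] at a
  have b : ∫⁻ η, W (N + 5) η * k η ≠ 0 := by
    rw [Ne, lintegral_eq_zero_iff (by fun_prop)]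
    intro e
    obtain ⟨η, hη⟩ := e.exists
    exact mul_ne_zero (ENNReal.ofReal_pos.2 (by positivity)).ne' (h0 η) hη
  refine ENNReal.lt_top_of_mul_ne_top_left (lt_of_le_of_lt ?_ a).ne b
  rw [← lintegral_mul_const _ m]
  refine lintegral_mono fun p => ?_
  rw [← lintegral_const_mul _ (by fun_prop),
    ← lintegral_sub_right_eq_self (fun ξ => W (N + 5) ξ * k (p + ξ)) p]
  refine lintegral_mono fun η => ?_
  rw [← mul_assoc, add_sub_cancel]
  exact mul_le_mul_left (W_le _ _ _) _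

lemma p0_pos {p : V} (h : 0 < be p) (h0 : 0 ≤ p o) (h1 : 0 ≤ mu p) : 0 < p o := by
  simp [be, mu, mdot, Fin.sum_univ_four, eta, va, o] at h h0 h1 ⊢
  nlinarith [sq_nonneg (p 2), sq_nonneg (p 3)]

variable {D : Type*} [NormedAddCommGroup D] [InnerProductSpace ℂ D] {c : Ctx D}

lemma rel {x : TT D} (h : TC c x) (f g : Sch) :
    c.bt.Phi (ft (ev g)) (x f) = c.bt.Phi (ft (ev f)) (x g) :=
  rel_clm x (fun y _ => (h.tra y f).symm) fun y _ => (h.tra y g).symm

/-- the spectral measures of a translation covariant distribution -/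
lemma nu_tc {x : TT D} (h : TC c x) (f : Sch) :
    c.nu (x f) = (rho c (x gS)).withDensity (sq2 (ft (ev f))) :=
  nu_eq (bd_ft ⟨f, rfl⟩) (rel h f gS)

lemma lint_tc {x : TT D} (h : TC c x) (f : Sch) :
    ∫⁻ p, sq2 (ft (ev f)) p ∂rho c (x gS) = ENNReal.ofReal (‖x f‖ ^ 2) := by
  rw [← c.bt.nu_univ, ofReal_measureReal, show c.bt.nu (x f) = _ from nu_tc h f,
    withDensity_apply _ MeasurableSet.univ, restrict_univ]

end Rh

variable {D : Type*} [NormedAddCommGroup D] [InnerProductSpace ℂ D] (c : Ctx D)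

theorem rho_thm (b : BAS c.toBase) : RHO c := fun x h => by
  haveI : IsLocallyFiniteMeasure (rho c (x gS)) :=
    IsLocallyFiniteMeasure.withDensity_ofReal (cont_k.norm.pow 2)
  refine ⟨rho c (x gS), this, Rh.nu_tc h, withDensity_absolutelyContinuous _ _ ?_, ?_⟩
  · filter_upwards [ae_be_pos b (h.perp gS), b.cone (x gS)] with p h1 h2
      using ⟨Rh.p0_pos h1 h2.1 h2.2, h2.2⟩
  obtain ⟨C, N, hC, hb⟩ := ST.clm_sn_c x
  refine ⟨2 * N + 5, Rh.temp (meas_sq2 (bd_ft g0_in.1).1) (fun p => (ENNReal.ofReal_pos.2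
    (pow_pos (norm_pos_iff.2 (g0_ne p)) 2)).ne')
    (C := (C * (4 ^ N * (1 + ‖mdL‖) ^ N * ST.sn V ℂ N gS)) ^ 2) fun ξ => ?_⟩
  have e := Rh.lint_tc h (ST.mdl (mdL ξ) gS)
  simp only [sq2, Two.ft_mdl] at e ⊢
  refine e.le.trans (ENNReal.ofReal_le_ofReal ?_)
  rw [pow_mul', ← mul_pow]
  refine pow_le_pow_left₀ (norm_nonneg _) ((hb _).trans ?_) 2
  rw [mul_assoc]
  refine mul_le_mul_of_nonneg_left ((ST.sn_mdl _ _ _).trans ?_) hC
  rw [mul_right_comm _ (ST.sn V ℂ N gS), mul_assoc (4 ^ N) ((1 + ‖mdL‖) ^ N),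
    ← mul_pow (1 + ‖mdL‖)]
  gcongr
  nlinarith [mdL.le_opNorm ξ, norm_nonneg ξ, norm_nonneg mdL]

theorem rho_row : B0 c → RHO c := fun b => rho_thm c b.bas

end

end Vale.Agent.P352L.TPD
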