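import Vale.Agent.P352L.TPD.ANI
import Vale.Agent.P352L.TPD.RHO
import Vale.Agent.P352L.TPD.Tw

/-!
# P352L, block TPD: row IRN
-/

set_option linter.all false

open MeasureTheory Filter Topology Set
open scoped ENNReal NNReal

namespace Vale.Agent.P352L.TPD

open Vale.Agent.P352X

open Vale.Agent.P352 Vale.Agent.P352.GF Vale.Agent.P352.BW
open UniformSpace (Completion)

noncomputable section

namespace Irn

/-- shells of energy -/
def sh (δ : ℝ) : Set V := {p | δ < p o ∧ p o ≤ 1}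

lemma meas_sh (δ : ℝ) : MeasurableSet (sh δ) :=
  (measurableSet_lt measurable_const (measurable_pi_apply o)).inter
    (measurableSet_le (measurable_pi_apply o) measurable_const)

/-- the weight -/
def wt (p : V) : ℝ≥0∞ := ENNReal.ofReal ((p o)⁻¹ ^ 2)

lemma meas_wt : Measurable wt := by unfold wt; fun_prop

/-- the truncated weight -/
def hh (δ : ℝ) : V → ℝ≥0∞ := (sh δ).indicator wt

lemma meas_hh (δ : ℝ) : Measurable (hh δ) := meas_wt.indicator (meas_sh δ)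

lemma sim_one (s : ℝ) (a z : V) : sim s GF.one a z = a + s • z := by
  ext n
  simp [sim, GF.one, bas]

lemma absorb {q B Y : ℝ≥0∞} (hq : q ≠ ⊤)
    (h : q ≤ 2 * (ENNReal.ofReal (2 ^ 2) * (ENNReal.ofReal (1 / 64) * (q + B)) + Y)) :
    q ≤ B + 3 * Y := by
  rcases eq_or_ne B ⊤ with rfl | hB
  · simp
  rcases eq_or_ne Y ⊤ with rfl | hY
  · simp
  lift q to ℝ≥0 using hq
  lift B to ℝ≥0 using hB
  lift Y to ℝ≥0 using hY
  rw [ENNReal.ofReal, ENNReal.ofReal] at h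
  norm_cast at h ⊢
  rw [← NNReal.coe_le_coe] at h ⊢
  push_cast at h ⊢
  rw [Real.coe_toNNReal _ (by norm_num), Real.coe_toNNReal _ (by norm_num)] at h
  nlinarith [B.coe_nonneg, Y.coe_nonneg]

lemma half {δ : ℝ} (hδ : 0 < δ) {p : V} (h0 : 0 < p o) (h : 0 ≤ mu p) :
    hh δ ((2⁻¹ : ℝ) • p) * ENNReal.ofReal (1 / 256) ≤ ENNReal.ofReal (1 / 64) *
      (hh δ p + (Metric.closedBall (0 : V) 2).indicator 1 p) := by
  by_cases m : (2⁻¹ : ℝ) • p ∈ sh δ
  swap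
  · simp [hh, m]
  rw [hh, indicator_of_mem m, wt, ← ENNReal.ofReal_mul (by positivity)]
  simp only [sh, mem_setOf_eq, Pi.smul_apply, smul_eq_mul] at m ⊢
  have e : (2⁻¹ * p o)⁻¹ ^ 2 * (1 / 256) = 1 / 64 * (p o)⁻¹ ^ 2 := by field_simp; norm_num
  rw [e, ENNReal.ofReal_mul (by norm_num)]
  refine mul_le_mul_right ?_ _
  by_cases m1 : p o ≤ 1
  · rw [indicator_of_mem (show p ∈ {p : V | δ < p o ∧ p o ≤ 1} from ⟨by linarith [m.1], m1⟩)]
    exact le_self_add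
  · refine le_add_left ?_
    rw [indicator_of_mem (mem_closedBall_zero_iff.2 ((Ani.cone h0 h).1.trans (by linarith [m.2])))]
    exact ENNReal.ofReal_le_one.2 (pow_le_one₀ (by positivity)
      (inv_le_one_of_one_le₀ (not_le.1 m1).le))

lemma bnd {δ : ℝ} (hδ : 0 ≤ δ) (v : V) {p : V} (h0 : 0 < p o) (h : 0 ≤ mu p) :
    hh δ p * ENNReal.ofReal (mdot p v ^ 2) ≤ ENNReal.ofReal ((4 * ‖v‖) ^ 2) *
      (Metric.closedBall (0 : V) 1).indicator 1 p := by
  by_cases m : p ∈ sh δ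
  swap
  · simp [hh, m]
  have c := (Ani.cone h0 h).1
  rw [hh, indicator_of_mem m, indicator_of_mem (mem_closedBall_zero_iff.2 (c.trans m.2)), wt,
    ← ENNReal.ofReal_mul (by positivity), Pi.one_apply, mul_one, ← mul_pow]
  refine ENNReal.ofReal_le_ofReal (sq_le_sq' ?_ ?_) <;>
    have a := abs_le.1 (abs_mdot_le p v) <;> have := norm_nonneg v
  · rw [← div_eq_inv_mul, le_div_iff₀ h0]; nlinarith [a.1]
  · rw [← div_eq_inv_mul, div_le_iff₀ h0]; nlinarith [a.2]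

lemma fin {δ : ℝ} (hδ : 0 < δ) {ρ : Measure V} [IsLocallyFiniteMeasure ρ]
    (hc : ∀ᵐ p ∂ρ, 0 < p o ∧ 0 ≤ mu p) : ∫⁻ p, hh δ p ∂ρ ≠ ⊤ := by
  refine ne_top_of_le_ne_top (b := ∫⁻ p, ENNReal.ofReal (δ⁻¹ ^ 2) *
    (Metric.closedBall (0 : V) 1).indicator 1 p ∂ρ) ?_ (lintegral_mono_ae (hc.mono fun p hp => ?_))
  · rw [lintegral_const_mul' _ _ ENNReal.ofReal_ne_top,
      lintegral_indicator_one Metric.isClosed_closedBall.measurableSet]
    exact ENNReal.mul_ne_top ENNReal.ofReal_ne_top (isCompact_closedBall _ _).measure_lt_top.ne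
  by_cases m : p ∈ sh δ
  swap
  · simp [hh, m]
  rw [hh, indicator_of_mem m,
    indicator_of_mem (mem_closedBall_zero_iff.2 ((Ani.cone hp.1 hp.2).1.trans m.2)), wt,
    Pi.one_apply, mul_one]
  exact ENNReal.ofReal_le_ofReal (pow_le_pow_left₀ (inv_pos.2 hp.1).le (inv_anti₀ hδ m.1.le) 2)

lemma lim {ρ : Measure V} {K : ℝ≥0∞} (h : ∀ δ, 0 < δ → ∫⁻ p, hh δ p ∂ρ ≤ K) :
    ∫⁻ p, hh 0 p ∂ρ ≤ K := by
  have e : ∀ δ, ∫⁻ p, hh δ p ∂ρ = ρ.withDensity wt (sh δ) := fun δ => by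
    rw [withDensity_apply _ (meas_sh δ), hh, lintegral_indicator (meas_sh δ)]
  have u : sh 0 = ⋃ n : ℕ, sh (1 / ((n : ℝ) + 1)) := by
    ext p
    simp only [sh, mem_setOf_eq, mem_iUnion]
    exact ⟨fun a => (exists_nat_one_div_lt a.1).imp fun n hn => ⟨hn, a.2⟩,
      fun ⟨n, a⟩ => ⟨Nat.one_div_pos_of_nat.trans a.1, a.2⟩⟩
  rw [e, u, Monotone.measure_iUnion (s := fun n : ℕ => sh (1 / ((n : ℝ) + 1))) fun n m hnm p hp =>
    And.intro ((Nat.one_div_le_one_div hnm).trans_lt hp.1) hp.2]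
  exact iSup_le fun n => e _ ▸ h _ Nat.one_div_pos_of_nat

variable {D : Type*} [NormedAddCommGroup D] [InnerProductSpace ℂ D] {c : Ctx D}

lemma nu_dil (g : GRP c) {s : ℝ} (hs : 0 < s) (w : Completion D) {φ : V → ℝ≥0∞}
    (hφ : Measurable φ) :
    ∫⁻ p, φ p ∂c.nu (Ug c.Q s GF.one 0 w) = ∫⁻ p, φ (s⁻¹ • p) ∂c.nu w := by
  rw [← Two.nu_W (g.uni s GF.one 0) (A := fun y => s • y) (k := fun p => s • p) (by fun_prop)
    (fun y => ?_) (fun p y => by simp only [mdot_eq, Pi.smul_apply, smul_eq_mul]; ring) w,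
    lintegral_map (by fun_prop) (by fun_prop)]
  · simp only [smul_smul, inv_mul_cancel₀ hs.ne', one_smul]
  rw [Ut, Ut, g.mul _ _ _ _ _ _ hs one_pos H496.isLor_one H496.isLor_one,
    g.mul _ _ _ _ _ _ one_pos hs H496.isLor_one H496.isLor_one]
  simp [sim_one]

end Irn

end

end Vale.Agent.P352L.TPD
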