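import Vale.Agent.P352X.TPD.Spec
import Vale.Agent.P352L.Spec

/-!
# P352L, block TPD: vocabulary and rows for single distributions (helper14)
-/

set_option linter.all false

open MeasureTheory Filter Topology
open scoped SchwartzMap ComplexConjugate ENNReal ContDiff

namespace Vale.Agent.P352L.TPD

open Vale.Agent.P352X

export Vale.Agent.P352X.TPD (Tn pb pol pf cs et sq ee trc tl h0 sy d1 b1 d3 b3 i3 Ok r1 cyc sw Lsc
  Lb Lg na nb pS ng pS_apply ng_apply bx OffD EC cut_sim TT Fam WW psi g1 dvg TEN PER EXP SPAN EQ1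
  EQ2 df5 POLYN NODES crl dcr)

open Vale.Agent.P352 Vale.Agent.P352.GF Vale.Agent.P352.BW Vale.Agent.P352.H246
open Vale.Agent.P352.H496 Vale.Agent.P352.H755 Vale.Agent.P352.H15
open UniformSpace (Completion)
open Complex (I)

noncomputable section

variable {D : Type*} [NormedAddCommGroup D] [InnerProductSpace ℂ D] (c : Ctx D)

/-- the action of the linear similitudes on distributions -/
def act (s : ℝ) (L : Ix → V) : TT D →ₗ[ℝ] TT D where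
  toFun x := Ug c.Q s L 0 ∘L x ∘L pS s L
  map_add' x y := by ext f; simp
  map_smul' a x := by ext f; simp

lemma act_apply (s : ℝ) (L : Ix → V) (x : TT D) (f : Sch) :
    act c s L x f = Ug c.Q s L 0 (x (pS s L f)) := rfl

/-- the action on families -/
def ga (s : ℝ) (L : Ix → V) : Fam D →ₗ[ℝ] Fam D where
  toFun x η := act c s L (x (η.pull s L))
  map_add' x y := funext fun η => map_add _ _ _
  map_smul' a x := funext fun η => map_smul (act c s L) a _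

lemma ga_apply (s : ℝ) (L : Ix → V) (x : Fam D) (η : EC) :
    ga c s L x η = act c s L (x (η.pull s L)) := rfl

/-- the PCT operator -/
def Th : Completion D →L⋆[ℂ] Completion D :=
  c.J.toLinearIsometry.toContinuousLinearMap.comp (Ug c.Q 1 r1 0)

lemma Th_apply (z : Completion D) : Th c z = c.J (Ug c.Q 1 r1 0 z) := rfl

/-- the projection orthogonal to the vacuum -/
def Pp : Completion D →L[ℂ] Completion D := 1 - (innerSL ℂ c.Om).smulRight c.Om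

/-- translation covariant and orthogonal to the vacuum -/
structure TC (x : TT D) : Prop where
  tra : ∀ a f, Ut c.Q a (x f) = x (ST.tsl a f)
  perp : ∀ f, inner ℂ c.Om (x f) = 0

/-- wedge local up to the set `K`, with the partner `σ Θ x (f (-z))` -/
def Loc (σ : ℝ) (K : Set V) (x : TT D) : Prop := ∀ a b y (f : Sch), IsNull a → IsNull b →
  0 < mdot a b → HasCompactSupport f → tsupport f ⊆ Wdg a b y →
  (∀ z ∈ tsupport f, ∀ u ∈ K, z + u ∈ Wdg a b y) →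
  Pr (c.N (Wdg a b y)) c.Om (x f) (σ • Th c (x (ng f)))

/-- local, of scaling dimension `4 - k` -/
structure Hom (σ : ℝ) (k : ℕ) (y : TT D) : Prop where
  tc : TC c y
  loc : Loc c σ ∅ y
  hom : ∀ s : ℝ, 0 < s → s ^ k • act c s GF.one y = y

/-- wedge locality of a two point distribution, including the diagonal -/
def LocW (w : WW D) : Prop := ∀ a b y I J (G G' : S2), IsNull a → IsNull b → 0 < mdot a b →
  HasCompactSupport G → tsupport G ⊆ Wdg a b y ×ˢ Wdg a b y → (∀ x z, G' (x, z) = G (-x, -z)) →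
  Pr (c.N (Wdg a b y)) c.Om (Pp c (w I J G)) (Th c (Pp c (w I J G')))

/-- row BA: the calculus of `Th`, `act`, `TC`, `Loc` -/
structure BA : Prop where
  th_ug : ∀ s L a z, 0 < s → IsLor L → Th c (Ug c.Q s L a z) = Ug c.Q s L (-a) (Th c z)
  th_om : Th c c.Om = c.Om
  th_th : ∀ z, Th c (Th c z) = z
  j_th : ∀ z, c.J (Th c z) = Ug c.Q 1 r1 0 z
  th_inner : ∀ v w, inner ℂ (Th c v) (Th c w) = inner ℂ w v
  th_phi : ∀ F z, SN.Bd F → Th c (c.bt.Phi F z) = c.bt.Phi (fun p => conj (F p)) (Th c z)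
  pp : ∀ z, inner ℂ c.Om (Pp c z) = 0 ∧ Th c (Pp c z) = Pp c (Th c z) ∧
    (∃ κ : ℂ, z = Pp c z + κ • c.Om) ∧ (inner ℂ c.Om z = 0 → Pp c z = z) ∧
    ∀ s L a, Ug c.Q s L a (Pp c z) = Pp c (Ug c.Q s L a z)
  pp_pr : ∀ O ψ ψ', Pr (c.N O) c.Om ψ ψ' → Pr (c.N O) c.Om (Pp c ψ) (Pp c ψ')
  mul : ∀ s s' L L' x, 0 < s → 0 < s' → IsLor L → IsLor L' →
    act c s L (act c s' L' x) = act c (s * s') (T.cm L' L) x
  one : ∀ x, act c 1 GF.one x = x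
  gmul : ∀ s s' L L' x, 0 < s → 0 < s' → IsLor L → IsLor L' →
    ga c s L (ga c s' L' x) = ga c (s * s') (T.cm L' L) x
  gone : ∀ x, ga c 1 GF.one x = x
  nrm : ∀ s L x f, ‖act c s L x f‖ = ‖x (pS s L f)‖
  der : ∀ (s : ℝ) L x v, 0 < s → IsLor L →
    act c s L (x ∘L KDa.dS v) = s • (act c s L x ∘L KDa.dS (sim 1 L 0 v))
  cont : ∀ (ι : Type) (l : Filter ι) (L : ι → Ix → V) L0 x f, (∀ i, IsLor (L i)) → IsLor L0 →
    Tendsto L l (𝓝 L0) → Tendsto (fun i => act c 1 (L i) x f) l (𝓝 (act c 1 L0 x f))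
  gro : ∀ x : TT D, ∃ N : ℕ, ∀ f, ∃ C : ℝ, ∀ t, ‖act c 1 (Lb t) x f‖ ≤ C * Real.exp (N * |t|)
  tc0 : TC c 0
  tc_add : ∀ x y, TC c x → TC c y → TC c (x + y)
  tc_smul : ∀ (a : ℝ) x, TC c x → TC c (a • x)
  tc_act : ∀ s L x, 0 < s → IsLor L → TC c x → TC c (act c s L x)
  tc_der : ∀ v x, TC c x → TC c (x ∘L KDa.dS v)
  tc_gn : ∀ v x f, TC c x → Gn (fun t => Ut c.Q (t • v)) (x f) (I • x (KDa.dS v f))
  tc_psi : ∀ v x f, TC c x → c.bt.Dom (fun p => (mdot p v : ℝ)) (x f) ∧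
    x (KDa.dS v f) = -I • c.bt.Psi (fun p => (mdot p v : ℝ)) (x f)
  tc_rel : ∀ x f g, TC c x → c.bt.Phi (ft (ev g)) (x f) = c.bt.Phi (ft (ev f)) (x g)
  loc0 : ∀ σ K, Loc c σ K 0
  loc_add : ∀ σ K x y, Loc c σ K x → Loc c σ K y → Loc c σ K (x + y)
  loc_smul : ∀ σ K (a : ℝ) x, Loc c σ K x → Loc c σ K (a • x)
  loc_mono : ∀ σ K K' x, K ⊆ K' → Loc c σ K x → Loc c σ K' x
  loc_act : ∀ σ K s L x, 0 < s → IsLor L → Loc c σ K x →
    Loc c σ (sim s L 0 '' K) (act c s L x)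
  loc_der : ∀ σ K v x, Loc c σ K x → Loc c (-σ) K (x ∘L KDa.dS v)
  loc_small : ∀ σ K x, (∀ ε : ℝ, 0 < ε → Loc c σ (K ∪ Metric.ball 0 ε) x) → Loc c σ K x
  loc_lim : ∀ σ K (x : ℕ → TT D) y, (∀ f, Tendsto (fun n => x n f) atTop (𝓝 (y f))) →
    (∀ ε : ℝ, 0 < ε → ∀ᶠ n in atTop, Loc c σ (K ∪ Metric.ball 0 ε) (x n)) → Loc c σ K y
  hom0 : ∀ σ k, Hom c σ k 0
  hom_add : ∀ σ k x y, Hom c σ k x → Hom c σ k y → Hom c σ k (x + y)
  hom_smul : ∀ σ k (a : ℝ) x, Hom c σ k x → Hom c σ k (a • x)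
  hom_act : ∀ σ k L x, IsLor L → Hom c σ k x → Hom c σ k (act c 1 L x)

/-- `Th`, `act` -/
structure BA1 : Prop where
  th_ug : ∀ s L a z, 0 < s → IsLor L → Th c (Ug c.Q s L a z) = Ug c.Q s L (-a) (Th c z)
  th_om : Th c c.Om = c.Om
  th_th : ∀ z, Th c (Th c z) = z
  j_th : ∀ z, c.J (Th c z) = Ug c.Q 1 r1 0 z
  th_inner : ∀ v w, inner ℂ (Th c v) (Th c w) = inner ℂ w v
  th_phi : ∀ F z, SN.Bd F → Th c (c.bt.Phi F z) = c.bt.Phi (fun p => conj (F p)) (Th c z)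
  pp : ∀ z, inner ℂ c.Om (Pp c z) = 0 ∧ Th c (Pp c z) = Pp c (Th c z) ∧
    (∃ κ : ℂ, z = Pp c z + κ • c.Om) ∧ (inner ℂ c.Om z = 0 → Pp c z = z) ∧
    ∀ s L a, Ug c.Q s L a (Pp c z) = Pp c (Ug c.Q s L a z)
  pp_pr : ∀ O ψ ψ', Pr (c.N O) c.Om ψ ψ' → Pr (c.N O) c.Om (Pp c ψ) (Pp c ψ')
  mul : ∀ s s' L L' x, 0 < s → 0 < s' → IsLor L → IsLor L' →
    act c s L (act c s' L' x) = act c (s * s') (T.cm L' L) x
  one : ∀ x, act c 1 GF.one x = x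
  gmul : ∀ s s' L L' x, 0 < s → 0 < s' → IsLor L → IsLor L' →
    ga c s L (ga c s' L' x) = ga c (s * s') (T.cm L' L) x
  gone : ∀ x, ga c 1 GF.one x = x
  nrm : ∀ s L x f, ‖act c s L x f‖ = ‖x (pS s L f)‖
  der : ∀ (s : ℝ) L x v, 0 < s → IsLor L →
    act c s L (x ∘L KDa.dS v) = s • (act c s L x ∘L KDa.dS (sim 1 L 0 v))
  cont : ∀ (ι : Type) (l : Filter ι) (L : ι → Ix → V) L0 x f, (∀ i, IsLor (L i)) → IsLor L0 →
    Tendsto L l (𝓝 L0) → Tendsto (fun i => act c 1 (L i) x f) l (𝓝 (act c 1 L0 x f))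
  gro : ∀ x : TT D, ∃ N : ℕ, ∀ f, ∃ C : ℝ, ∀ t, ‖act c 1 (Lb t) x f‖ ≤ C * Real.exp (N * |t|)

/-- `TC`, `Loc`, `Hom` -/
structure BA2 : Prop where
  tc0 : TC c 0
  tc_add : ∀ x y, TC c x → TC c y → TC c (x + y)
  tc_smul : ∀ (a : ℝ) x, TC c x → TC c (a • x)
  tc_act : ∀ s L x, 0 < s → IsLor L → TC c x → TC c (act c s L x)
  tc_der : ∀ v x, TC c x → TC c (x ∘L KDa.dS v)
  tc_gn : ∀ v x f, TC c x → Gn (fun t => Ut c.Q (t • v)) (x f) (I • x (KDa.dS v f))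
  tc_psi : ∀ v x f, TC c x → c.bt.Dom (fun p => (mdot p v : ℝ)) (x f) ∧
    x (KDa.dS v f) = -I • c.bt.Psi (fun p => (mdot p v : ℝ)) (x f)
  tc_rel : ∀ x f g, TC c x → c.bt.Phi (ft (ev g)) (x f) = c.bt.Phi (ft (ev f)) (x g)
  loc0 : ∀ σ K, Loc c σ K 0
  loc_add : ∀ σ K x y, Loc c σ K x → Loc c σ K y → Loc c σ K (x + y)
  loc_smul : ∀ σ K (a : ℝ) x, Loc c σ K x → Loc c σ K (a • x)
  loc_mono : ∀ σ K K' x, K ⊆ K' → Loc c σ K x → Loc c σ K' x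
  loc_act : ∀ σ K s L x, 0 < s → IsLor L → Loc c σ K x →
    Loc c σ (sim s L 0 '' K) (act c s L x)
  loc_der : ∀ σ K v x, Loc c σ K x → Loc c (-σ) K (x ∘L KDa.dS v)
  loc_small : ∀ σ K x, (∀ ε : ℝ, 0 < ε → Loc c σ (K ∪ Metric.ball 0 ε) x) → Loc c σ K x
  loc_lim : ∀ σ K (x : ℕ → TT D) y, (∀ f, Tendsto (fun n => x n f) atTop (𝓝 (y f))) →
    (∀ ε : ℝ, 0 < ε → ∀ᶠ n in atTop, Loc c σ (K ∪ Metric.ball 0 ε) (x n)) → Loc c σ K y
  hom0 : ∀ σ k, Hom c σ k 0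
  hom_add : ∀ σ k x y, Hom c σ k x → Hom c σ k y → Hom c σ k (x + y)
  hom_smul : ∀ σ k (a : ℝ) x, Hom c σ k x → Hom c σ k (a • x)
  hom_act : ∀ σ k L x, IsLor L → Hom c σ k x → Hom c σ k (act c 1 L x)

theorem BA.of {c : Ctx D} (h1 : BA1 c) (h2 : BA2 c) : BA c :=
  ⟨h1.th_ug, h1.th_om, h1.th_th, h1.j_th, h1.th_inner, h1.th_phi, h1.pp, h1.pp_pr,
    h1.mul, h1.one, h1.gmul, h1.gone, h1.nrm, h1.der, h1.cont, h1.gro, h2.tc0, h2.tc_add,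
    h2.tc_smul, h2.tc_act, h2.tc_der, h2.tc_gn, h2.tc_psi, h2.tc_rel, h2.loc0, h2.loc_add,
    h2.loc_smul, h2.loc_mono, h2.loc_act, h2.loc_der, h2.loc_small, h2.loc_lim, h2.hom0, h2.hom_add,
    h2.hom_smul, h2.hom_act⟩

/-- the tools -/
structure B0 : Prop extends T1 c where
  ten : TEN
  exp : EXP
  ba : BA c

/-- row RHO: the two point measure -/
def RHO : Prop := ∀ x, TC c x → ∃ ρ : Measure V, IsLocallyFiniteMeasure ρ ∧
  (∀ f : Sch, c.nu (x f) = ρ.withDensity fun p => ENNReal.ofReal (‖ft (ev f) p‖ ^ 2)) ∧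
  (∀ᵐ p ∂ρ, 0 < p o ∧ 0 ≤ mu p) ∧
  ∃ M : ℕ, ∫⁻ p, ENNReal.ofReal (((1 + ‖p‖) ^ M)⁻¹) ∂ρ < ⊤

/-- row IRQ: small transverse momenta -/
def IRQ : Prop := ∀ ψ ψ' (R : ℝ), inner ℂ c.Om ψ = 0 → (∀ (t : ℝ) (x : R2), |t| ≤ 1 → R ≤ ‖x‖ →
    inner ℂ ψ (Ut c.Q (bas o t + tv x) ψ) = inner ℂ (Ut c.Q (bas o t + tv x) ψ') ψ') →
  ∃ C : ℝ, ∀ s, 0 < s → c.nu ψ {p | ‖tx p‖ ≤ s ∧ p o ≤ 1} ≤ ENNReal.ofReal (C * s)

/-- row IRG: the commutator function of a local distribution -/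
def IRG : Prop := ∀ σ K x (f : Sch), TC c x → Loc c σ K x → Bornology.IsBounded K →
  HasCompactSupport f → ∃ R : ℝ, ∀ (t : ℝ) (y : R2), |t| ≤ 1 → R ≤ ‖y‖ →
    inner ℂ (x f) (Ut c.Q (bas o t + tv y) (x f)) =
      inner ℂ (Ut c.Q (bas o t + tv y) (σ • Th c (x (ng f)))) (σ • Th c (x (ng f)))

/-- row ANI: the gain under anisotropic scalings -/
def ANI : Prop := ∀ σ K x (r s : ℝ), TC c x → Loc c σ K x → Bornology.IsBounded K → 0 < r →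
  r < 1 → 0 < s → s < 1 → ∃ (m : ℕ) (C : ℝ), ∀ (N : ℕ) (f g : Sch),
    (∀ z, g z = f (scp (r ^ N) (s ^ N) z)) →
    ‖x g‖ ≤ C * ((r * s) ^ (-(15 / 8 : ℝ))) ^ N * sn m f

/-- row KILL: no local eigenvectors of low twist -/
def KILL : Prop := ∀ σ y (r s a : ℝ), TC c y → Loc c σ ∅ y → 0 < r → r < 1 → 0 < s → s < 1 →
  act c (Real.sqrt (r * s)) (Lsc r s) y = a • y → (r * s) ^ (-(15 / 8 : ℝ)) < a → y = 0

/-- row HMU: functions of the mass preserve wedge locality -/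
def HMU : Prop := ∀ a b y ψ ψ' (h : ℝ → ℝ), IsNull a → IsNull b → 0 < mdot a b →
  SN.Bd (fun t => (h t : ℂ)) → Pr (c.N (Wdg a b y)) c.Om ψ ψ' →
  Pr (c.N (Wdg a b y)) c.Om (c.bt.Phi (fun p => h (mu p)) ψ) (c.bt.Phi (fun p => h (mu p)) ψ')

/-- row DL0: a distribution with local gradient is local -/
def DL0 : Prop := ∀ σ K x, TC c x → (∀ v, Loc c (-σ) K (x ∘L KDa.dS v)) → Loc c σ K x

/-- `F(P) x` is a tempered distribution -/
def Mu (F : V → ℂ) (x : TT D) : Prop := ∃ (m : ℕ) (C : ℝ), ∀ f : Sch,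
  ∫⁻ p, ENNReal.ofReal (‖F p‖ ^ 2) ∂c.nu (x f) ≤ ENNReal.ofReal ((C * sn m f) ^ 2)

/-- row CVX: highest weight components -/
def CVX : Prop := ∀ x (α β : ℝ), TC c x → (∀ w, act c 1 (Lg w) x = x) →
  (∀ r s, 0 < r → 0 < s → act c (Real.sqrt (r * s)) (Lsc r s) x = (r ^ α * s ^ β) • x) →
  -3 / 2 < β → ∃ κ : ℝ, 0 ≤ κ ∧ ∀ f : Sch, c.nu (x f) = (volume.restrict Fc).withDensity fun p =>
    ENNReal.ofReal (κ * be p ^ (2 * α - 2 * β) * mu p ^ (2 * β + 2) * ‖ft (ev f) p‖ ^ 2)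

/-- row MUL -/
def MUL : Prop := ∀ F x, TC c x → Measurable F → Mu c F x →
  ∃ y, TC c y ∧ ∀ f, c.bt.Dom F (x f) ∧ y f = c.bt.Psi F (x f)

/-- `m` is the potential of `n` -/
structure Pot (n : V →ₗ[ℝ] TT D) (m : TT D) : Prop where
  tc : TC c m
  pos : ∀ f, c.bt.P {p | mu p ≠ 0} (m (bx f)) = c.bt.P {p | mu p ≠ 0} (dvg (fun v => n v) f)
  nul : ∀ v f, c.bt.P {p | mu p = 0} (m (KDa.dS v f)) = c.bt.P {p | mu p = 0} (n v f)

/-- row POT: existence, uniqueness and locality of the potential -/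
structure POT : Prop where
  ex : ∀ n : V →ₗ[ℝ] TT D, (∀ v, TC c (n v)) → (∀ v, Mu c (fun p => ((p o)⁻¹ : ℝ)) (n v)) →
    Mu c (fun p => ((mu p * be p)⁻¹ : ℝ)) (dcr n va) →
    Mu c (fun p => ((mu p * al p)⁻¹ : ℝ)) (dcr n vb) →
    (∀ v v' f, c.bt.P {p | mu p = 0} (crl n v v' f) = 0) → ∃ m, Pot c n m
  uq : ∀ n m m', Pot c n m → Pot c n m' → m = m'
  loc : ∀ n m K, (∀ v, TC c (n v)) → (∀ v, Loc c (-1) K (n v)) → Pot c n m → Loc c 1 K m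

end

end Vale.Agent.P352L.TPD
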