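import Vale.Agent.P352L.Pol

/-!
# P352L, block TPD: unipotent one parameter groups (helper14)
-/

set_option linter.all false

open Polynomial Finset

namespace Vale.Agent.P352L

noncomputable section

variable {E : Type*} [AddCommGroup E] [Module ℝ E]

/-- differences lower the degree -/
theorem IsPol.dif {J : ℕ} {F : ℝ → E} (h : IsPol (J + 1) F) (s : ℝ) :
    IsPol J fun t => F (t + s) - F t := by
  obtain ⟨a, h⟩ := h
  refine IsPol.of_poly (range (J + 2)) (fun i => (X + C s) ^ i - X ^ i) a (fun i hi => ?_)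
    fun t => ?_
  · rcases i with _ | i
    · simp
    have h1 : ((X + C s) ^ (i + 1) : ℝ[X]).Monic := (monic_X_add_C s).pow _
    have h2 : ((X + C s) ^ (i + 1) : ℝ[X]).degree = (X ^ (i + 1) : ℝ[X]).degree := by
      rw [degree_pow, degree_X_add_C, degree_pow, degree_X]
    have h3 := degree_sub_lt h2 h1.ne_zero (by rw [h1.leadingCoeff, (monic_X_pow _).leadingCoeff])
    rw [h2, degree_X_pow] at h3
    have h4 := mem_range.1 hi
    by_cases h0 : ((X + C s) ^ (i + 1) - X ^ (i + 1) : ℝ[X]) = 0
    · rw [h0, natDegree_zero]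
      exact Nat.zero_le _
    · have := (natDegree_lt_iff_degree_lt h0).2 h3
      omega
  · simp only [h, ← sum_sub_distrib, ← sub_smul, eval_sub, eval_pow, eval_add, eval_X, eval_C]

theorem IsPol.zero_eq {F : ℝ → E} (h : IsPol 0 F) (s t : ℝ) : F s = F t := by
  obtain ⟨a, h⟩ := h
  simp [h]

/-- unipotent one parameter groups -/
structure Uni (E : Type*) [AddCommGroup E] [Module ℝ E] where
  A : ℝ → E →ₗ[ℝ] E
  n : ℕ
  zero : ∀ e, A 0 e = e
  add : ∀ s t e, A (s + t) e = A s (A t e)
  pol : ∀ e, IsPol n fun t => A t e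

namespace Uni

variable (u : Uni E)

/-- **induction on the degree** -/
theorem ind {P : E → Prop} (h0 : P 0) (h : ∀ e, (∀ t, P (u.A t e - e)) → P e) (e : E) : P e := by
  have : ∀ j e, IsPol j (fun t => u.A t e) → P e := fun j => by
    induction j with
    | zero =>
      refine fun e he => h e fun t => ?_
      rwa [he.zero_eq t 0, u.zero, sub_self]
    | succ j ih =>
      refine fun e he => h e fun t => ih _ ((he.dif t).congr fun s => ?_)
      rw [map_sub, u.add]
  exact this _ e (u.pol e)

/-- induction for linear maps -/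
theorem eq_zero {X : Type*} [AddCommGroup X] [Module ℝ X] {y : E →ₗ[ℝ] X}
    (h : ∀ e, (∀ t, y (u.A t e) = y e) → y e = 0) : y = 0 :=
  LinearMap.ext (u.ind (P := fun e => y e = 0) (map_zero y) fun e he => h e fun t => by
    rw [← sub_eq_zero, ← map_sub, he t])

theorem comm (s t : ℝ) (e : E) : u.A s (u.A t e) = u.A t (u.A s e) := by
  rw [← u.add, ← u.add, add_comm]

theorem neg (t : ℝ) (e : E) : u.A t (u.A (-t) e) = e := by rw [← u.add, add_neg_cancel, u.zero]

theorem neg' (t : ℝ) (e : E) : u.A (-t) (u.A t e) = e := by rw [← u.add, neg_add_cancel, u.zero]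

theorem iter (t : ℝ) (N : ℕ) (e : E) : (u.A t)^[N + 1] e =
    (u.A t)^[N] e + (u.A t)^[N] (u.A t e - e) := by
  rw [Function.iterate_succ_apply, ← Module.End.pow_apply, ← Module.End.pow_apply,
    ← Module.End.pow_apply, ← map_add, add_sub_cancel]

end Uni

end

end Vale.Agent.P352L
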