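import Vale.Agent.P352X.TPD.Ten2
import Vale.Agent.P352X.TPD.Ten3
import Vale.Agent.P352X.TPD.EXP
import Vale.Agent.P352X.TPD.SPAN
import Vale.Agent.P352X.TPD.EQ1
import Vale.Agent.P352X.TPD.EQ2
import Vale.Agent.P352X.TPD.POLYN
import Vale.Agent.P352X.TPD.NODES
import Vale.Agent.P352L.TPD.IRQ
import Vale.Agent.P352L.TPD.IRG
import Vale.Agent.P352L.TPD.HMU
import Vale.Agent.P352L.TPD.DL0
import Vale.Agent.P352L.TPD.CVX
import Vale.Agent.P352L.TPD.POT
import Vale.Agent.P352L.TPD.EBa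
import Vale.Agent.P352L.TPD.ELim
import Vale.Agent.P352L.TPD.EWl
import Vale.Agent.P352L.TPD.EEu
import Vale.Agent.P352L.TPD.EPhi
import Vale.Agent.P352L.TPD.EFive
import Vale.Agent.P352L.TPD.ETl
import Vale.Agent.P352L.TPD.ESc
import Vale.Agent.P352L.TPD.EA2
import Vale.Agent.P352L.TPD.EIrn
import Vale.Agent.P352L.TPD.EDiv
import Vale.Agent.P352L.TPD.ECrl
import Vale.Agent.P352L.TPD.Fin2
import Vale.Agent.P352L.TPD.CMP

/-!
# P352L, block TPD: the wiring of the rows for the products of two components (helper14)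
-/

set_option linter.all false

namespace Vale.Agent.P352L.TPD

open Vale.Agent.P352X.TPD (TEN.of ten1_row ten2_row ten3_row exp_row span_row eq1_row eq2_row
  polyn_row nodes_row)

variable {D : Type*} [NormedAddCommGroup D] [InnerProductSpace ℂ D]

theorem ten_thm : TEN := TEN.of ten1_row ten2_row ten3_row

theorem b0_of (c : Ctx D) (t : T1 c) : B0 c :=
  have b1 := ba1_row c t ten_thm
  ⟨t, ten_thm, exp_row, BA.of b1 (ba2_row c t ten_thm b1)⟩

theorem TE.ext_all {E : Type*} [AddCommGroup E] [Module ℝ E] [Module.Finite ℝ E] (c : TE.Cx D E)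
    (b : TE.B0 c) (cv : TE.CVX c) {w : TE.EW D E} (hs : TE.Src c w) (k : ℕ) : TE.Ext c w k := by
  have rho := rho_row _ b.b
  have ani := ani_row _ b.b rho (irq_row _ b.b) (irg_row _ b.b)
  have lim := TE.lim_row c b ani
  have wl := TE.wl_row c b (TE.kill_row c b (TPD.kill_row _ b.b ani))
  have a3 := TE.a3_row c b (span_row b.ten) lim wl (TE.eu_row c b)
  have a1 := TE.a1_row c b (eq1_row b.ten)
  have tl := TE.tl_row c b polyn_row nodes_row (TE.phi_row c b lim wl) (TE.five_row c b wl)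
  have div := TE.div_row c b (TE.irn_row c b rho)
    (pot_row _ b.b (mul_row _ b.b) (hmu_row _ b.b) (dl0_row _ b.b))
    (TE.crl_row c b (TPD.cvx_row _ b.b) cv)
  have a2 := TE.a2_row c b (eq2_row b.ten) a3 tl (TE.sc_row c b a1 tl div)
  rcases lt_trichotomy k 2 with h | rfl | h
  exacts [a1 _ hs k h, a2 _ hs, a3 _ hs k h]

/-- The time ordered and the anti-time ordered products of two components exist. -/
theorem two_of (c : Ctx D) (t : All T1 c) (wk : WK c) (cv : TE.B0 (cE c) → TE.CVX (cE c)) :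
    ∃ wp wm, TP2 c.Q c.TT true wp ∧ TP2 c.Q c.TT false wm ∧ c.Cmp wp wm := by
  have b := b0_of c t.zero
  have b' : TE.B0 (cE c) := TE.b0_of b
  obtain ⟨W, h1, h2, h3, h4⟩ := wk
  have hW : Mx.WKer c.Q c.TT c.n0 W := ⟨c.hF.st, h1, h2, h3, h4⟩
  obtain ⟨w, hw⟩ := Mx.exists_w0 hW
  have hs := src_nd b (fun x => (t x).jc) hW hw
  obtain ⟨u, hu⟩ := TE.ex_full b' hs (TE.ext_all _ b' (cv b') hs)
  obtain ⟨wp, tp, hl⟩ := fin_row b hW hw (.of hW hw hu)
  obtain ⟨wm, tm, hc⟩ := cmp_row b t tp fun α => hl α α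
  exact ⟨wp, wm, tp, tm, hc⟩

end Vale.Agent.P352L.TPD
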